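import Vale.Agent.P167.H469.Cmp
import Vale.Agent.P167.H704.Q.Bank

/-!
# P167, general `q`, block Q-SRSW: lower bound for the connection to the arc near the junction
-/

namespace Vale.Agent.P167.H469

open Finset Relation Vale.Agent.P167.FK Vale.Agent.P167.FKA Vale.Agent.P167.H947.Q
  Vale.Agent.P167.QM
open Vale.Agent.P145.FB (PStep PConn)
open Vale.Agent.P153.Topo (Rect mem_rect)
open Vale.Agent.P167.H632 (bl IncC cs)
open Vale.Agent.P167.H704 (Hc Vc meet)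
open Vale.Agent.P167.H704.Q (rs_fk bank fil Wd Shr cst prC_inter)

variable {Q : ℝ}

/-! ### Paths -/

theorem pconn_map {F F' R R' : Set (ℤ × ℤ)} {σ : ℤ × ℤ → ℤ × ℤ}
    (h : ∀ u v, PStep F u v → PStep F' (σ u) (σ v)) (hR : ∀ u ∈ R, σ u ∈ R') {u v : ℤ × ℤ}
    (huv : PConn F R u v) : PConn F' R' (σ u) (σ v) := by
  obtain ⟨h0, h1⟩ := huv
  induction h1 with
  | refl => exact PConn.refl (hR _ h0)
  | tail _ h2 ih => exact ih.tail (h _ _ h2.1) (hR _ h2.2)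

theorem pc_of {ω : Cfg} {R : Set (ℤ × ℤ)} {u v : ℤ × ℤ} (h : PConn (op ω) R u v) : PC ω u v := by
  obtain ⟨-, h1⟩ := h
  induction h1 with
  | refl => exact ReflTransGen.refl
  | tail _ h2 ih => exact ih.tail h2.1

theorem Pr_le {D : Finset (ℤ × ℤ)} {η : Cfg} (hQ : 0 < Q) {A B : Set Cfg}
    (h : ∀ S, S ⊆ D → cf D η S ∈ A → cf D η S ∈ B) : Pr Q D η A ≤ Pr Q D η B := by
  refine Ex_mono hQ fun S hS => ?_
  by_cases h1 : cf D η S ∈ A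
  · rw [Set.indicator_of_mem h1, Set.indicator_of_mem (h S hS h1)]
  · rw [Set.indicator_of_notMem h1]
    exact ind_nonneg _ _

/-! ### The three sides of a half block -/

/-- Path to the left side. -/
def Lf (x : ℤ × ℤ) (d : ℤ) : Set Cfg :=
  {ω | ∃ v, v.1 = x.1 - d ∧ PConn (op ω) (Rect (x.1 - d) (x.1 + d) x.2 (x.2 + d)) x v}

/-- Path to the right side. -/
def Ri (x : ℤ × ℤ) (d : ℤ) : Set Cfg :=
  {ω | ∃ v, v.1 = x.1 + d ∧ PConn (op ω) (Rect (x.1 - d) (x.1 + d) x.2 (x.2 + d)) x v}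

/-- Path to the top side. -/
def Tp (x : ℤ × ℤ) (d : ℤ) : Set Cfg :=
  {ω | ∃ v, v.2 = x.2 + d ∧ PConn (op ω) (Rect (x.1 - d) (x.1 + d) x.2 (x.2 + d)) x v}

theorem Ar_sub (x : ℤ × ℤ) (d : ℤ) : Ar x d ⊆ (Lf x d ∪ Ri x d) ∪ Tp x d := by
  rintro ω ⟨v, h1, h2⟩
  have hsub : bl x d ∩ {w | x.2 ≤ w.2} ⊆ Rect (x.1 - d) (x.1 + d) x.2 (x.2 + d) := by
    rintro w ⟨hw, hw2⟩
    have hw1 : nm (w - x) ≤ d := hw
    have hw3 : x.2 ≤ w.2 := hw2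
    unfold nm at hw1
    simp only [Prod.fst_sub, Prod.snd_sub, max_le_iff, abs_le] at hw1
    rw [mem_rect]
    omega
  have h3 := h2.mono subset_rfl hsub
  have h4 := h2.right_mem
  obtain ⟨h5, h6⟩ := h4
  have h5' : nm (v - x) ≤ d := h5
  have h6' : x.2 ≤ v.2 := h6
  unfold nm at h1 h5'
  simp only [Prod.fst_sub, Prod.snd_sub, max_le_iff, abs_le, le_max_iff, le_abs] at h1 h5'
  have h7 : v.1 = x.1 - d ∨ v.1 = x.1 + d ∨ v.2 = x.2 + d := by omega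
  rcases h7 with h7 | h7 | h7
  · exact Or.inl (Or.inl ⟨v, h7, h3⟩)
  · exact Or.inl (Or.inr ⟨v, h7, h3⟩)
  · exact Or.inr ⟨v, h7, h3⟩

theorem inc_Lf (x : ℤ × ℤ) (d : ℤ) : IncC true (Lf x d) := by
  rintro o o' ho ⟨v, h1, h2⟩
  exact ⟨v, h1, h2.mono (fun w hw => ho w hw) subset_rfl⟩

theorem inc_Tp (x : ℤ × ℤ) (d : ℤ) : IncC true (Tp x d) := by
  rintro o o' ho ⟨v, h1, h2⟩
  exact ⟨v, h1, h2.mono (fun w hw => ho w hw) subset_rfl⟩

theorem inc_Hc (a b p q : ℤ) : IncC true (Hc true a b p q) := by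
  rintro o o' ho ⟨s, t, h1, h2, h3, h4⟩
  exact ⟨s, t, h1, h2, h3, h4.mono (fun w hw => ho w hw) subset_rfl⟩

theorem inc_Vc (a b p q : ℤ) : IncC true (Vc true a b p q) := by
  rintro o o' ho ⟨s, t, h1, h2, h3, h4⟩
  exact ⟨s, t, h1, h2, h3, h4.mono (fun w hw => ho w hw) subset_rfl⟩

theorem mem_Bq' {x : ℤ × ℤ} {R : ℤ} {v : ℤ × ℤ} : v ∈ Bq x R ↔
    x.1 - R ≤ v.1 ∧ v.1 < x.1 + R ∧ x.2 - R ≤ v.2 ∧ v.2 < x.2 + R := by
  unfold Bq
  rw [Finset.mem_product, Finset.mem_Ico, Finset.mem_Ico]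
  tauto

theorem mem_HB {x : ℤ × ℤ} {R : ℤ} {v : ℤ × ℤ} : v ∈ HB x R ↔
    x.1 - R ≤ v.1 ∧ v.1 < x.1 + R ∧ x.2 - R ≤ v.2 ∧ v.2 < x.2 + R ∧ x.2 ≤ v.2 := by
  unfold HB
  rw [Finset.mem_filter, mem_Bq']
  tauto

/-- The right side and the left side are equally likely. -/
theorem Ri_le (hQ : 0 < Q) (R d : ℤ) : Pr Q (HB 0 R) eta0 (Ri 0 d) ≤ Pr Q (HB 0 R) eta0 (Lf 0 d) := by
  have h := sy_rx.2 Q (HB 0 R) eta0 ((Ri 0 d).indicator 1) hQ f_good.2.1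
  have e1 : (HB 0 R).image (fun v : ℤ × ℤ => (-1 - v.1, v.2)) = HB 0 R := by
    ext v
    rw [Finset.mem_image]
    constructor
    · rintro ⟨w, hw, rfl⟩
      rw [mem_HB] at hw ⊢
      simp only [Prod.fst_zero, Prod.snd_zero] at hw ⊢
      omega
    · intro hv
      refine ⟨(-1 - v.1, v.2), ?_, by ext <;> simp⟩
      rw [mem_HB] at hv ⊢
      simp only [Prod.fst_zero, Prod.snd_zero] at hv ⊢
      omega
  rw [e1] at h
  have e2 : Ex Q (HB 0 R) (eta0 ∘ fun v : ℤ × ℤ => (-1 - v.1, v.2)) ((Ri 0 d).indicator 1) =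
      Pr Q (HB 0 R) eta0 (Ri 0 d) := rfl
  rw [← e2, h]
  refine Pr_mono (A := {ω | ω ∘ (fun v : ℤ × ℤ => (-1 - v.1, v.2)) ∈ Ri 0 d}) hQ ?_
  rintro ω ⟨v, h1, h2⟩
  have h3 := pconn_map (F' := op ω) (R' := Rect (0 - d) (0 + d) 0 (0 + d))
    (σ := fun s : ℤ × ℤ => (-s.1, s.2)) ?_ ?_ h2
  · refine ⟨(-v.1, v.2), ?_, ?_⟩
    · simp only [Prod.fst_zero] at h1 ⊢
      omega
    · have e0 : ((-(0 : ℤ × ℤ).1, (0 : ℤ × ℤ).2) : ℤ × ℤ) = 0 := by ext <;> simp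
      rw [e0] at h3
      exact h3
  · rintro s t ⟨s1, s2, s3⟩
    refine ⟨by simp only; omega, s2, ?_⟩
    have s4 : ω (-1 - min s.1 t.1, min s.2 t.2) = true := s3
    show ω (min (-s.1) (-t.1), min s.2 t.2) = true
    rw [← s4]
    congr 2
    omega
  · intro s hs
    rw [mem_rect] at hs ⊢
    simp only [Prod.fst_zero, Prod.snd_zero] at hs ⊢
    omega

theorem img_HB (k R : ℤ) : (HB 0 R).image (fun v : ℤ × ℤ => (v.1 + ((k, 0) : ℤ × ℤ).1,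
    v.2 + ((k, 0) : ℤ × ℤ).2)) = HB (k, 0) R := by
  ext v
  rw [Finset.mem_image]
  constructor
  · rintro ⟨w, hw, rfl⟩
    rw [mem_HB] at hw ⊢
    simp only [Prod.fst_zero, Prod.snd_zero] at hw ⊢
    omega
  · intro hv
    refine ⟨(v.1 - k, v.2), ?_, by ext <;> simp⟩
    rw [mem_HB] at hv ⊢
    simp only [Prod.fst_zero, Prod.snd_zero] at hv ⊢
    omega

theorem step_tr {k : ℤ} {ω : Cfg} {u v : ℤ × ℤ} (h : PStep (op (ω ∘ fun v : ℤ × ℤ =>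
    (v.1 + ((k, 0) : ℤ × ℤ).1, v.2 + ((k, 0) : ℤ × ℤ).2))) u v) :
    PStep (op ω) (u.1 + k, u.2) (v.1 + k, v.2) := by
  obtain ⟨s1, s2, s3⟩ := h
  refine ⟨by simp only; omega, s2, ?_⟩
  have s4 : ω (min u.1 v.1 + k, min u.2 v.2 + 0) = true := s3
  show ω (min (u.1 + k) (v.1 + k), min u.2 v.2) = true
  rw [← s4]
  congr 2
  · omega
  · omega

theorem tr_le (hQ : 0 < Q) {k : ℤ} (hk : Even k) (R : ℤ) {A B : Set Cfg}
    (h : ∀ ω : Cfg, (ω ∘ fun v : ℤ × ℤ => (v.1 + ((k, 0) : ℤ × ℤ).1,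
      v.2 + ((k, 0) : ℤ × ℤ).2)) ∈ A → ω ∈ B) :
    Pr Q (HB 0 R) eta0 A ≤ Pr Q (HB (k, 0) R) eta0 B := by
  have h1 := (sy_tr (k, 0) (by simpa using hk)).2 Q (HB 0 R) eta0 (A.indicator 1) hQ f_good.2.1
  rw [img_HB] at h1
  have e2 : Ex Q (HB 0 R) (eta0 ∘ fun v : ℤ × ℤ => (v.1 + ((k, 0) : ℤ × ℤ).1,
      v.2 + ((k, 0) : ℤ × ℤ).2)) (A.indicator 1) = Pr Q (HB 0 R) eta0 A := rfl
  rw [← e2, h1]
  exact Pr_mono (A := {ω | (ω ∘ fun v : ℤ × ℤ => (v.1 + ((k, 0) : ℤ × ℤ).1,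
    v.2 + ((k, 0) : ℤ × ℤ).2)) ∈ A}) hQ fun ω hω => h ω hω

theorem ah_le (hQ : 0 < Q) (L : ℤ) {k : ℤ} (hk : Even k) (d : ℤ) :
    ah Q L d ≤ 2 * Pr Q (HB (k, 0) (L * (L * d))) eta0 (Lf (k, 0) d) +
      Pr Q (HB (k, 0) (L * (L * d))) eta0 (Tp (k, 0) d) := by
  have h1 : ah Q L d ≤ Pr Q (HB 0 (L * (L * d))) eta0 ((Lf 0 d ∪ Ri 0 d) ∪ Tp 0 d) :=
    Pr_mono hQ (Ar_sub 0 d)
  have h2 := Pr_union_le hQ (D := HB 0 (L * (L * d))) (η := eta0) (Lf 0 d ∪ Ri 0 d) (Tp 0 d)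
  have h3 := Pr_union_le hQ (D := HB 0 (L * (L * d))) (η := eta0) (Lf 0 d) (Ri 0 d)
  have h4 := Ri_le hQ (L * (L * d)) d
  have h5 : Pr Q (HB 0 (L * (L * d))) eta0 (Lf 0 d) ≤
      Pr Q (HB (k, 0) (L * (L * d))) eta0 (Lf (k, 0) d) := by
    refine tr_le hQ hk _ ?_
    rintro ω ⟨v, h1, h2⟩
    have h3 := pconn_map (F' := op ω) (R' := Rect (k - d) (k + d) 0 (0 + d))
      (σ := fun s : ℤ × ℤ => (s.1 + k, s.2)) (fun u v h => step_tr h) (fun s hs => by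
        rw [mem_rect] at hs ⊢
        simp only [Prod.fst_zero, Prod.snd_zero] at hs ⊢
        omega) h2
    refine ⟨(v.1 + k, v.2), ?_, by simpa using h3⟩
    simp only [Prod.fst_zero] at h1 ⊢
    omega
  have h6 : Pr Q (HB 0 (L * (L * d))) eta0 (Tp 0 d) ≤
      Pr Q (HB (k, 0) (L * (L * d))) eta0 (Tp (k, 0) d) := by
    refine tr_le hQ hk _ ?_
    rintro ω ⟨v, h1, h2⟩
    have h3 := pconn_map (F' := op ω) (R' := Rect (k - d) (k + d) 0 (0 + d))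
      (σ := fun s : ℤ × ℤ => (s.1 + k, s.2)) (fun u v h => step_tr h) (fun s hs => by
        rw [mem_rect] at hs ⊢
        simp only [Prod.fst_zero, Prod.snd_zero] at hs ⊢
        omega) h2
    refine ⟨(v.1 + k, v.2), ?_, by simpa using h3⟩
    simp only [Prod.snd_zero] at h1 ⊢
    omega
  linarith

/-! ### Crossings which land on the arc -/

/-- Vertical crossings which start on the arc. -/
theorem vc_arc (hQ : 1 ≤ Q) {x0 x1 H n a b q : ℤ} (ha : -n ≤ a) (hb : b ≤ 0)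
    (h0 : x0 ≤ a) (h1 : b ≤ x1) {c : ℝ}
    (h : ∀ D : Finset (ℤ × ℤ), (∀ v : ℤ × ℤ, -(b - a) ≤ 2 * v.2 → 2 * v.2 < 2 * q + (b - a) →
      a ≤ v.1 → v.1 < b → v ∈ D) → c ≤ Pr Q D (cst false) (Vc true a b 0 q))
    (hH : 2 * q + (b - a) ≤ 2 * H) (hq : 0 ≤ q) (hab : a ≤ b) :
    c ≤ Pr Q (Rt x0 x1 H) (ea n) (Vc true a b 0 q) := by
  set T : Finset (ℤ × ℤ) := Rt x0 x1 H ∪ (Finset.Ico a b ×ˢ Finset.Ico (-(b - a)) 0) with hT
  have hmT : ∀ v : ℤ × ℤ, v ∈ T ↔ (x0 ≤ v.1 ∧ v.1 < x1 ∧ 0 ≤ v.2 ∧ v.2 < H) ∨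
      (a ≤ v.1 ∧ v.1 < b ∧ -(b - a) ≤ v.2 ∧ v.2 < 0) := by
    intro v
    rw [hT, Finset.mem_union, mem_Rt, Finset.mem_product, Finset.mem_Ico, Finset.mem_Ico]
    tauto
  have e1 : c ≤ Pr Q T (cst false) (Vc true a b 0 q) := by
    refine h T fun v v1 v2 v3 v4 => ?_
    rw [hmT]
    omega
  have hW : Wd true T (Rt x0 x1 H) (ea n) := by
    have key : ∀ u : ℤ × ℤ, (u.1 + u.2) % 2 = 0 → Shr T (Rt x0 x1 H) u →
        ReflTransGen (PStep {w | ea n w = true ∧ w ∉ Rt x0 x1 H}) u (0, 0) := by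
      rintro u hu ⟨⟨w, hw, hwu⟩, t, ht, htn, htu⟩
      rw [mem_Rt] at hw htn
      rw [hmT] at ht
      unfold Cor at hwu htu
      have hu2 : u.2 = 0 := by omega
      have hu1 : a ≤ u.1 ∧ u.1 ≤ b := by omega
      obtain ⟨m, hm⟩ : ∃ m : ℕ, u.1 = -(2 * (m : ℤ)) := ⟨(-u.1 / 2).toNat, by omega⟩
      have h2 := arc_conn (ω := ea n) (n := n) (fun x hx hx' => by simp [ea, hx, hx']) m (by omega)
      have e2 : u = (-(2 * (m : ℤ)), 0) := Prod.ext hm hu2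
      rw [e2]
      refine rtg_mono' (F := op (ea n)) (fun v hv => ?_) h2
      have hv' : ea n v = true := hv
      refine ⟨hv', ?_⟩
      unfold ea at hv'
      rw [decide_eq_true_eq] at hv'
      rw [mem_Rt]
      omega
    intro u v hu hv su sv
    simp only [H632.pr, if_true] at hu hv
    exact (key u hu su).trans (rtg_symm (key v hv sv))
  have e2 := bank (e := true) (T := T) hQ (good_ea n) Finset.subset_union_left hW
    (inc_Vc a b 0 q)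
  refine e1.trans (e2.trans (Pr_le (by linarith) fun S hS => ?_))
  rintro ⟨s, t, h1', h2', h3', h4'⟩
  refine ⟨s, t, h1', h2', h3', H704.congr_rect (fun v hv m1 m2 m3 m4 => ?_) h4'⟩
  have hvD : v ∈ Rt x0 x1 H := by rw [mem_Rt]; omega
  have hv' : fil true T (Rt x0 x1 H) (cf (Rt x0 x1 H) (ea n) S) v = true := hv
  rw [H704.Q.fil_in hvD] at hv'
  exact hv'

/-- The left side, joined to the arc. -/
theorem glue_l {ω : Cfg} {n k : ℤ} (hω : ∀ x : ℤ, -n ≤ x → x < 0 → ω (x, -1) = true)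
    (hk : Even k) (hk1 : 1 ≤ k) (hn : 2 * k ≤ n) (h1 : ω ∈ Lf (k, 0) (4 * k))
    (h2 : ω ∈ Vc true (-(2 * k)) (-k) 0 (4 * k)) : PC ω (k, 0) (0, 0) := by
  obtain ⟨v, v1, v2⟩ := h1
  obtain ⟨s, t, s1, t1, s2, s3⟩ := h2
  have hs := s3.left_mem
  rw [mem_rect] at hs
  obtain ⟨m, hm⟩ : ∃ m : ℤ, k = m + m := hk
  simp only at v1
  have hpar := v2.parity
  simp only at hpar
  obtain ⟨z, z1, z2⟩ := meet (e := 0) (a := -(2 * k)) (b := -k) (c := 0) (d := 4 * k)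
    (c' := 0) (d' := 4 * k) (a' := k - 4 * k) (b' := k + 4 * k) (F := op ω) (y := s) (y' := t)
    (w := v) (w' := (k, 0)) s3 (by omega) (by omega) (by simpa [H632.pr] using s2)
    (by simpa using v2.symm) (by omega) (by simp only; omega) (by omega) (by omega) (by omega)
  obtain ⟨j, hj⟩ : ∃ j : ℕ, s.1 = -(2 * (j : ℤ)) := by
    simp only [H632.pr, if_true] at s2
    exact ⟨(-s.1 / 2).toNat, by omega⟩
  have h3 := arc_conn (ω := ω) (n := n) hω j (by omega)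
  have e1 : s = (-(2 * (j : ℤ)), 0) := Prod.ext hj s1
  rw [← e1] at h3
  exact (pc_of v2).trans ((pc_of z2).trans ((pc_symm (pc_of z1)).trans h3))

/-- The top side, joined to the arc. -/
theorem glue_t {ω : Cfg} {n k : ℤ} (hω : ∀ x : ℤ, -n ≤ x → x < 0 → ω (x, -1) = true)
    (hk : Even k) (hk1 : 1 ≤ k) (hn : 4 * k ≤ n) (h1 : ω ∈ Tp (k, 0) (4 * k))
    (h2 : ω ∈ Hc true (-(4 * k)) (5 * k) (2 * k) (4 * k))
    (h3 : ω ∈ Vc true (-(4 * k)) (-(3 * k)) 0 (4 * k)) : PC ω (k, 0) (0, 0) := by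
  obtain ⟨v, v1, v2⟩ := h1
  obtain ⟨p, q, p1, q1, p2, p3⟩ := h2
  obtain ⟨s, t, s1, t1, s2, s3⟩ := h3
  have hs := s3.left_mem
  rw [mem_rect] at hs
  obtain ⟨m, hm⟩ : ∃ m : ℤ, k = m + m := hk
  simp only at v1
  have hpar := v2.parity
  simp only at hpar
  simp only [H632.pr, if_true] at p2 s2
  obtain ⟨z, z1, z2⟩ := meet (e := 0) (a := k - 4 * k) (b := k + 4 * k) (c := 2 * k) (d := 4 * k)
    (c' := 0) (d' := 0 + 4 * k) (a' := -(4 * k)) (b' := 5 * k) (F := op ω) (y := (k, 0)) (y' := v)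
    (w := p) (w' := q) v2 (by simp only; omega) (by omega) (by simp only; omega)
    p3 (by omega) (by omega) p2 (by omega) (by omega)
  obtain ⟨z', z1', z2'⟩ := meet (e := 0) (a := -(4 * k)) (b := -(3 * k)) (c := 2 * k) (d := 4 * k)
    (c' := 0) (d' := 4 * k) (a' := -(4 * k)) (b' := 5 * k) (F := op ω) (y := s) (y' := t)
    (w := p) (w' := q) s3 (by omega) (by omega) s2
    p3 (by omega) (by omega) p2 (by omega) (by omega)
  obtain ⟨j, hj⟩ : ∃ j : ℕ, s.1 = -(2 * (j : ℤ)) := ⟨(-s.1 / 2).toNat, by omega⟩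
  have h3 := arc_conn (ω := ω) (n := n) hω j (by omega)
  have e1 : s = (-(2 * (j : ℤ)), 0) := Prod.ext hj s1
  rw [← e1] at h3
  exact (pc_of z1).trans ((pc_symm (pc_of z2)).trans ((pc_of z2').trans
    ((pc_symm (pc_of z1')).trans h3)))

/-- **R2.** -/
theorem r2 (hQ : 1 ≤ Q) (hR : RSW Q) {L : ℤ} (hL : 1 ≤ L) : R2 Q L := by
  have hQ0 : 0 < Q := by linarith
  obtain ⟨c, s0, hc, hc1, hs0, hrs⟩ := rs_fk hQ hR 5
  refine ⟨c ^ 2 / 3, 4 * (L * L) + 6, s0, by positivity, by nlinarith, hs0,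
    fun x0 x1 H n k hk hk0 hn h0 h1 hH => ?_⟩
  have hLL : 1 ≤ L * L := by nlinarith
  have hk1 : 1 ≤ k := by omega
  have hR1 : L * (L * (4 * k)) + 6 * k = (4 * (L * L) + 6) * k := by ring
  have hR0 : 4 * k ≤ L * (L * (4 * k)) := by
    have : L * (L * (4 * k)) = (L * L) * (4 * k) := by ring
    nlinarith
  set R := L * (L * (4 * k)) with hRdef
  rw [← hR1] at hn h0 h1 hH
  have hsub : HB (k, 0) R ⊆ Rt x0 x1 H := by
    intro v hv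
    rw [mem_HB] at hv
    rw [mem_Rt]
    simp only at hv
    omega
  have up : ∀ A : Set Cfg, IncC true A → Pr Q (HB (k, 0) R) eta0 A ≤ Pr Q (Rt x0 x1 H) (ea n) A := by
    intro A hA
    exact Ex_up hQ hsub (H704.Q.IncC.incS hA).incF f_good.2.1 (good_ea n)
      fun v _ hv => by simp [eta0] at hv
  have vc : ∀ a b : ℤ, -n ≤ a → b ≤ 0 → x0 ≤ a → b ≤ x1 → b - a = k →
      c ≤ Pr Q (Rt x0 x1 H) (ea n) (Vc true a b 0 (4 * k)) := by
    intro a b ha hb ha0 hb1 hab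
    refine vc_arc hQ ha hb ha0 hb1 (fun D hD => ?_) (by omega) (by omega) (by omega)
    refine (hrs true a b 0 (4 * k) D (cst false) (H704.Q.good_cst _) (by omega) (by omega)).2
      (by omega) (by push_cast; omega) fun v v1 v2 v3 v4 hv => ?_
    exact absurd (hD v (by omega) (by omega) v3 v4) hv
  have hc2 : c ≤ Pr Q (Rt x0 x1 H) (ea n) (Hc true (-(4 * k)) (5 * k) (2 * k) (4 * k)) := by
    refine (hrs true _ _ _ _ _ (ea n) (good_ea n) (by omega) (by omega)).1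
      (by omega) (by push_cast; omega) fun v v1 v2 v3 v4 hv => ?_
    exfalso
    rw [mem_Rt] at hv
    omega
  have hv1 := vc (-(2 * k)) (-k) (by omega) (by omega) (by omega) (by omega) (by omega)
  have hv2 := vc (-(4 * k)) (-(3 * k)) (by omega) (by omega) (by omega) (by omega) (by omega)
  have g1 : Pr Q (Rt x0 x1 H) (ea n) (Lf (k, 0) (4 * k)) * c ≤ Pa Q x0 x1 H n (k, 0) := by
    refine (mul_le_mul_of_nonneg_left hv1 (Pr_nonneg hQ0 _)).trans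
      ((prC_inter hQ (good_ea n) (inc_Lf _ _) (inc_Vc _ _ _ _)).trans
        (Pr_le hQ0 fun S hS hω => ?_))
    exact glue_l (n := n) (fun x hx hx' => cf_row hx hx') hk hk1 (by omega) hω.1 hω.2
  have g2 : Pr Q (Rt x0 x1 H) (ea n) (Tp (k, 0) (4 * k)) * (c * c) ≤ Pa Q x0 x1 H n (k, 0) := by
    have i1 : c * c ≤ Pr Q (Rt x0 x1 H) (ea n) (Hc true (-(4 * k)) (5 * k) (2 * k) (4 * k) ∩
        Vc true (-(4 * k)) (-(3 * k)) 0 (4 * k)) :=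
      (mul_le_mul hc2 hv2 hc.le (Pr_nonneg hQ0 _)).trans
        (prC_inter hQ (good_ea n) (inc_Hc _ _ _ _) (inc_Vc _ _ _ _))
    refine (mul_le_mul_of_nonneg_left i1 (Pr_nonneg hQ0 _)).trans
      ((prC_inter hQ (good_ea n) (inc_Tp _ _) ((inc_Hc _ _ _ _).inter (inc_Vc _ _ _ _))).trans
        (Pr_le hQ0 fun S hS hω => ?_))
    exact glue_t (n := n) (fun x hx hx' => cf_row hx hx') hk hk1 (by omega) hω.1 hω.2.1 hω.2.2
  have h5 := ah_le hQ0 L hk (4 * k)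
  rw [← hRdef] at h5
  have h6 := up _ (inc_Lf (k, 0) (4 * k))
  have h7 := up _ (inc_Tp (k, 0) (4 * k))
  have h8 : 0 ≤ Pa Q x0 x1 H n (k, 0) := Pr_nonneg hQ0 _
  have h9 : Pr Q (HB (k, 0) R) eta0 (Lf (k, 0) (4 * k)) * c ^ 2 ≤ Pa Q x0 x1 H n (k, 0) := by
    refine le_trans ?_ g1
    refine mul_le_mul h6 ?_ (by positivity) (Pr_nonneg hQ0 _)
    nlinarith
  have h10 : Pr Q (HB (k, 0) R) eta0 (Tp (k, 0) (4 * k)) * c ^ 2 ≤ Pa Q x0 x1 H n (k, 0) := by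
    refine le_trans ?_ g2
    exact mul_le_mul h7 (by nlinarith) (by positivity) (Pr_nonneg hQ0 _)
  have h11 : c ^ 2 * ah Q L (4 * k) ≤ c ^ 2 * (2 * Pr Q (HB (k, 0) R) eta0 (Lf (k, 0) (4 * k)) +
      Pr Q (HB (k, 0) R) eta0 (Tp (k, 0) (4 * k))) := mul_le_mul_of_nonneg_left h5 (by positivity)
  linarith

end Vale.Agent.P167.H469
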