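import Vale.Agent.P167.H469.BGeo
import Vale.Agent.P167.H469.Near
import Vale.Agent.P167.H208.SmAll

/-!
# P167, general `q`, block BETA: the arms of a free flat side
-/

namespace Vale.Agent.P167.H469

open Finset Relation Vale.Agent.P167.FK Vale.Agent.P167.FKA Vale.Agent.P167.QM
open Vale.Agent.P145.FB (PStep PConn)
open Vale.Agent.P153.Topo (Rect mem_rect)
open Vale.Agent.P167.H632 (IncC cs pr nm_le le_nm cs_compl)
open Vale.Agent.P167.H704 (Hc Vc)
open Vale.Agent.P167.H704.Q (rs_fk cst prC_inter prC_mono)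
open Vale.Agent.P167.H192.TA (Xc Pw dq sr dF mem_dF cut_dq)
open Vale.Agent.P167.H192.Q (SRSW pX pX_all pX_anti Xc_le Xc_restrict loc_Xc Fr)
open Vale.Agent.P167.H519 (Rat)

variable {Q : ℝ} {D : Finset (ℤ × ℤ)} {η : Cfg} {e : Bool} {b : ℤ × ℤ} {r s R N : ℤ}

/-! ### Events -/

theorem inc_Xc (e : Bool) (b : ℤ × ℤ) (r R : ℤ) : IncC e (Xc e b r R) := by
  rintro ω ω' h ⟨y, y', h1, h2, h3, h4, h5⟩
  refine ⟨y, y', h1, h2, h3, h4.mono ?_, h5⟩
  rintro v ⟨hv1, hv2⟩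
  exact ⟨h v hv1, hv2⟩

theorem inc_nXc (e : Bool) (b : ℤ × ℤ) (r R : ℤ) : IncC e (Xc (!e) b r R)ᶜ := by
  have := (inc_Xc (!e) b r R).compl
  rwa [Bool.not_not] at this

theorem Xc_of_Vc {m : ℤ} (hm : m ≤ R) {ω : Cfg}
    (h : ω ∈ Vc e (b.1 - m) (b.1 + m) (b.2 + m) (b.2 + R)) : ω ∈ Xc e b m R := by
  obtain ⟨s, t, s1, t1, s2, s3⟩ := h
  have hs := s3.left_mem
  rw [mem_rect] at hs
  refine ⟨s, t, ?_, s2, ?_, ?_, ?_⟩
  · simp only [sr, Set.mem_ofPred_eq]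
    omega
  · rw [nm_le]
    simp only [Prod.fst_sub, Prod.snd_sub]
    omega
  · obtain ⟨k1, k2⟩ := s3
    clear t1
    induction k2 with
    | refl => exact ReflTransGen.refl
    | @tail x y hx hxy ih =>
      have hxm := (show PConn (cs e ω) (Rect (b.1 - m) (b.1 + m) (b.2 + m) (b.2 + R)) s x from
        ⟨k1, hx⟩).right_mem
      have hym := hxy.2
      rw [mem_rect] at hxm hym
      obtain ⟨⟨p1, p2, p3⟩, -⟩ := hxy
      refine ih.tail ⟨p1, p2, p3, ?_⟩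
      simp only [dq, Set.mem_ofPred_eq]
      omega
  · rw [le_nm]
    simp only [Prod.fst_sub, Prod.snd_sub]
    omega

theorem dF_sub (hr : 0 ≤ r) (h : ∀ v : ℤ × ℤ, b.1 - R ≤ v.1 → v.1 < b.1 + R → b.2 ≤ v.2 →
    v.2 < b.2 + R → v ∈ D) : dF b r R ⊆ D := by
  intro v hv
  rw [mem_dF] at hv
  simp only [dq, Set.mem_ofPred_eq] at hv
  exact h v (by omega) (by omega) (by omega) (by omega)

/-- The domain contains the half box. -/
def Cn (D : Finset (ℤ × ℤ)) (b : ℤ × ℤ) (R : ℤ) : Prop := ∀ v : ℤ × ℤ, b.1 - R ≤ v.1 →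
  v.1 < b.1 + R → b.2 ≤ v.2 → v.2 < b.2 + R → v ∈ D

theorem Cn.mono (h : Cn D b R) (hr : r ≤ R) : Cn D b r := fun v h1 h2 h3 h4 =>
  h v (by omega) (by omega) h3 (by omega)

theorem cn_HB (h : R ≤ N) : Cn (HB b N) b R := by
  intro v h1 h2 h3 h4
  rw [mem_HB]
  omega

theorem Cn.dF (h : Cn D b R) (hr : 0 ≤ r) : dF b r R ⊆ D := dF_sub hr h

theorem Xc_dual {ω : Cfg} (h : H519.dui ω ∈ Xc true b r R) :
    ω ∈ Xc false (H192.Q.sq1 b) r R := by
  obtain ⟨y, y', g1, g2, g3, g4, g5⟩ := h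
  have key : ∀ u v, Pw (cs true (H519.dui ω) ∩ dq b r R) u v →
      Pw (cs false ω ∩ dq (H192.Q.sq1 b) r R) (u.1 + 1, u.2) (v.1 + 1, v.2) := by
    intro u v h
    induction h with
    | refl => exact ReflTransGen.refl
    | @tail x y _ hxy ih =>
      obtain ⟨h1, h2, h3, h4⟩ := hxy
      refine ih.tail ⟨by dsimp only; omega, h2, ?_⟩
      have e : min (x.1 + 1) (y.1 + 1) = min x.1 y.1 + 1 := by omega
      dsimp only
      rw [e]
      refine ⟨?_, ?_⟩
      · have h5 : (!(ω (min x.1 y.1 + 1, min x.2 y.2))) = true := h3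
        show ω (min x.1 y.1 + 1, min x.2 y.2) = false
        simpa using h5
      · simp only [dq, H192.Q.sq1, Set.mem_ofPred_eq] at h4 ⊢
        omega
  refine ⟨(y.1 + 1, y.2), (y'.1 + 1, y'.2), ?_, ?_, ?_, key _ _ g4, ?_⟩
  · simp only [sr, H192.Q.sq1, Set.mem_ofPred_eq] at g1 ⊢
    omega
  · simp only [pr, if_true, Bool.false_eq_true, if_false] at g2 ⊢
    omega
  · have e : ((y.1 + 1, y.2) : ℤ × ℤ) - H192.Q.sq1 b = y - b := by
      refine Prod.ext ?_ ?_ <;> simp [H192.Q.sq1]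
    rw [e]; exact g3
  · have e : ((y'.1 + 1, y'.2) : ℤ × ℤ) - H192.Q.sq1 b = y' - b := by
      refine Prod.ext ?_ ?_ <;> simp [H192.Q.sq1]
    rw [e]; exact g5

/-- Shift of the centre by one. -/
theorem Xc_shift {b' : ℤ × ℤ} (h2 : b'.2 = b.2) (h3 : b.1 - 1 ≤ b'.1) (h4 : b'.1 ≤ b.1 + 1)
    (hrR : r + 1 ≤ R - 1) : Xc e b' r R ⊆ Xc e b (r + 1) (R - 1) := by
  rintro ω ⟨y, y', g1, g2, g3, g4, g5⟩
  have hy : b.2 ≤ y.2 := by
    simp only [sr, Set.mem_ofPred_eq] at g1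
    omega
  rw [nm_le] at g3
  rw [le_nm] at g5
  simp only [Prod.fst_sub, Prod.snd_sub] at g3 g5
  obtain ⟨y0, y1, k1, k2, k3, k4, k5⟩ := cut_dq (G := cs e ω ∩ dq b' r R) hrR hy
    (fun v hv => by have := hv.2; simp only [dq, Set.mem_ofPred_eq] at this; omega) g4
    (by rw [nm_le]; simp only [Prod.fst_sub, Prod.snd_sub]; omega)
    (by rw [le_nm]; simp only [Prod.fst_sub, Prod.snd_sub]; omega)
  exact ⟨y0, y1, k2, by rw [← k1.parity, g2], k3,
    k4.mono (Set.inter_subset_inter_left _ Set.inter_subset_left), k5⟩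

theorem im_HB (b : ℤ × ℤ) (N : ℤ) : (HB b N).image H192.Q.sq1 = HB (H192.Q.sq1 b) N := by
  ext v
  rw [H192.Q.mem_im, mem_HB, mem_HB]
  simp only [H192.Q.sq1]
  omega

/-- **Self-duality.** -/
theorem hx_dual (hQ : 1 ≤ Q) : hx Q true b r R N ≤ hx Q false (H192.Q.sq1 b) r R N := by
  have hQ0 : 0 < Q := by linarith
  have h1 : hx Q true b r R N ≤ Pr Q (HB (H192.Q.sq1 b) N) (cst true)
      (Xc false (H192.Q.sq1 b) r R) := by
    have e1 : du eta0 = cst true := by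
      funext v
      rfl
    unfold hx Pr
    rw [H192.Q.ex_du hQ f_good.2.1, im_HB, e1]
    refine Ex_mono hQ0 fun S _ => ?_
    generalize cf (HB (H192.Q.sq1 b) N) (cst true) S = ω
    by_cases h : H519.dui ω ∈ Xc true b r R
    · rw [Set.indicator_of_mem h, Set.indicator_of_mem (Xc_dual h)]
      exact le_refl (1 : ℝ)
    · rw [Set.indicator_of_notMem h]
      exact ind_nonneg _ _
  refine h1.trans ?_
  refine prC_mono (e := false) hQ (H704.Q.good_cst true) f_good.2.1 (fun v _ hv => ?_)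
    (inc_Xc false _ _ _)
  rfl

/-! ### Constants -/

/-- The constants. -/
structure Ks (Q : ℝ) where
  hQ : 1 ≤ Q
  Λ : ℤ
  c0 : ℝ
  L : ℤ
  hΛ : 2 ≤ Λ
  hc0 : 0 < c0
  half : ∀ (e : Bool) (b : ℤ × ℤ) (r : ℤ), 1 ≤ r → pX Q e b r (Λ * r) ≤ 1 - c0
  hL : Rat Q L
  cross : ∀ M : ℕ, ∃ (c : ℝ) (s0 : ℤ), 0 < c ∧ c ≤ 1 ∧ 1 ≤ s0 ∧ ∀ (e : Bool) (b : ℤ × ℤ) (m R : ℤ)
    (D : Finset (ℤ × ℤ)) (η : Cfg), s0 ≤ m → m ≤ R → R ≤ M * m → Good η → Cn D b (2 * R) →
    c ≤ Pr Q D η (Xc e b m R)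

theorem exists_Ks (hQ : 1 ≤ Q) (hR : RSW Q) (hS : SRSW Q) : Nonempty (Ks Q) := by
  obtain ⟨Λ, c0, hΛ, hc0, h⟩ := hS
  obtain ⟨L, hL⟩ := H208.rat_of hQ hR
  refine ⟨⟨hQ, Λ, c0, L, hΛ, hc0, fun e b r hr => pX_all hQ h e b hr, hL, fun M => ?_⟩⟩
  obtain ⟨c, s0, hc, hc1, hs0, hrs⟩ := rs_fk hQ hR M
  refine ⟨c, s0, hc, hc1, hs0, fun e b m R D η hm hmR hRM hη hD => ?_⟩
  refine le_trans ?_ (Pr_mono (by linarith) fun ω hω => Xc_of_Vc hmR hω)
  refine (hrs e (b.1 - m) (b.1 + m) (b.2 + m) (b.2 + R) D η hη (by omega) (by omega)).2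
    (by omega) ?_ fun v v1 v2 v3 v4 hv => ?_
  · have h0 : (0 : ℤ) ≤ M := by positivity
    nlinarith
  · exact absurd (hD v (by omega) (by omega) (by omega) (by omega)) hv

namespace Ks

variable (C : Ks Q)
include C

theorem hQ0 : 0 < Q := by have := C.hQ; linarith

/-- Half circuits. -/
theorem half_ge {m m' : ℤ} (hm : 1 ≤ m) (hm' : C.Λ * m ≤ m') (hη : Good η) (hD : Cn D b m') :
    C.c0 ≤ Pr Q D η (Xc (!e) b m m')ᶜ := by
  have hQ0 := C.hQ0
  have hΛ := C.hΛ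
  have h1 : m ≤ C.Λ * m := by nlinarith
  rw [Pr_compl hQ0]
  have h2 := Xc_le (c := !e) C.hQ hm (hD.dF (by omega)) hη (b := b) (r := m) (R := m')
  have h3 := pX_anti (c := !e) (b := b) C.hQ hm h1 hm'
  have h4 := C.half (!e) b m hm
  linarith

/-- **Extension outwards.** -/
theorem ext_out {M : ℤ} (hM : 1 ≤ M) : ∃ (c : ℝ) (s0 : ℤ), 0 < c ∧ 1 ≤ s0 ∧
    ∀ (e : Bool) (b : ℤ × ℤ) (r R' R : ℤ) (D : Finset (ℤ × ℤ)) (η : Cfg), s0 ≤ r → r ≤ R' →
      R' ≤ R → R ≤ M * R' → Good η → Cn D b (2 * R) →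
      c * Pr Q D η (Xc e b r R') ≤ Pr Q D η (Xc e b r R) := by
  have hQ0 := C.hQ0
  have hΛ := C.hΛ
  have hc0 := C.hc0
  obtain ⟨c, s0, hc, hc1, hs0, h⟩ := C.cross (2 * M * C.Λ).toNat
  have hMn : (((2 * M * C.Λ).toNat : ℕ) : ℤ) = 2 * M * C.Λ := Int.toNat_of_nonneg (by positivity)
  rw [hMn] at h
  refine ⟨C.c0 * c, s0, by positivity, hs0, fun e b r R' R D η hr hrR' hR'R hRM hη hD => ?_⟩
  have hp0 : 0 ≤ Pr Q D η (Xc e b r R') := Pr_nonneg hQ0 _
  have hp1 : Pr Q D η (Xc e b r R') ≤ 1 := Pr_le_one hQ0 _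
  have hcc1 : C.c0 ≤ 1 := by
    have h1 := C.half true 0 1 le_rfl
    have h2 : 0 ≤ pX Q true 0 1 (C.Λ * 1) := Pr_nonneg hQ0 _
    linarith
  by_cases hc : C.Λ * r ≤ R'
  · obtain ⟨m, hm⟩ : ∃ m, m = R' / C.Λ := ⟨_, rfl⟩
    have m1 : r ≤ m := by
      rw [hm, Int.le_ediv_iff_mul_le (by omega)]
      linarith
    have m2 : C.Λ * m ≤ R' := by
      rw [hm, mul_comm]
      exact Int.ediv_mul_le _ (by omega)
    have m3 : R' < C.Λ * (m + 1) := by
      rw [hm, mul_comm]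
      exact Int.lt_ediv_add_one_mul_self _ (by omega)
    have m4 : m ≤ C.Λ * m := by nlinarith
    have m5 : R ≤ 2 * M * C.Λ * m := by nlinarith
    have k1 := h e b m R D η (by omega) (by omega) m5 hη hD
    have k2 := C.half_ge (e := e) (b := b) (D := D) (by omega : 1 ≤ m) m2 hη (hD.mono (by omega))
    have k3 := prC_inter (D := D) C.hQ hη (inc_Xc e b m R) (inc_nXc e b m R')
    have k4 := prC_inter (D := D) C.hQ hη (inc_Xc e b r R')
      ((inc_Xc e b m R).inter (inc_nXc e b m R'))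
    have k5 : Pr Q D η (Xc e b r R' ∩ (Xc e b m R ∩ (Xc (!e) b m R')ᶜ)) ≤
        Pr Q D η (Xc e b r R) := by
      refine Pr_mono hQ0 ?_
      rintro ω ⟨w1, w2, w3⟩
      exact glue_arms (by omega) (by omega) m1 le_rfl le_rfl hR'R m1 hR'R w1 w2 w3
    have k6 : C.c0 * c ≤ Pr Q D η (Xc e b m R) * Pr Q D η (Xc (!e) b m R')ᶜ := by
      rw [mul_comm]
      exact mul_le_mul k1 k2 hc0.le (Pr_nonneg hQ0 _)
    nlinarith [mul_le_mul_of_nonneg_left (k6.trans k3) hp0]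
  · have k1 := h e b r R D η hr (by omega) (by nlinarith) hη hD
    have k2 : C.c0 * c * Pr Q D η (Xc e b r R') ≤ 1 * c * 1 :=
      mul_le_mul (mul_le_mul_of_nonneg_right hcc1 (by linarith)) hp1 hp0 (by linarith)
    linarith

/-- **Extension inwards.** -/
theorem ext_in {M : ℤ} (hM : 1 ≤ M) : ∃ (c : ℝ) (s0 : ℤ), 0 < c ∧ 1 ≤ s0 ∧
    ∀ (e : Bool) (b : ℤ × ℤ) (r r' R : ℤ) (D : Finset (ℤ × ℤ)) (η : Cfg), s0 ≤ r → r ≤ r' →
      r' ≤ R → r' ≤ M * r → Good η → Cn D b (2 * R) →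
      c * Pr Q D η (Xc e b r' R) ≤ Pr Q D η (Xc e b r R) := by
  have hQ0 := C.hQ0
  have hΛ := C.hΛ
  have hc0 := C.hc0
  obtain ⟨c, s0, hc, hc1, hs0, h⟩ := C.cross (M * C.Λ).toNat
  have hMn : (((M * C.Λ).toNat : ℕ) : ℤ) = M * C.Λ := Int.toNat_of_nonneg (by positivity)
  rw [hMn] at h
  refine ⟨C.c0 * c, s0, by positivity, hs0, fun e b r r' R D η hr hrr' hr'R hM' hη hD => ?_⟩
  have hp0 : 0 ≤ Pr Q D η (Xc e b r' R) := Pr_nonneg hQ0 _
  have hp1 : Pr Q D η (Xc e b r' R) ≤ 1 := Pr_le_one hQ0 _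
  have hcc1 : C.c0 ≤ 1 := by
    have h1 := C.half true 0 1 le_rfl
    have h2 : 0 ≤ pX Q true 0 1 (C.Λ * 1) := Pr_nonneg hQ0 _
    linarith
  have m4 : r' ≤ C.Λ * r' := by nlinarith
  have m5 : C.Λ * r' ≤ M * C.Λ * r := by nlinarith
  by_cases hc : C.Λ * r' ≤ R
  · have k1 := h e b r (C.Λ * r') D η (by omega) (by omega) m5 hη (hD.mono (by omega))
    have k2 := C.half_ge (e := e) (b := b) (D := D) (by omega : 1 ≤ r') le_rfl hη
      (hD.mono (by omega))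
    have k3 := prC_inter (D := D) C.hQ hη (inc_Xc e b r (C.Λ * r')) (inc_nXc e b r' (C.Λ * r'))
    have k4 := prC_inter (D := D) C.hQ hη (inc_Xc e b r' R)
      ((inc_Xc e b r (C.Λ * r')).inter (inc_nXc e b r' (C.Λ * r')))
    have k5 : Pr Q D η (Xc e b r' R ∩ (Xc e b r (C.Λ * r') ∩ (Xc (!e) b r' (C.Λ * r'))ᶜ)) ≤
        Pr Q D η (Xc e b r R) := by
      refine Pr_mono hQ0 ?_
      rintro ω ⟨w1, w2, w3⟩
      exact glue_arms (by omega) m4 hrr' le_rfl le_rfl hc hrr' hc w2 w1 w3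
    have k6 : C.c0 * c ≤ Pr Q D η (Xc e b r (C.Λ * r')) *
        Pr Q D η (Xc (!e) b r' (C.Λ * r'))ᶜ := by
      rw [mul_comm]
      exact mul_le_mul k1 k2 hc0.le (Pr_nonneg hQ0 _)
    nlinarith [mul_le_mul_of_nonneg_left (k6.trans k3) hp0]
  · have k1 := h e b r R D η hr (by omega) (by nlinarith) hη hD
    have k2 : C.c0 * c * Pr Q D η (Xc e b r' R) ≤ 1 * c * 1 :=
      mul_le_mul (mul_le_mul_of_nonneg_right hcc1 (by linarith)) hp1 hp0 (by linarith)
    linarith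

/-- **Gluing.** -/
theorem a5 : A5 Q := by
  have hQ0 := C.hQ0
  have hΛ := C.hΛ
  have hc0 := C.hc0
  obtain ⟨c, s0, hc, hs0, h⟩ := C.ext_out (M := C.Λ) (by omega)
  have hcc1 : C.c0 ≤ 1 := by
    have h1 := C.half true 0 1 le_rfl
    have h2 : 0 ≤ pX Q true 0 1 (C.Λ * 1) := Pr_nonneg hQ0 _
    linarith
  refine ⟨1 / (c * C.c0), 2, s0, by positivity, by norm_num, hs0,
    fun e b r s R N hr hrs hsR hN => ?_⟩
  have hη : Good eta0 := f_good.2.1
  have hD : Cn (HB b N) b (2 * R) := cn_HB (by omega)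
  have hp0 : 0 ≤ hx Q e b r s N := Pr_nonneg hQ0 _
  have hp1 : hx Q e b s R N ≤ 1 := Pr_le_one hQ0 _
  have hq0 : 0 ≤ hx Q e b s R N := Pr_nonneg hQ0 _
  have m4 : s ≤ C.Λ * s := by nlinarith
  have hpos : 0 < c * C.c0 := by positivity
  rw [one_div, ← div_eq_inv_mul, le_div_iff₀ hpos]
  by_cases hc' : C.Λ * s ≤ R
  · have k1 := h e b r s (C.Λ * s) (HB b N) eta0 hr hrs m4 le_rfl hη (hD.mono (by omega))
    have k2 := C.half_ge (e := e) (b := b) (D := HB b N) (by omega : 1 ≤ s) le_rfl hη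
      (hD.mono (by omega))
    have k3 := prC_inter (D := HB b N) C.hQ hη (inc_Xc e b s R) (inc_nXc e b s (C.Λ * s))
    have k4 := prC_inter (D := HB b N) C.hQ hη (inc_Xc e b r (C.Λ * s))
      ((inc_Xc e b s R).inter (inc_nXc e b s (C.Λ * s)))
    have k5 : Pr Q (HB b N) eta0 (Xc e b r (C.Λ * s) ∩ (Xc e b s R ∩
        (Xc (!e) b s (C.Λ * s))ᶜ)) ≤ hx Q e b r R N := by
      refine Pr_mono hQ0 ?_
      rintro ω ⟨w1, w2, w3⟩
      exact glue_arms (by omega) m4 hrs le_rfl le_rfl hc' hrs hc' w1 w2 w3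
    have k6 : hx Q e b s R N * C.c0 ≤ Pr Q (HB b N) eta0 (Xc e b s R ∩
        (Xc (!e) b s (C.Λ * s))ᶜ) := (mul_le_mul_of_nonneg_left k2 hq0).trans k3
    have k7 : c * hx Q e b r s N * (hx Q e b s R N * C.c0) ≤ hx Q e b r R N :=
      (mul_le_mul k1 k6 (by positivity) (Pr_nonneg hQ0 _)).trans (k4.trans k5)
    linarith
  · have k1 := h e b r s R (HB b N) eta0 hr hrs hsR (by omega) hη hD
    have k2 : c * hx Q e b r s N ≤ hx Q e b r R N := k1
    have k3 : hx Q e b s R N * C.c0 ≤ 1 * 1 := mul_le_mul hp1 hcc1 hc0.le (by norm_num)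
    have k4 : c * hx Q e b r s N * (hx Q e b s R N * C.c0) ≤ c * hx Q e b r s N * (1 * 1) :=
      mul_le_mul_of_nonneg_left k3 (by positivity)
    linarith

/-- **Comparable radii.** -/
theorem a8 : A8 Q := by
  intro M
  obtain ⟨c, s0, hc, hc1, hs0, h⟩ := C.cross M.toNat
  refine ⟨c, 2, s0, hc, by norm_num, hs0, fun e b r R N hr hrR hRM hN => ?_⟩
  refine h e b r R (HB b N) eta0 hr hrR ?_ f_good.2.1 (cn_HB (by omega))
  have h1 : M ≤ (M.toNat : ℤ) := Int.self_le_toNat M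
  nlinarith

/-- **Cutting.** -/
theorem a6 : A6 Q := by
  have hQ0 := C.hQ0
  have hL2 := C.hL.1
  have hLL : 1 ≤ C.L * C.L := by nlinarith
  obtain ⟨c, s0, hc, hs0, h⟩ := C.ext_out (M := 2 * (C.L * C.L)) (by omega)
  obtain ⟨c8, K8, s8, hc8, hK8, hs8, h8⟩ := C.a8 (C.L * C.L)
  refine ⟨8 / c + 1 / c8, max 2 K8, max s0 s8, by positivity, by omega, by omega,
    fun e b r s R N hr hrs hsR hN => ?_⟩
  have hN2 : 2 * R ≤ N := le_trans (mul_le_mul_of_nonneg_right (le_max_left _ _) (by omega)) hN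
  have hN8 : K8 * R ≤ N := le_trans (mul_le_mul_of_nonneg_right (le_max_right _ _) (by omega)) hN
  have hη : Good eta0 := f_good.2.1
  have hD : Cn (HB b N) b (2 * R) := cn_HB hN2
  have hp0 : 0 ≤ hx Q e b r s N := Pr_nonneg hQ0 _
  have hq0 : 0 ≤ hx Q e b s R N := Pr_nonneg hQ0 _
  by_cases hc' : (C.L * C.L) * r ≤ s
  · obtain ⟨s', hs'⟩ : ∃ s', s' = s / (C.L * C.L) := ⟨_, rfl⟩
    have m1 : r ≤ s' := by
      rw [hs', Int.le_ediv_iff_mul_le (by omega)]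
      linarith
    have m2 : (C.L * C.L) * s' ≤ s := by
      rw [hs', mul_comm]
      exact Int.ediv_mul_le _ (by omega)
    have m3 : s < (C.L * C.L) * (s' + 1) := by
      rw [hs', mul_comm]
      exact Int.lt_ediv_add_one_mul_self _ (by omega)
    have m0 : 1 ≤ s' := by omega
    have m4 : s' ≤ s := by nlinarith
    have m5 : s ≤ 2 * (C.L * C.L) * s' := by
      have := mul_le_mul_of_nonneg_left m0 (by omega : (0 : ℤ) ≤ C.L * C.L)
      nlinarith
    have k1 := (H192.Q.rat_bdy_mul (Q := Q) (x := b) (r := s') (R := s) (D := HB b N)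
      (D' := HB b N) (η := eta0) (η' := eta0) (V := dF b r s') (F := (Xc e b r s').indicator 1)
      (G := (Xc e b s R).indicator 1) C.hQ C.hL (by omega) (by linarith) rfl
      ((hD.mono (by omega)).dF (by omega)) (fun v hv => by
        rw [mem_dF] at hv
        simp only [dq, Set.mem_ofPred_eq] at hv
        rw [mem_Bq']
        omega) (fun _ => ind_nonneg _ _) loc_Xc hη hη H192.Q.fr_eta0 H192.Q.fr_eta0
      (fun _ => ind_nonneg _ _) (fun ω ω' hω => by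
        have key : ∀ ω ω' : Cfg, (∀ v, v ∉ HB b N ∩ Bq b s → ω v = ω' v) → ω ∈ Xc e b s R →
            ω' ∈ Xc e b s R := fun ω ω' hω h1 => H192.Q.Xc_congr (fun v hv => hω v fun hv' => by
          rw [Finset.mem_inter, mem_Bq'] at hv'
          rw [mem_dF] at hv
          simp only [dq, Set.mem_ofPred_eq] at hv
          omega) h1
        by_cases h2 : ω ∈ Xc e b s R
        · rw [Set.indicator_of_mem h2, Set.indicator_of_mem (key ω ω' hω h2)]
          rfl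
        · rw [Set.indicator_of_notMem h2, Set.indicator_of_notMem fun h3 =>
            h2 (key ω' ω (fun v hv => (hω v hv).symm) h3)])).1
    have k2 : hx Q e b r R N ≤ Ex Q (HB b N) eta0 (fun ω => (Xc e b s R).indicator 1 ω *
        (Xc e b r s').indicator 1 ω) := by
      refine Ex_mono hQ0 fun S _ => ?_
      rw [← ind_inter]
      exact H519.ind_le_of_imp fun h => ⟨Xc_restrict hrs hsR le_rfl h,
        Xc_restrict le_rfl m1 (m4.trans hsR) h⟩
    have k3 : c * hx Q e b r s' N ≤ hx Q e b r s N :=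
      h e b r s' s (HB b N) eta0 (by omega) m1 m4 m5 hη (hD.mono (by omega))
    have k4 : hx Q e b r R N ≤ 8 * (hx Q e b s R N * hx Q e b r s' N) := k2.trans k1
    have k5 : hx Q e b r s' N ≤ hx Q e b r s N / c := by
      rw [le_div_iff₀ hc]
      linarith
    have k6 : hx Q e b s R N * hx Q e b r s' N ≤ hx Q e b s R N * (hx Q e b r s N / c) :=
      mul_le_mul_of_nonneg_left k5 hq0
    have k7 : (8 / c + 1 / c8) * (hx Q e b r s N * hx Q e b s R N) =
        8 * (hx Q e b s R N * (hx Q e b r s N / c)) +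
          1 / c8 * (hx Q e b r s N * hx Q e b s R N) := by ring
    have k8 : 0 ≤ 1 / c8 * (hx Q e b r s N * hx Q e b s R N) := by positivity
    linarith
  · have k1 : c8 ≤ hx Q e b r s N := h8 e b r s N (by omega) hrs (by omega)
      (le_trans (mul_le_mul_of_nonneg_left hsR (by omega)) hN8)
    have k2 : hx Q e b r R N ≤ hx Q e b s R N := Pr_mono hQ0 (Xc_restrict hrs hsR le_rfl)
    have k3 : c8 * hx Q e b s R N ≤ hx Q e b r s N * hx Q e b s R N :=
      mul_le_mul_of_nonneg_right k1 hq0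
    have k4 : hx Q e b s R N ≤ 1 / c8 * (hx Q e b r s N * hx Q e b s R N) := by
      rw [one_div, ← div_eq_inv_mul, le_div_iff₀ hc8]
      linarith
    have k5 : 0 ≤ 8 / c * (hx Q e b r s N * hx Q e b s R N) := by positivity
    linarith

/-- **The environment.** -/
theorem a7 : A7 Q := by
  have hQ0 := C.hQ0
  have hL2 := C.hL.1
  have hLL : 1 ≤ C.L * C.L := by nlinarith
  refine ⟨8, C.L * C.L, by norm_num, hLL, fun e b r R N D η hr hrR hN hη hD => ?_⟩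
  have e0 : C.L * (C.L * R) = C.L * C.L * R := by ring
  have hR' : R ≤ C.L * C.L * R := by nlinarith
  have e1 : D ∩ Bq b (C.L * C.L * R) = HB b N ∩ Bq b (C.L * C.L * R) := by
    ext v
    rw [Finset.mem_inter, Finset.mem_inter, mem_HB]
    constructor
    · rintro ⟨h1, h2⟩
      have h3 := (hD.dom v h2).1 h1
      rw [mem_Bq'] at h2 ⊢
      omega
    · rintro ⟨h1, h2⟩
      refine ⟨(hD.dom v h2).2 h1.2.2.2.2, h2⟩
  have hV : dF b r R ⊆ Bq b R := fun v hv => by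
    rw [mem_dF] at hv
    simp only [dq, Set.mem_ofPred_eq] at hv
    rw [mem_Bq']
    omega
  have hVD : dF b r R ⊆ D := fun v hv => by
    refine (hD.dom v (H167.Q.bq_mono hR' (hV hv))).2 ?_
    rw [mem_dF] at hv
    simp only [dq, Set.mem_ofPred_eq] at hv
    omega
  have hVH : dF b r R ⊆ HB b N := (cn_HB (by omega : R ≤ N)).dF (by omega)
  have hfr : Fr b (C.L * C.L * R) D η := hD.out
  exact ⟨H192.Q.rat_bdy_dom C.hQ C.hL (by omega) e0.le e1 hVD hV (fun _ => ind_nonneg _ _)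
      loc_Xc hη f_good.2.1 hfr H192.Q.fr_eta0,
    H192.Q.rat_bdy_dom C.hQ C.hL (by omega) e0.le e1.symm hVH hV (fun _ => ind_nonneg _ _)
      loc_Xc f_good.2.1 hη H192.Q.fr_eta0 hfr⟩

/-- **The primal arm is not more likely than the dual arm.** -/
theorem a4 : A4 Q := by
  have hQ0 := C.hQ0
  obtain ⟨c1, s1, hc1, hs1, h1⟩ := C.ext_out (M := 2) (by norm_num)
  obtain ⟨c2, s2, hc2, hs2, h2⟩ := C.ext_in (M := 2) (by norm_num)
  obtain ⟨C7, K7, hC7, hK7, h7⟩ := C.a7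
  obtain ⟨c8, K8, s8, hc8, hK8, hs8, h8⟩ := C.a8 3
  refine ⟨C7 / (c1 * c2) + 1 / c8, max (max 2 K8) K7, max (max s1 s2) s8, by positivity, by omega,
    by omega, fun b r R N hr hrR hN => ?_⟩
  have hR1 : 1 ≤ R := by omega
  have hN2 : 2 * R ≤ N := le_trans (mul_le_mul_of_nonneg_right (by omega) (by omega)) hN
  have hN8 : K8 * R ≤ N := le_trans (mul_le_mul_of_nonneg_right (by omega) (by omega)) hN
  have hN7 : K7 * R ≤ N := le_trans (mul_le_mul_of_nonneg_right (by omega) (by omega)) hN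
  have hη : Good eta0 := f_good.2.1
  have hD : Cn (HB b N) b (2 * R) := cn_HB hN2
  have hq0 : 0 ≤ hx Q false b r R N := Pr_nonneg hQ0 _
  by_cases hc' : r + 1 ≤ R - 1
  · have k1 : hx Q true b r R N ≤ hx Q false (H192.Q.sq1 b) r R N := hx_dual C.hQ
    have k2 : hx Q false (H192.Q.sq1 b) r R N ≤
        Pr Q (HB (H192.Q.sq1 b) N) eta0 (Xc false b (r + 1) (R - 1)) := by
      refine Pr_mono hQ0 (Xc_shift rfl ?_ ?_ hc')
      · simp only [H192.Q.sq1]; omega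
      · simp only [H192.Q.sq1]; omega
    have hK : K7 * (R - 1) = K7 * R - K7 := by ring
    have k3 := (h7 false b (r + 1) (R - 1) N (HB (H192.Q.sq1 b) N) eta0 (by omega) hc'
      (by omega) hη ⟨fun v hv => by
        rw [mem_Bq', hK] at hv
        rw [mem_HB]
        simp only [H192.Q.sq1]
        omega, fun _ _ _ => rfl⟩).1
    have k4 : c2 * hx Q false b (r + 1) (R - 1) N ≤ hx Q false b r (R - 1) N :=
      h2 false b r (r + 1) (R - 1) (HB b N) eta0 (by omega) (by omega) hc' (by omega) hη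
        (hD.mono (by omega))
    have k5 : c1 * hx Q false b r (R - 1) N ≤ hx Q false b r R N :=
      h1 false b r (R - 1) R (HB b N) eta0 (by omega) (by omega) (by omega) (by omega) hη hD
    have k3' := k1.trans (k2.trans k3)
    generalize hx Q true b r R N = z1 at *
    generalize hx Q false b r R N = z2 at *
    generalize hx Q false b (r + 1) (R - 1) N = z3 at *
    generalize hx Q false b r (R - 1) N = z4 at *
    have k6 : c1 * (c2 * z3) ≤ z2 := (mul_le_mul_of_nonneg_left k4 hc1.le).trans k5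
    have k7 : z3 ≤ z2 / (c1 * c2) := by
      rw [le_div_iff₀ (by positivity)]
      linarith
    have k8 := mul_le_mul_of_nonneg_left k7 hC7.le
    have k9 : (C7 / (c1 * c2) + 1 / c8) * z2 =
        C7 * (z2 / (c1 * c2)) + 1 / c8 * z2 := by ring
    have k10 : 0 ≤ 1 / c8 * z2 := by positivity
    rw [k9]
    linarith
  · have k1 : c8 ≤ hx Q false b r R N := h8 false b r R N (by omega) hrR (by omega) hN8
    have k2 : hx Q true b r R N ≤ 1 := Pr_le_one hQ0 _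
    have k3 : 1 ≤ 1 / c8 * hx Q false b r R N := by
      rw [one_div, ← div_eq_inv_mul, le_div_iff₀ hc8]
      linarith
    have k5 : 0 ≤ C7 / (c1 * c2) * hx Q false b r R N := by positivity
    linarith

end Ks

/-! ### Final form -/

theorem a4 (hQ : 1 ≤ Q) (hR : RSW Q) (hS : SRSW Q) : A4 Q := (exists_Ks hQ hR hS).some.a4

theorem a5 (hQ : 1 ≤ Q) (hR : RSW Q) (hS : SRSW Q) : A5 Q := (exists_Ks hQ hR hS).some.a5

theorem a6 (hQ : 1 ≤ Q) (hR : RSW Q) (hS : SRSW Q) : A6 Q := (exists_Ks hQ hR hS).some.a6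

theorem a7 (hQ : 1 ≤ Q) (hR : RSW Q) (hS : SRSW Q) : A7 Q := (exists_Ks hQ hR hS).some.a7

theorem a8 (hQ : 1 ≤ Q) (hR : RSW Q) (hS : SRSW Q) : A8 Q := (exists_Ks hQ hR hS).some.a8

end Vale.Agent.P167.H469
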