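import Vale.Agent.P167.H469.LDefs
import Vale.Agent.P167.H469.BArm

/-!
# P167, general `q`, lemma LX: arms in a corner between a flat side and a rough wall
-/

namespace Vale.Agent.P167.H469

open Finset Relation Vale.Agent.P167.FK Vale.Agent.P167.FKA Vale.Agent.P167.QM
open Vale.Agent.P145.FB (PStep PConn)
open Vale.Agent.P167.H259 (f_markov)
open Vale.Agent.P167.H632 (IncC cs pr nm_le le_nm)
open Vale.Agent.P167.H704.Q (cst prC_mono prC_dom good_cst)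
open Vale.Agent.P167.H192.TA (Xc Pw dq sr dF mem_dF step_sr)
open Vale.Agent.P167.H192.Q (SRSW pX pX_dec)

variable {Q : ℝ} {e : Bool} {d : Fin 4} {A : Finset (ℤ × ℤ)} {x : ℤ × ℤ} {r R : ℤ}

theorem mem_Aq {v : ℤ × ℤ} : v ∈ Aq x r R ↔ v ∈ Bq x R ∧ v ∉ Bq x r := by
  rw [Aq, Finset.mem_sdiff]

/-- The squares of the annulus on the side `d`. -/
noncomputable def Dq (d : Fin 4) (x : ℤ × ℤ) (r R : ℤ) : Finset (ℤ × ℤ) := by
  classical
  exact (Aq x r R).filter (fun v => Side d x v)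

theorem mem_Dq {v : ℤ × ℤ} : v ∈ Dq d x r R ↔ v ∈ Aq x r R ∧ Side d x v := by
  classical
  rw [Dq, Finset.mem_filter]

/-! ### Paths -/

theorem nm_le_iff' {u : ℤ × ℤ} {t : ℤ} : nm (u - x) ≤ t ↔
    x.1 - t ≤ u.1 ∧ u.1 ≤ x.1 + t ∧ x.2 - t ≤ u.2 ∧ u.2 ≤ x.2 + t := by
  unfold nm
  simp only [Prod.fst_sub, Prod.snd_sub, max_le_iff, abs_le]
  omega

theorem le_nm_iff' {u : ℤ × ℤ} {t : ℤ} (ht : 1 ≤ t) : t ≤ nm (u - x) ↔
    (u.1 ≤ x.1 - t ∨ x.1 + t ≤ u.1 ∨ u.2 ≤ x.2 - t ∨ x.2 + t ≤ u.2) := by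
  unfold nm
  simp only [Prod.fst_sub, Prod.snd_sub, le_max_iff, le_abs]
  omega

/-- A path from distance `r` to distance `R` contains a path in the annulus. -/
theorem cutA {F : Set (ℤ × ℤ)} {u v : ℤ × ℤ} (hr : 1 ≤ r) (hrR : r ≤ R)
    (h : ReflTransGen (PStep F) u v) (hu : nm (u - x) ≤ r) (hv : R ≤ nm (v - x)) :
    ∃ z0 z1, ReflTransGen (PStep F) u z0 ∧ nm (z0 - x) ≤ r ∧ R ≤ nm (z1 - x) ∧
      ReflTransGen (PStep {w | w ∈ F ∧ w ∈ Aq x r R}) z0 z1 := by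
  have key : (∃ z0 z1, ReflTransGen (PStep F) u z0 ∧ nm (z0 - x) ≤ r ∧ R ≤ nm (z1 - x) ∧
      ReflTransGen (PStep {w | w ∈ F ∧ w ∈ Aq x r R}) z0 z1) ∨
      (nm (v - x) < R ∧ ReflTransGen (PStep F) u v ∧ ∃ z0, ReflTransGen (PStep F) u z0 ∧
        nm (z0 - x) ≤ r ∧ ReflTransGen (PStep {w | w ∈ F ∧ w ∈ Aq x r R}) z0 v) := by
    clear hv
    induction h with
    | refl =>
      by_cases h1 : R ≤ nm (u - x)
      · exact Or.inl ⟨u, u, ReflTransGen.refl, hu, h1, ReflTransGen.refl⟩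
      · exact Or.inr ⟨by omega, ReflTransGen.refl, u, ReflTransGen.refl, hu, ReflTransGen.refl⟩
    | @tail y y' _ hs ih =>
      rcases ih with ih | ⟨i1, i2, z0, i3, i4, i5⟩
      · exact Or.inl ih
      · by_cases hy' : nm (y' - x) ≤ r
        · by_cases h1 : R ≤ nm (y' - x)
          · exact Or.inl ⟨y', y', i2.tail hs, hy', h1, ReflTransGen.refl⟩
          · exact Or.inr ⟨by omega, i2.tail hs, y', i2.tail hs, hy', ReflTransGen.refl⟩
        · have hstep : PStep {w | w ∈ F ∧ w ∈ Aq x r R} y y' := by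
            obtain ⟨s1, s2, s3⟩ := hs
            refine ⟨s1, s2, s3, ?_⟩
            rw [mem_Aq, mem_Bq', mem_Bq']
            have a1 := nm_le_iff'.1 (show nm (y - x) ≤ R - 1 by omega)
            have a2 := (le_nm_iff' (x := x) (u := y') (t := r + 1) (by omega)).1 (by omega)
            dsimp only
            omega
          by_cases h1 : R ≤ nm (y' - x)
          · exact Or.inl ⟨z0, y', i3, i4, h1, i5.tail hstep⟩
          · exact Or.inr ⟨by omega, i2.tail hs, z0, i3, i4, i5.tail hstep⟩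
  rcases key with h1 | ⟨h1, -⟩
  · exact h1
  · omega

theorem rtg_par {F : Set (ℤ × ℤ)} {u v : ℤ × ℤ} (h : ReflTransGen (PStep F) u v) :
    (u.1 + u.2) % 2 = (v.1 + v.2) % 2 := by
  induction h with
  | refl => rfl
  | tail _ h ih =>
    obtain ⟨h1, h2, -⟩ := h
    omega

theorem CP_cut (hr : 1 ≤ r) (hrR : r ≤ R) : CP e A x r R ⊆ CP e (A ∩ Aq x r R) x r R := by
  rintro ω ⟨u, v, h1, h2, h3, h4⟩
  obtain ⟨z0, z1, k1, k2, k3, k4⟩ := cutA hr hrR h4 h2 h3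
  refine ⟨z0, z1, by rw [← rtg_par k1, h1], k2, k3, rtg_mono' (fun w hw => ?_) k4⟩
  obtain ⟨⟨w1, w2⟩, w3⟩ := hw
  exact ⟨w1, Finset.mem_inter.2 ⟨w2, w3⟩⟩

theorem CP_mono {B : Finset (ℤ × ℤ)} (h : A ⊆ B) : CP e A x r R ⊆ CP e B x r R := by
  rintro ω ⟨u, v, h1, h2, h3, h4⟩
  refine ⟨u, v, h1, h2, h3, rtg_mono' (fun w hw => ?_) h4⟩
  exact ⟨hw.1, h hw.2⟩

theorem inc_CP : IncC e (CP e A x r R) := by
  rintro ω ω' h ⟨u, v, h1, h2, h3, h4⟩
  refine ⟨u, v, h1, h2, h3, rtg_mono' (fun w hw => ?_) h4⟩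
  exact ⟨h w hw.1, hw.2⟩

/-! ### The half annulus in four directions -/

theorem base0 (hr : 1 ≤ r) (hrR : r < R) :
    Pr Q (Dq 0 x r R) (cst e) (CP e (Dq 0 x r R) x r R) ≤ pX Q e x r R ∨ Q ≤ 0 := by
  by_cases hQ : Q ≤ 0
  · exact Or.inr hQ
  left
  have hQ0 : 0 < Q := by linarith
  have e1 : Dq 0 x r R = dF x r R := by
    ext v
    rw [mem_Dq, mem_Aq, mem_Bq', mem_Bq', mem_dF]
    simp only [Side, dq, Set.mem_ofPred_eq]
    simp
    omega
  rw [e1]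
  have e2 : (cst e : Cfg) = H192.Q.etac e := rfl
  rw [e2]
  refine Pr_mono hQ0 ?_
  rintro ω ⟨u, v, h1, h2, h3, h4⟩
  have h5 : Pw (cs e ω ∩ dq x r R) u v := by
    refine rtg_mono' (fun w hw => ?_) h4
    obtain ⟨w1, w2⟩ := hw
    exact ⟨w1, mem_dF.1 w2⟩
  refine ⟨u, v, ?_, h1, h2, h5, h3⟩
  rcases ReflTransGen.cases_head h5 with h6 | ⟨w, h6, -⟩
  · exfalso
    rw [h6] at h2
    omega
  · exact (step_sr h6).1

theorem dir_gen (hQ : 0 < Q) {τ ρ : ℤ × ℤ → ℤ × ℤ} (hτ : IsSy τ)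
    (hi : (Dq 0 x r R).image τ = Dq d x r R) (hm : ∀ w, τ w ∈ Dq d x r R → w ∈ Dq 0 x r R)
    (hn : ∀ u, nm (ρ u - x) = nm (u - x)) (hp : ∀ u, ((ρ u).1 + (ρ u).2) % 2 = (u.1 + u.2) % 2)
    (hs : ∀ (P : ℤ × ℤ → Prop) (u v : ℤ × ℤ), PStep {w | P w} u v →
      PStep {w | P (τ w)} (ρ u) (ρ v)) :
    Pr Q (Dq d x r R) (cst e) (CP e (Dq d x r R) x r R) ≤
      Pr Q (Dq 0 x r R) (cst e) (CP e (Dq 0 x r R) x r R) := by
  have h1 := hτ.2 Q (Dq 0 x r R) (cst e) ((CP e (Dq 0 x r R) x r R).indicator 1) hQ (good_cst e)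
  have h2 : Ex Q (Dq 0 x r R) (cst e ∘ τ) ((CP e (Dq 0 x r R) x r R).indicator 1) =
      Pr Q (Dq 0 x r R) (cst e) (CP e (Dq 0 x r R) x r R) := rfl
  rw [← h2, h1, hi]
  refine Ex_mono hQ fun S _ => ?_
  generalize cf (Dq d x r R) (cst e) S = ω
  by_cases h : ω ∈ CP e (Dq d x r R) x r R
  · have h' : ω ∘ τ ∈ CP e (Dq 0 x r R) x r R := by
      obtain ⟨u, v, g1, g2, g3, g4⟩ := h
      refine ⟨ρ u, ρ v, by rw [hp, g1], by rw [hn]; exact g2, by rw [hn]; exact g3, ?_⟩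
      clear g3
      induction g4 with
      | refl => exact ReflTransGen.refl
      | tail _ hab ih =>
        have := hs _ _ _ hab
        exact ih.tail ⟨this.1, this.2.1, this.2.2.1, hm _ this.2.2.2⟩
    rw [Set.indicator_of_mem h, Set.indicator_of_mem h']
    exact le_refl (1 : ℝ)
  · rw [Set.indicator_of_notMem h]
    exact ind_nonneg _ _

theorem dir1 (hQ : 0 < Q) : Pr Q (Dq 1 x r R) (cst e) (CP e (Dq 1 x r R) x r R) ≤
    Pr Q (Dq 0 x r R) (cst e) (CP e (Dq 0 x r R) x r R) := by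
  have hsy : IsSy (fun v : ℤ × ℤ => (v.1, 2 * x.2 - 1 - v.2)) := by
    have h := (sy_tr (0, 2 * x.2) (by rw [Int.even_iff]; dsimp only; omega)).comp sy_ry
    have e1 : (fun v : ℤ × ℤ => (v.1, 2 * x.2 - 1 - v.2)) =
        (fun v => (v.1 + ((0, 2 * x.2) : ℤ × ℤ).1, v.2 + ((0, 2 * x.2) : ℤ × ℤ).2)) ∘
          (fun v : ℤ × ℤ => (v.1, -1 - v.2)) := by
      funext v
      simp only [Function.comp, Prod.mk.injEq]
      constructor <;> ring
    rw [e1]
    exact h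
  refine dir_gen (ρ := fun u => (u.1, 2 * x.2 - u.2)) hQ hsy ?_ ?_ ?_ ?_ ?_
  · ext v
    rw [Finset.mem_image]
    constructor
    · rintro ⟨w, hw, rfl⟩
      rw [mem_Dq, mem_Aq, mem_Bq', mem_Bq'] at hw ⊢
      simp only [Side] at hw ⊢
      simp at hw ⊢
      omega
    · intro hv
      refine ⟨(v.1, 2 * x.2 - 1 - v.2), ?_, by ext <;> simp⟩
      rw [mem_Dq, mem_Aq, mem_Bq', mem_Bq'] at hv ⊢
      simp only [Side] at hv ⊢
      simp at hv ⊢
      omega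
  · intro w hw
    rw [mem_Dq, mem_Aq, mem_Bq', mem_Bq'] at hw ⊢
    simp only [Side] at hw ⊢
    simp at hw ⊢
    omega
  · intro u
    unfold nm
    simp only [Prod.fst_sub, Prod.snd_sub]
    have : 2 * x.2 - u.2 - x.2 = -(u.2 - x.2) := by ring
    rw [this, abs_neg]
  · intro u
    dsimp only
    omega
  · rintro P u v ⟨s1, s2, s3⟩
    refine ⟨s1, by dsimp only; omega, ?_⟩
    show P _
    have s4 : P (min u.1 v.1, min u.2 v.2) := s3
    have e1 : ((min u.1 v.1, 2 * x.2 - 1 - min (2 * x.2 - u.2) (2 * x.2 - v.2)) : ℤ × ℤ) =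
        (min u.1 v.1, min u.2 v.2) := by
      refine Prod.ext rfl ?_
      dsimp only
      omega
    rw [← e1] at s4
    exact s4

theorem dir2 (hQ : 0 < Q) : Pr Q (Dq 2 x r R) (cst e) (CP e (Dq 2 x r R) x r R) ≤
    Pr Q (Dq 0 x r R) (cst e) (CP e (Dq 0 x r R) x r R) := by
  have hsy : IsSy (fun v : ℤ × ℤ => (v.2 + (x.1 - x.2), v.1 + (x.2 - x.1))) := by
    have h := (sy_tr (x.1 - x.2, x.2 - x.1) (by rw [Int.even_iff]; dsimp only; omega)).comp sy_sw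
    exact h
  refine dir_gen (ρ := fun u => (u.2 + (x.1 - x.2), u.1 + (x.2 - x.1))) hQ hsy ?_ ?_ ?_ ?_ ?_
  · ext v
    rw [Finset.mem_image]
    constructor
    · rintro ⟨w, hw, rfl⟩
      rw [mem_Dq, mem_Aq, mem_Bq', mem_Bq'] at hw ⊢
      simp only [Side] at hw ⊢
      simp at hw ⊢
      omega
    · intro hv
      refine ⟨(v.2 + (x.1 - x.2), v.1 + (x.2 - x.1)), ?_, by
        refine Prod.ext ?_ ?_ <;> dsimp only <;> omega⟩
      rw [mem_Dq, mem_Aq, mem_Bq', mem_Bq'] at hv ⊢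
      simp only [Side] at hv ⊢
      simp at hv ⊢
      omega
  · intro w hw
    rw [mem_Dq, mem_Aq, mem_Bq', mem_Bq'] at hw ⊢
    simp only [Side] at hw ⊢
    simp at hw ⊢
    omega
  · intro u
    unfold nm
    simp only [Prod.fst_sub, Prod.snd_sub]
    have e1 : u.2 + (x.1 - x.2) - x.1 = u.2 - x.2 := by ring
    have e2 : u.1 + (x.2 - x.1) - x.2 = u.1 - x.1 := by ring
    rw [e1, e2, max_comm]
  · intro u
    dsimp only
    omega
  · rintro P u v ⟨s1, s2, s3⟩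
    refine ⟨by dsimp only; omega, by dsimp only; omega, ?_⟩
    show P _
    have s4 : P (min u.1 v.1, min u.2 v.2) := s3
    have e1 : ((min (u.1 + (x.2 - x.1)) (v.1 + (x.2 - x.1)) + (x.1 - x.2),
        min (u.2 + (x.1 - x.2)) (v.2 + (x.1 - x.2)) + (x.2 - x.1)) : ℤ × ℤ) =
        (min u.1 v.1, min u.2 v.2) := by
      refine Prod.ext ?_ ?_ <;> dsimp only <;> omega
    rw [← e1] at s4
    exact s4

theorem dir3 (hQ : 0 < Q) : Pr Q (Dq 3 x r R) (cst e) (CP e (Dq 3 x r R) x r R) ≤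
    Pr Q (Dq 0 x r R) (cst e) (CP e (Dq 0 x r R) x r R) := by
  have hsy : IsSy (fun v : ℤ × ℤ => (-1 - v.2 + (x.1 + x.2), v.1 + (x.2 - x.1))) := by
    have h := (sy_tr (x.1 + x.2, x.2 - x.1) (by rw [Int.even_iff]; dsimp only; omega)).comp
      (sy_rx.comp sy_sw)
    exact h
  refine dir_gen (ρ := fun u => (u.2 - x.2 + x.1, x.1 + x.2 - u.1)) hQ hsy ?_ ?_ ?_ ?_ ?_
  · ext v
    rw [Finset.mem_image]
    constructor
    · rintro ⟨w, hw, rfl⟩
      rw [mem_Dq, mem_Aq, mem_Bq', mem_Bq'] at hw ⊢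
      simp only [Side] at hw ⊢
      simp at hw ⊢
      omega
    · intro hv
      refine ⟨(v.2 - x.2 + x.1, x.1 + x.2 - 1 - v.1), ?_, by
        refine Prod.ext ?_ ?_ <;> dsimp only <;> omega⟩
      rw [mem_Dq, mem_Aq, mem_Bq', mem_Bq'] at hv ⊢
      simp only [Side] at hv ⊢
      simp at hv ⊢
      omega
  · intro w hw
    rw [mem_Dq, mem_Aq, mem_Bq', mem_Bq'] at hw ⊢
    simp only [Side] at hw ⊢
    simp at hw ⊢
    omega
  · intro u
    unfold nm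
    simp only [Prod.fst_sub, Prod.snd_sub]
    have e1 : u.2 - x.2 + x.1 - x.1 = u.2 - x.2 := by ring
    have e2 : x.1 + x.2 - u.1 - x.2 = -(u.1 - x.1) := by ring
    rw [e1, e2, max_comm, abs_neg]
  · intro u
    dsimp only
    omega
  · rintro P u v ⟨s1, s2, s3⟩
    refine ⟨by dsimp only; omega, by dsimp only; omega, ?_⟩
    show P _
    have s4 : P (min u.1 v.1, min u.2 v.2) := s3
    have e1 : ((-1 - min (x.1 + x.2 - u.1) (x.1 + x.2 - v.1) + (x.1 + x.2),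
        min (u.2 - x.2 + x.1) (v.2 - x.2 + x.1) + (x.2 - x.1)) : ℤ × ℤ) =
        (min u.1 v.1, min u.2 v.2) := by
      refine Prod.ext ?_ ?_ <;> dsimp only <;> omega
    rw [← e1] at s4
    exact s4

theorem base_all (hQ : 0 < Q) (d : Fin 4) (hr : 1 ≤ r) (hrR : r < R) :
    Pr Q (Dq d x r R) (cst e) (CP e (Dq d x r R) x r R) ≤ pX Q e x r R := by
  have h0 : Pr Q (Dq 0 x r R) (cst e) (CP e (Dq 0 x r R) x r R) ≤ pX Q e x r R :=
    (base0 hr hrR).resolve_right (by linarith)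
  fin_cases d
  · exact h0
  · exact (dir1 hQ).trans h0
  · exact (dir2 hQ).trans h0
  · exact (dir3 hQ).trans h0

/-- **Corner arms.** -/
theorem lxArm (hQ : 1 ≤ Q) (hS : SRSW Q) : LXarm Q := by
  have hQ0 : 0 < Q := by linarith
  obtain ⟨α, C, hα, hC, hX⟩ := pX_dec hQ hS
  refine ⟨α, max C 1, hα, le_max_right _ _, fun e d A η x r R G hr hrR hη hc hG0 hG => ?_⟩
  have hG1 : 0 ≤ Ex Q A η G := Ex_nonneg hQ0 fun S _ => hG0 _
  have hr' : (1 : ℝ) ≤ r := by exact_mod_cast hr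
  have hR' : (r : ℝ) ≤ R := by exact_mod_cast hrR
  rcases hrR.eq_or_lt with h | h
  · subst h
    have e1 : ((r : ℝ) / r) ^ α = 1 := by
      rw [div_self (by linarith), Real.one_rpow]
    rw [e1, mul_one]
    refine le_trans (b := 1 * Ex Q A η G) ?_ (mul_le_mul_of_nonneg_right (le_max_right _ _) hG1)
    rw [one_mul]
    refine Ex_mono hQ0 fun S _ => ?_
    exact mul_le_of_le_one_right (hG0 _) (ind_le_one _ _)
  · have hp : ∀ S, Pr Q (A ∩ Aq x r R) (cf A η S) (CP e (A ∩ Aq x r R) x r R) ≤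
        max C 1 * ((r : ℝ) / R) ^ α := by
      intro S
      have hsub : A ∩ Aq x r R ⊆ Dq d x r R := by
        intro v hv
        rw [Finset.mem_inter, mem_Aq] at hv
        rw [mem_Dq, mem_Aq]
        exact ⟨hv.2, hc.flat v hv.1 hv.2.1⟩
      have h1 := prC_dom (e := e) (D := A ∩ Aq x r R) (D' := Dq d x r R) (η := cf A η S) hQ
        (f_good.1 _ _ _ hη) hsub (fun v hv hv' => by
          rw [mem_Dq, mem_Aq] at hv
          have hvA : v ∉ A := fun h => hv' (Finset.mem_inter.2 ⟨h, mem_Aq.2 hv.1⟩)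
          rw [cf_out hvA]
          exact hc.wall v hv.1.1 hv.2 hvA) (inc_CP (e := e) (A := A ∩ Aq x r R) (x := x) (r := r)
            (R := R))
      have h2 : Pr Q (Dq d x r R) (cst e) (CP e (A ∩ Aq x r R) x r R) ≤
          Pr Q (Dq d x r R) (cst e) (CP e (Dq d x r R) x r R) := Pr_mono hQ0 (CP_mono hsub)
      have h3 := base_all (Q := Q) (e := e) (x := x) hQ0 d hr h
      have h4 := hX e x r R hr hrR
      have h5 : C * ((r : ℝ) / R) ^ α ≤ max C 1 * ((r : ℝ) / R) ^ α :=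
        mul_le_mul_of_nonneg_right (le_max_left _ _)
          (Real.rpow_nonneg (div_nonneg (by linarith) (by linarith)) α)
      linarith
    have h1 : Ex Q A η (fun ω => G ω * (CP e A x r R).indicator 1 ω) ≤
        Ex Q A η (fun ω => G ω * (CP e (A ∩ Aq x r R) x r R).indicator 1 ω) := by
      refine Ex_mono hQ0 fun S _ => mul_le_mul_of_nonneg_left ?_ (hG0 _)
      exact H519.ind_le_of_imp fun h => CP_cut hr hrR h
    refine h1.trans ?_
    rw [markov f_markov hQ0 (A := A ∩ Aq x r R) Finset.inter_subset_left hη hG, ← Ex_mul_left]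
    refine Ex_mono hQ0 fun S _ => ?_
    rw [mul_comm (max C 1 * ((r : ℝ) / R) ^ α)]
    exact mul_le_mul_of_nonneg_left (hp S) (hG0 _)

end Vale.Agent.P167.H469
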