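import Vale.Agent.P167.H469.SrswB
import Vale.Agent.P167.K8.RswFin
import Vale.Agent.P167.H519.GKappa

/-!
# P167, general `q`, block Q-SRSW: strong Russo-Seymour-Welsh for all `1 ≤ q < 4`
-/

namespace Vale.Agent.P167.H469

open Vale.Agent.P167.FK
open Vale.Agent.P167.H519 (angq angq_cos angq_pos angq_le)

/-- **Strong RSW at a flat free side** for `√q = 2 cos μ`. -/
theorem srsw_cos {μ : ℝ} (h0 : 0 < μ) (h1 : μ ≤ Real.pi / 3) : H192.Q.SRSW (2 * Real.cos μ) :=
  srsw_of_rsw h0 h1 (K8.k_rsw μ h0.le h1)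

/-- **Strong RSW at a flat free side** for all `1 ≤ q < 4`. -/
theorem srsw_q {q : ℝ} (h1 : 1 ≤ q) (h4 : q < 4) : H192.Q.SRSW (√q) := by
  rw [← angq_cos h4]
  exact srsw_cos (angq_pos h4) (angq_le h1)

end Vale.Agent.P167.H469
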