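import Vale.Agent.P167.H469.Ra1
import Vale.Agent.P167.QC.FinW

/-!
# P167, general `q`: no return to the start `a`, probability
-/

namespace Vale.Agent.P167.H469

open Set Filter Topology MeasureTheory
open scoped ENNReal
open Vale.Agent.P167.E6 Vale.Agent.P167.E2 Vale.Agent.P167.SLE Vale.Agent.P167.H161
open Vale.Agent.P167.H166 Vale.Agent.P167.QC
open Vale.Agent.P167.FK (Good RSW Pr Ex)
open Vale.Agent.P167.H718 (Dq wE etaQ mem_Dq' mem_wE mem_wiredOpen good_etaQ)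
open Vale.Agent.P167.QE (lawW wq lwt)
open Vale.Agent.P167.H174 (bc continuous_bc toC_inj)
open Vale.Agent.P153.R2.C1 (reparam)
open Vale.Agent.P153.R2.Final (dom circ toC)

open Classical in
/-- **The probability of a return to `a`**, `1 ≤ q ≤ 4`. -/
theorem retA_tail {q : ℝ} (h1 : 1 ≤ q) (h4 : q ≤ 4) : ∃ α C : ℝ, 0 < α ∧ 0 < C ∧
    ∀ (n : ℕ) (p : ZMod n → ℤ × ℤ) (S : Finset (ℤ × ℤ)) (k : ℕ),
    IsPolygon p → Encloses p S → 0 < k → k < n →
    ∀ (x : ℤ × ℤ) (r R' R : ℤ), 1 ≤ r → r + 2 < R' → R' + 5 ≤ R →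
      (∀ i, k ≤ i → i < n → nm (H192.ro (p i) - x) ≤ R' + 3 → ∀ l, i ≤ l → l < n →
        nm (H192.ro (p l) - x) < R) →
      (∀ i < k, nm (H192.ro (p i) - x) ≤ R' + 3 → ∀ l, l ≤ i →
        nm (H192.ro (p l) - x) < R) →
      nm (H192.ro (p 0) - x) + 1 ≤ r → R + 1 < nm (H192.ro (p (k : ZMod n)) - x) →
      Final.mean q p k S (fun A => if ∃ t0 t1 : ℕ, t0 ≤ t1 ∧ t1 < len p k A ∧
        R < nm (hdv (H192.me (run p k A t0)) - x) ∧
        nm (hdv (H192.me (run p k A t1)) - x) ≤ r then 1 else 0) ≤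
        C * ((r : ℝ) / R') ^ α := by
  obtain ⟨hs1, hrsw⟩ := rsw_sqrt h1 h4
  have hQ0 : (0 : ℝ) < √q := by linarith
  have hq0 : 0 < q := by linarith
  obtain ⟨α, C, hα, hC, h⟩ := fresh_tail hs1 hrsw
  refine ⟨α, 4 * C, hα, by positivity, fun n p S k hp hS h0 hk x r R' R hr hrR hR hw hf ha hb => ?_⟩
  have hr' : (1 : ℝ) ≤ r := by exact_mod_cast hr
  have hR0 : (0 : ℝ) < R' := by
    have : (1 : ℤ) ≤ R' := by omega
    have : (1 : ℝ) ≤ R' := by exact_mod_cast this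
    linarith
  have hx0 : 0 ≤ C * ((r : ℝ) / R') ^ α := by
    have : 0 ≤ (r : ℝ) / R' := div_nonneg (by linarith) hR0.le
    positivity
  rcases le_total (C * ((r : ℝ) / R') ^ α) 1 with hsm | hsm
  · obtain ⟨t1, t2⟩ := h x r R' hr hrR hsm (Dq S p k) (etaQ p k) good_etaQ 1
    rw [pow_one] at t1 t2
    have hle := mean_le_Pr (k := k) hq0 hp hS (fun A => ∃ t0 t1 : ℕ, t0 ≤ t1 ∧ t1 < len p k A ∧
        R < nm (hdv (H192.me (run p k A t0)) - x) ∧
        nm (hdv (H192.me (run p k A t1)) - x) ≤ r)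
      ({ω | 1 ≤ kf x r R' (Dq S p k ∩ bxx x R') ω true 0} ∪
        {ω | 1 ≤ kf x r R' (Dq S p k ∩ bxx x R') ω false 1}) fun A hA hE => ?_
    · refine hle.trans ((FKA.Pr_union_le hQ0 _ _).trans ?_)
      linarith
    · obtain ⟨s0, s1, g1, g2, g3, g4⟩ := hE
      have h5 := retA_lat hp hS h0 hk (by omega) hR hw hf ha hb hA g1 g2 g3 g4
      by_cases h7 : 1 ≤ kf x r R' (Dq S p k ∩ bxx x R') (om p k A) true 0
      · exact Or.inl h7
      · refine Or.inr ?_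
        show 1 ≤ kf x r R' (Dq S p k ∩ bxx x R') (om p k A) false 1
        omega
  · refine (mean_le_Pr (k := k) hq0 hp hS _ Set.univ fun _ _ _ => Set.mem_univ _).trans ?_
    refine (FKA.Pr_le_one hQ0 _).trans ?_
    linarith

theorem bc_ne0 {Φ : (ℝ × ℝ) ≃ₜ (ℝ × ℝ)} {t : ℝ} (h0 : 0 < t) (h1 : t < 2 * Real.pi) :
    bc Φ t ≠ bc Φ 0 := by
  intro h
  have h2 : circ t = circ 0 := Φ.injective (toC_inj h)
  have h3 : Real.cos t = Real.cos 0 := congrArg Prod.fst h2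
  rw [Real.cos_zero] at h3
  obtain ⟨m, hm⟩ := (Real.cos_eq_one_iff t).1 h3
  have hpi := Real.pi_pos
  have h4 : (m : ℝ) < 1 := by
    by_contra hcon
    push Not at hcon
    nlinarith
  have h5 : (0 : ℝ) < m := by
    by_contra hcon
    push Not at hcon
    nlinarith
  have a1 : m < 1 := by exact_mod_cast h4
  have a2 : 0 < m := by exact_mod_cast h5
  omega

theorem bc_per (Φ : (ℝ × ℝ) ≃ₜ (ℝ × ℝ)) (t : ℝ) : bc Φ (t - 2 * Real.pi) = bc Φ t := by
  unfold bc circ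
  rw [Real.cos_sub_two_pi, Real.sin_sub_two_pi]

/-- Boundary points near `a` are joined to `a` by a small arc. -/
theorem near_a (Φ : (ℝ × ℝ) ≃ₜ (ℝ × ℝ)) {r : ℝ} (hr : 0 < r) :
    ∃ r2 : ℝ, 0 < r2 ∧ r2 ≤ r ∧
      (∀ t, 0 ≤ t → t ≤ Real.pi → dist (bc Φ t) (bc Φ 0) < r2 → ∀ t' : ℝ, 0 ≤ t' → t' ≤ t →
        dist (bc Φ t') (bc Φ 0) < r) ∧
      (∀ t, Real.pi ≤ t → t ≤ 2 * Real.pi → dist (bc Φ t) (bc Φ 0) < r2 → ∀ t' : ℝ, t ≤ t' →
        t' ≤ 2 * Real.pi → dist (bc Φ t') (bc Φ 0) < r) := by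
  have hpi := Real.pi_pos
  have hc := (continuous_bc Φ).continuousAt (x := 0)
  obtain ⟨η', hη', h1⟩ := Metric.continuousAt_iff.1 hc r hr
  obtain ⟨η, hη0, hη1, hη2⟩ : ∃ η : ℝ, 0 < η ∧ η < η' ∧ η ≤ Real.pi :=
    ⟨min (η' / 2) Real.pi, lt_min (by linarith) hpi,
      lt_of_le_of_lt (min_le_left _ _) (by linarith), min_le_right _ _⟩
  have hKc : IsCompact (Icc η (2 * Real.pi - η)) := isCompact_Icc
  have hmem : Real.pi ∈ Icc η (2 * Real.pi - η) := ⟨hη2, by linarith⟩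
  obtain ⟨t0, ht0, hmin⟩ := hKc.exists_isMinOn ⟨_, hmem⟩
    ((continuous_bc Φ).dist continuous_const (g := fun _ => bc Φ 0)).continuousOn
  have hpos : 0 < dist (bc Φ t0) (bc Φ 0) := by
    rw [dist_pos]
    exact bc_ne0 (by linarith [ht0.1]) (by linarith [ht0.2])
  have key : ∀ t, dist (bc Φ t) (bc Φ 0) < min (dist (bc Φ t0) (bc Φ 0)) r →
      t ∉ Icc η (2 * Real.pi - η) := by
    intro t ht hmem
    have h3 : dist (bc Φ t0) (bc Φ 0) ≤ dist (bc Φ t) (bc Φ 0) := hmin hmem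
    exact absurd (lt_of_lt_of_le ht (min_le_left _ _)) (not_lt.2 h3)
  refine ⟨min (dist (bc Φ t0) (bc Φ 0)) r, lt_min hpos hr, min_le_right _ _, ?_, ?_⟩
  · intro t ha hb ht t' ht' htt
    have h2 : t < η := by
      by_contra hcon
      push Not at hcon
      exact key t ht ⟨hcon, by linarith⟩
    apply h1
    rw [Real.dist_eq, sub_zero, abs_of_nonneg ht']
    linarith
  · intro t ha hb ht t' ht' htt
    have h2 : 2 * Real.pi - η < t := by
      by_contra hcon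
      push Not at hcon
      exact key t ht ⟨by linarith, hcon⟩
    rw [← bc_per Φ t']
    apply h1
    rw [Real.dist_eq, sub_zero, abs_of_nonpos (by linarith)]
    linarith

open Classical in
/-- **No return to `a`**: paths close to the interfaces. -/
theorem retA_mean {q : ℝ} (hq1 : 1 ≤ q) (hq4 : q ≤ 4) {Φ : (ℝ × ℝ) ≃ₜ (ℝ × ℝ)} {δ : ℕ → ℝ}
    {N k : ℕ → ℕ} {p : ∀ n, ZMod (N n) → ℤ × ℤ} {S : ℕ → Finset (ℤ × ℤ)}
    (hA : Approx Φ δ N k p S) {r : ℝ} (hr : 0 < r) (hra : r ≤ dist (bc Φ 0) (bq Φ)) {e : ℝ}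
    (he : 0 < e) : ∃ r' : ℝ, 0 < r' ∧ ∀ᶠ n in atTop,
      Final.mean q (p n) (k n) (S n) (fun A => if ∃ t0 t1 : ℕ, t0 ≤ t1 ∧ t1 < len (p n) (k n) A ∧
        r < dist (mid (δ n) (run (p n) (k n) A t0)) (bc Φ 0) ∧
        dist (mid (δ n) (run (p n) (k n) A t1)) (bc Φ 0) < r' then 1 else 0) ≤ e := by
  obtain ⟨α, C, hα, hC, hbound⟩ := retA_tail hq1 hq4
  obtain ⟨r2, hr2, hr2r, hnear1, hnear2⟩ := near_a Φ (r := r / 16) (by linarith)
  -- the choice of `r'`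
  obtain ⟨r', hr', hr'1, hr'2⟩ : ∃ r' : ℝ, 0 < r' ∧ 64 * r' < r2 ∧
      C * (64 * r' / r2) ^ α ≤ e := by
    have h1 : Tendsto (fun x : ℝ => C * (64 * x / r2) ^ α) (𝓝[>] 0) (𝓝 0) := by
      have h2 : Tendsto (fun x : ℝ => 64 * x / r2) (𝓝[>] 0) (𝓝 0) := by
        have h3 : Tendsto (fun x : ℝ => 64 * x / r2) (𝓝 0) (𝓝 (64 * 0 / r2)) :=
          (continuous_const.mul continuous_id).div_const _ |>.tendsto 0
        rw [mul_zero, zero_div] at h3
        exact h3.mono_left nhdsWithin_le_nhds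
      have h4 := (h2.rpow_const (p := α) (Or.inr hα.le)).const_mul C
      rwa [Real.zero_rpow hα.ne', mul_zero] at h4
    have h5 : ∀ᶠ x : ℝ in 𝓝[>] 0, C * (64 * x / r2) ^ α ≤ e :=
      (h1.eventually (gt_mem_nhds he)).mono fun x hx => le_of_lt hx
    have h6 : ∀ᶠ x : ℝ in 𝓝[>] 0, x < r2 / 64 := by
      filter_upwards [Ioo_mem_nhdsGT (show (0 : ℝ) < r2 / 64 by positivity)] with x hx
      exact hx.2
    obtain ⟨x, h7, h8, h9⟩ := (h5.and (h6.and self_mem_nhdsWithin)).exists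
    exact ⟨x, h9, by linarith, h7⟩
  refine ⟨r', hr', ?_⟩
  obtain ⟨hpoly, hδ0, happ⟩ := hA
  have hδsmall : ∀ᶠ n in atTop, δ n < r' / 16 :=
    hδ0.eventually (gt_mem_nhds (show (0 : ℝ) < r' / 16 by positivity))
  filter_upwards [hδsmall, happ (r' / 8) (by positivity)] with n hδn happn
  obtain ⟨hδ, h0k, hk, hp, hS⟩ := hpoly n
  obtain ⟨s, hs, hs0, hsk, hsN, hsd⟩ := happn
  set d := δ n with hd
  set b := bc Φ 0 with hb
  set x := rnd d b with hx
  -- integer radii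
  obtain ⟨ρ, hρ⟩ : ∃ ρ : ℤ, ρ = ⌊2 * r' / d⌋ + 4 := ⟨_, rfl⟩
  obtain ⟨R', hR'⟩ : ∃ R' : ℤ, R' = ⌊r2 / (8 * d)⌋ := ⟨_, rfl⟩
  obtain ⟨R, hR⟩ : ∃ R : ℤ, R = ⌊r / (4 * d)⌋ + 3 := ⟨_, rfl⟩
  have hρ1 : d * ρ ≤ 2 * r' + 4 * d := by
    have h1 := Int.floor_le (2 * r' / d)
    have h2 : d * (⌊2 * r' / d⌋ : ℝ) ≤ 2 * r' := by
      have := mul_le_mul_of_nonneg_left h1 hδ.le
      rwa [mul_div_cancel₀ _ hδ.ne'] at this
    rw [hρ]; push_cast
    linarith
  have hρ2 : 2 * r' + 3 * d ≤ d * ρ := by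
    have h1 := (Int.lt_floor_add_one (2 * r' / d)).le
    have h2 : 2 * r' ≤ d * ((⌊2 * r' / d⌋ : ℝ) + 1) := by
      have := mul_le_mul_of_nonneg_left h1 hδ.le
      rwa [mul_div_cancel₀ _ hδ.ne'] at this
    rw [hρ]; push_cast
    linarith
  have hR'1 : d * R' ≤ r2 / 8 := by
    have h1 := Int.floor_le (r2 / (8 * d))
    rw [← hR'] at h1
    have := mul_le_mul_of_nonneg_left h1 hδ.le
    have e : d * (r2 / (8 * d)) = r2 / 8 := by field_simp
    linarith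
  have hR'2 : r2 / 8 - d ≤ d * R' := by
    have h1 := (Int.lt_floor_add_one (r2 / (8 * d))).le
    rw [← hR'] at h1
    have := mul_le_mul_of_nonneg_left h1 hδ.le
    have e : d * (r2 / (8 * d)) = r2 / 8 := by field_simp
    linarith
  have hR1 : d * R ≤ r / 4 + 3 * d := by
    have h1 := Int.floor_le (r / (4 * d))
    have := mul_le_mul_of_nonneg_left h1 hδ.le
    have e : d * (r / (4 * d)) = r / 4 := by field_simp
    rw [hR]; push_cast
    linarith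
  have hR2 : r / 4 + 2 * d ≤ d * R := by
    have h1 := (Int.lt_floor_add_one (r / (4 * d))).le
    have := mul_le_mul_of_nonneg_left h1 hδ.le
    have e : d * (r / (4 * d)) = r / 4 := by field_simp
    rw [hR]; push_cast
    linarith
  have key : ∀ a c : ℤ, d * (a : ℝ) < d * (c : ℝ) → a < c := by
    intro a c h
    have := lt_of_mul_lt_mul_left h hδ.le
    exact_mod_cast this
  have key' : ∀ a c : ℤ, d * (a : ℝ) ≤ d * (c : ℝ) → a ≤ c := by
    intro a c h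
    have := le_of_mul_le_mul_left h hδ
    exact_mod_cast this
  have hρR : ρ + 2 < R' := by
    apply key
    push_cast
    nlinarith
  have hRR' : R' + 5 ≤ R := by
    apply key'
    push_cast
    nlinarith
  have hρ0 : 1 ≤ ρ := by
    have h1 : 0 ≤ ⌊2 * r' / d⌋ := Int.floor_nonneg.2 (by positivity)
    omega
  -- coordinates
  have hmul : ∀ {a m : ℝ}, m ≤ 2 * a / d + 1 → d * m ≤ 2 * a + d := by
    intro a m h
    have h1 := mul_le_mul_of_nonneg_left h hδ.le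
    have h2 : d * (2 * a / d + 1) = 2 * a + d := by field_simp
    linarith
  -- vertices near `a`
  have hvert : ∀ j : ℕ, j < N n → dist ((d : ℂ) * pt (p n (j : ZMod (N n)))) (bc Φ (s j)) <
      r' / 8 := by
    intro j hj
    exact hsd j hj (s j) ⟨le_rfl, hs (Nat.le_succ j)⟩
  have hs01 : ∀ j : ℕ, j ≤ N n → 0 ≤ s j ∧ s j ≤ 2 * Real.pi := by
    intro j hj
    exact ⟨hs0 ▸ hs (Nat.zero_le j), hsN ▸ hs hj⟩
  have hclose : ∀ j : ℕ, j < N n → nm (H192.ro (p n (j : ZMod (N n))) - x) ≤ R' + 3 →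
      dist (bc Φ (s j)) b < r2 := by
    intro j hj h
    have h1 := (ro_rnd hδ b (p n (j : ZMod (N n)))).2
    have h2 := hvert j hj
    have h3 := dist_triangle_left (bc Φ (s j)) b ((d : ℂ) * pt (p n (j : ZMod (N n))))
    have h4 : ((nm (H192.ro (p n (j : ZMod (N n))) - x) : ℤ) : ℝ) ≤ (R' : ℝ) + 3 := by
      exact_mod_cast h
    rw [← hx] at h1
    nlinarith
  have hfar' : ∀ j : ℕ, j < N n → dist (bc Φ (s j)) b < r / 16 →
      nm (H192.ro (p n (j : ZMod (N n))) - x) < R := by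
    intro j hj h
    have h2 := hvert j hj
    have h3 := dist_triangle ((d : ℂ) * pt (p n (j : ZMod (N n)))) (bc Φ (s j)) b
    have h1 := hmul (ro_rnd hδ b (p n (j : ZMod (N n)))).1
    apply key
    rw [← hx] at h1
    linarith
  have hw : ∀ i, k n ≤ i → i < N n → nm (H192.ro (p n i) - x) ≤ R' + 3 → ∀ l, i ≤ l → l < N n →
      nm (H192.ro (p n l) - x) < R := by
    intro j hj1 hj2 hj3 j' hj4 hj5
    refine hfar' j' hj5 ?_
    obtain ⟨a1, a2⟩ := hs01 j hj2.le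
    exact hnear2 (s j) (hsk ▸ hs hj1) a2 (hclose j hj2 hj3) _ (hs hj4) (hs01 j' hj5.le).2
  have hf : ∀ i < k n, nm (H192.ro (p n i) - x) ≤ R' + 3 → ∀ l, l ≤ i →
      nm (H192.ro (p n l) - x) < R := by
    intro j hj1 hj3 j' hj4
    refine hfar' j' (by omega) ?_
    obtain ⟨a1, a2⟩ := hs01 j (by omega)
    exact hnear1 (s j) a1 (hsk ▸ hs hj1.le) (hclose j (by omega) hj3) _ (hs01 j' (by omega)).1
      (hs hj4)
  have ha : nm (H192.ro (p n 0) - x) + 1 ≤ ρ := by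
    have h2 := hvert 0 (by omega)
    rw [hs0, Nat.cast_zero] at h2
    have h1 := hmul (ro_rnd hδ b (p n 0)).1
    apply key'
    push_cast
    rw [← hx] at h1
    nlinarith
  have hbk : R + 1 < nm (H192.ro (p n (k n : ZMod (N n))) - x) := by
    have h1 := (ro_rnd hδ b (p n (k n : ZMod (N n)))).2
    have h2 := hvert (k n) hk
    rw [hsk] at h2
    have h2' : dist ((d : ℂ) * pt (p n (k n : ZMod (N n)))) (bq Φ) < r' / 8 := h2
    have h3 := dist_triangle_left b (bq Φ) ((d : ℂ) * pt (p n (k n : ZMod (N n))))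
    apply key
    push_cast
    rw [← hx] at h1
    nlinarith
  -- the event
  refine (mean_mono' (by linarith) fun A hAS => ?_).trans ((hbound (N n) (p n) (S n) (k n) hp hS
    h0k hk x ρ R' R hρ0 hρR hRR' hw hf ha hbk).trans ?_)
  · split_ifs with g1 g2 g2
    · exact le_rfl
    · exfalso
      apply g2
      obtain ⟨t0, t1, c1, c2, c3, c4⟩ := g1
      refine ⟨t0, t1, c1, c2, ?_, ?_⟩
      · have h1 := (hd_rnd hδ b (run (p n) (k n) A t0)).2
        apply key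
        rw [← hx] at h1
        nlinarith
      · have h1 := hmul (hd_rnd hδ b (run (p n) (k n) A t1)).1
        apply key'
        rw [← hx] at h1
        linarith
    · exact zero_le_one
    · exact le_rfl
  · refine le_trans (mul_le_mul_of_nonneg_left (Real.rpow_le_rpow ?_ ?_ hα.le) hC.le) hr'2
    · apply div_nonneg
      · exact_mod_cast (by omega : (0 : ℤ) ≤ ρ)
      · exact_mod_cast (by omega : (0 : ℤ) ≤ R')
    · have h1 : (0 : ℝ) < (R' : ℝ) := by exact_mod_cast (by omega : (0 : ℤ) < R')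
      rw [div_le_div_iff₀ h1 hr2]
      have h2 : d * ((ρ : ℝ) * r2) ≤ d * (64 * r' * (R' : ℝ)) := by
        nlinarith
      exact le_of_mul_le_mul_left h2 hδ

/-- Input: no return to `a`. -/
def I_staW (wt : Vale.Agent.P167.QE.Wt) : Prop := ∀ (Φ : (ℝ × ℝ) ≃ₜ (ℝ × ℝ)) (δ : ℕ → ℝ)
  (N k : ℕ → ℕ) (p : ∀ n, ZMod (N n) → ℤ × ℤ) (S : ℕ → Finset (ℤ × ℤ)), Approx Φ δ N k p S →
  ∀ r : ℝ, 0 < r → ∀ q : ℝ≥0∞, 0 < q → ∃ r' : ℝ, 0 < r' ∧ ∀ᶠ n in atTop,
    lwt wt (p n) (k n) (S n) {a : Cf (S n) | ∃ s t : unitInterval, s ≤ t ∧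
      r < dist (Xc (p n) (k n) (δ n) a.1 s) (bc Φ 0) ∧
      dist (Xc (p n) (k n) (δ n) a.1 t) (bc Φ 0) < r'} ≤ q

/-- **No return to `a`**, `1 ≤ q ≤ 4`. -/
theorem staW {q : ℝ} (hq1 : 1 ≤ q) (hq4 : q ≤ 4) : I_staW (wq q) := by
  classical
  have hq0 : 0 < q := by linarith
  intro Φ δ N k p S h r0 hr0 e' he'
  obtain ⟨e, he, heq⟩ := ENNReal.lt_iff_exists_nnreal_btwn.1 he'
  have he0 : (0 : ℝ) < e := by exact_mod_cast he
  have hpi := Real.pi_pos
  have hab : 0 < dist (bc Φ 0) (bq Φ) := by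
    rw [dist_pos]
    exact H174.bc_ne le_rfl (by linarith) hpi.ne
  set r : ℝ := min (r0 / 2) (dist (bc Φ 0) (bq Φ)) with hr
  have hr1 : 0 < r := lt_min (by linarith) hab
  have hr2 : r ≤ r0 / 2 := min_le_left _ _
  obtain ⟨r', hr', hm⟩ := retA_mean hq1 hq4 h hr1 (min_le_right _ _) he0
  refine ⟨r' / 2, by linarith, ?_⟩
  filter_upwards [hm, h.2.1.eventually (gt_mem_nhds (show (0 : ℝ) < min r r' / 16 from
    div_pos (lt_min hr1 hr') (by norm_num)))] with n hn hδn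
  obtain ⟨h1, h2, h3, h4, h5⟩ := h.1 n
  have e1 : δ n < r / 16 := lt_of_lt_of_le hδn (by linarith [min_le_left r r'])
  have e2 : δ n < r' / 16 := lt_of_lt_of_le hδn (by linarith [min_le_right r r'])
  refine le_trans (lwt_le hq0 _ (fun A => A ⊆ edges (S n) ∧ ∃ t0 t1 : ℕ, t0 ≤ t1 ∧
    t1 < len (p n) (k n) A ∧ r < dist (mid (δ n) (run (p n) (k n) A t0)) (bc Φ 0) ∧
    dist (mid (δ n) (run (p n) (k n) A t1)) (bc Φ 0) < r') ?_ (e := e) ?_) ?_
  · rintro A ⟨s, t, hst, hs, ht⟩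
    have hAS : A.1 ⊆ edges (S n) := Finset.mem_powerset.1 A.2
    refine ⟨hAS, ?_⟩
    have hnear : Near (fun j => mid (δ n) (run (p n) (k n) A.1 j)) (len (p n) (k n) A.1)
        (Xc (p n) (k n) (δ n) A.1) (δ n + 2 * δ n) := by
      have h6 := near_crv h1.le h4 h5 h2 h3 hAS
      refine h6.reparam (OrderIso.refl _) ?_
      have h7 : reparam (crv (p n) (k n) (δ n) A.1) (OrderIso.refl unitInterval) =
          crv (p n) (k n) (δ n) A.1 := by
        ext t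
        rfl
      rw [h7]
      exact dist_crv_Xc h4 h5 h2 h3 hAS h1.le
    obtain ⟨u, hu, hL, hd⟩ := hnear
    refine ⟨u s, u t, hu hst, hL t, ?_, ?_⟩
    · have c1 := hd s
      have c2 := dist_triangle (Xc (p n) (k n) (δ n) A.1 s)
        (mid (δ n) (run (p n) (k n) A.1 (u s))) (bc Φ 0)
      linarith
    · have c1 := hd t
      have c2 := dist_triangle_left (mid (δ n) (run (p n) (k n) A.1 (u t))) (bc Φ 0)
        (Xc (p n) (k n) (δ n) A.1 t)
      linarith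
  · refine le_trans (mean_mono' hq0 fun A hA => ?_) hn
    split_ifs with g1 g2 g2
    · exact le_rfl
    · exact absurd g1.2 g2
    · exact zero_le_one
    · exact le_rfl
  · rw [ENNReal.ofReal_coe_nnreal]
    exact heq.le

end Vale.Agent.P167.H469
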