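import Vale.Agent.P167.H192.Q.SDefs
import Vale.Agent.P167.QM.Defs

/-!
# P167, general `q`, block BETA: the arms of a free flat side, statements

`Xc e b r R` (helper192): a path of colour `e` crosses the half annulus of radii `r`, `R` around `b`
(`e = true`: open path of primal sites, `e = false`: closed path of dual sites; only squares of the
half annulus are used). `hx Q e b r R N`: its probability in the half box of radius `N` with
everything outside closed (free).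
-/

namespace Vale.Agent.P167.H469

open Vale.Agent.P167.FK Vale.Agent.P167.QM
open Vale.Agent.P167.H192.TA (Xc)

/-- Arm probability of the colour `e` in the free half box of radius `N`. -/
noncomputable def hx (Q : ℝ) (e : Bool) (b : ℤ × ℤ) (r R N : ℤ) : ℝ :=
  Pr Q (HB b N) eta0 (Xc e b r R)

/-- The primal arm is not more likely than the dual arm. -/
def A4 (Q : ℝ) : Prop := ∃ (C : ℝ) (K s0 : ℤ), 0 < C ∧ 1 ≤ K ∧ 1 ≤ s0 ∧
  ∀ (b : ℤ × ℤ) (r R N : ℤ), s0 ≤ r → r ≤ R → K * R ≤ N →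
    hx Q true b r R N ≤ C * hx Q false b r R N

/-- Arms can be glued, both colours. -/
def A5 (Q : ℝ) : Prop := ∃ (C : ℝ) (K s0 : ℤ), 0 < C ∧ 1 ≤ K ∧ 1 ≤ s0 ∧
  ∀ (e : Bool) (b : ℤ × ℤ) (r s R N : ℤ), s0 ≤ r → r ≤ s → s ≤ R → K * R ≤ N →
    hx Q e b r s N * hx Q e b s R N ≤ C * hx Q e b r R N

/-- Arms can be cut, both colours. -/
def A6 (Q : ℝ) : Prop := ∃ (C : ℝ) (K s0 : ℤ), 0 < C ∧ 1 ≤ K ∧ 1 ≤ s0 ∧
  ∀ (e : Bool) (b : ℤ × ℤ) (r s R N : ℤ), s0 ≤ r → r ≤ s → s ≤ R → K * R ≤ N →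
    hx Q e b r R N ≤ C * (hx Q e b r s N * hx Q e b s R N)

/-- The domain `D` is flat at `b` up to radius `R`, free there. -/
structure FlF (D : Finset (ℤ × ℤ)) (η : Cfg) (b : ℤ × ℤ) (R : ℤ) : Prop where
  dom : ∀ v ∈ Bq b R, (v ∈ D ↔ b.2 ≤ v.2)
  out : ∀ v ∈ Bq b R, v ∉ D → η v = false

/-- The environment does not matter. -/
def A7 (Q : ℝ) : Prop := ∃ (C : ℝ) (K : ℤ), 0 < C ∧ 1 ≤ K ∧
  ∀ (e : Bool) (b : ℤ × ℤ) (r R N : ℤ) (D : Finset (ℤ × ℤ)) (η : Cfg), 1 ≤ r → r ≤ R →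
    K * R ≤ N → Good η → FlF D η b (K * R) →
    Pr Q D η (Xc e b r R) ≤ C * hx Q e b r R N ∧ hx Q e b r R N ≤ C * Pr Q D η (Xc e b r R)

/-- The arms do not decay between comparable radii. -/
def A8 (Q : ℝ) : Prop := ∀ M : ℤ, ∃ (c : ℝ) (K s0 : ℤ), 0 < c ∧ 1 ≤ K ∧ 1 ≤ s0 ∧
  ∀ (e : Bool) (b : ℤ × ℤ) (r R N : ℤ), s0 ≤ r → r ≤ R → R ≤ M * r → K * R ≤ N →
    c ≤ hx Q e b r R N

end Vale.Agent.P167.H469
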