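import Vale.Agent.P167.H469.PU

/-!
# P167, general `q`, block BETA (2), (3): `S_PU`
-/

namespace Vale.Agent.P167.H469

open Finset Vale.Agent.P167.FK Vale.Agent.P167.FKA Vale.Agent.P167.QM
open Vale.Agent.P167.H632 (IncC cs pr)
open Vale.Agent.P167.H192.TA (Xc dq dF mem_dF)
open Vale.Agent.P167.H192.Q (SRSW pX pX_dec Xc_restrict loc_Xc Xc_congr Xc_le)

variable {Q : ℝ} {D : Finset (ℤ × ℤ)} {η : Cfg} {b : ℤ × ℤ} {r R N : ℤ}

theorem loc_inter {V : Finset (ℤ × ℤ)} {A B : Set Cfg} (hA : Loc V (A.indicator (1 : Cfg → ℝ)))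
    (hB : Loc V (B.indicator (1 : Cfg → ℝ))) : Loc V ((A ∩ B).indicator (1 : Cfg → ℝ)) := by
  intro ω ω' h
  rw [ind_inter, ind_inter, hA ω ω' h, hB ω ω' h]

/-- **[S_PU]** -/
theorem s_pu (hQ : 1 ≤ Q) (hR : RSW Q) (hS : SRSW Q) : H452.BE.S_PU Q := by
  intro M hM
  obtain ⟨C⟩ := exists_Ks hQ hR hS
  have hQ0 := C.hQ0
  have hL2 := C.hL.1
  obtain ⟨LL, hLL⟩ : ∃ LL : ℤ, LL = C.L * C.L := ⟨_, rfl⟩
  have hLL4 : 4 ≤ LL := by rw [hLL]; nlinarith
  obtain ⟨Cv, Kv, sv, hCv, hKv, hsv, hv⟩ := C.main_up hM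
  obtain ⟨Cu, Ku, su, hCu, hKu, hsu, hu⟩ := C.arm_up (M := 2 * LL) (by omega)
  obtain ⟨α, Cp, hα, hCp, hp⟩ := pX_dec hQ hS
  have hLLr : (4 : ℝ) ≤ (LL : ℝ) := by exact_mod_cast hLL4
  have hB0 : 0 < Cp * (6 * (LL : ℝ)) ^ α := by positivity
  refine ⟨Cv * (Cu * max 1 (Cp * (6 * (LL : ℝ)) ^ α)), α, max (max (4 * LL) M) (max Kv Ku),
    max sv su, by positivity, hα, by omega, by omega, fun D b R N hD a ha hN => ?_⟩
  obtain ⟨h1, h2, h3, h4⟩ := ha
  set K0 := max (max (4 * LL) M) (max Kv Ku) with hK0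
  have ha0 : 1 ≤ a 0 := by omega
  have m1 : 4 * LL * a 0 ≤ a 1 :=
    (mul_le_mul_of_nonneg_right (by omega : 4 * LL ≤ K0) (by omega)).trans h2
  have ha01 : a 0 ≤ a 1 := by nlinarith
  have ha1 : 1 ≤ a 1 := by omega
  have m2 : M * a 1 ≤ a 2 :=
    (mul_le_mul_of_nonneg_right (by omega : M ≤ K0) (by omega)).trans h3
  have ha12 : a 1 ≤ a 2 := by nlinarith
  have m3 : Kv * a 2 ≤ K0 * a 2 := mul_le_mul_of_nonneg_right (by omega) (by omega)
  have m4 : Ku * a 2 ≤ K0 * a 2 := mul_le_mul_of_nonneg_right (by omega) (by omega)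
  have m5 : Ku * a 1 ≤ Ku * a 2 := mul_le_mul_of_nonneg_left ha12 (by omega)
  have hDm : ∀ s, s ≤ K0 * a 2 → BR.Flt D b s := fun s hs v k1 k2 k3 k4 =>
    hD v (by omega) (by omega) (by omega) (by omega)
  obtain ⟨hm1, hm2⟩ := hv b a N D (by omega) m2 (hDm _ m3) (by omega)
  have hSS : 0 ≤ H452.BE.SS Q b (a 1) (a 2) N M := by
    unfold H452.BE.SS
    refine add_nonneg (Pr_nonneg hQ0 _) (Finset.sum_nonneg fun t _ => ?_)
    exact mul_nonneg (Pr_nonneg hQ0 _) (Pr_nonneg hQ0 _)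
  have hmax1 : 1 ≤ max 1 (Cp * (6 * (LL : ℝ)) ^ α) := le_max_left _ _
  -- the intermediate radius
  obtain ⟨r1, hr1⟩ : ∃ r1, r1 = a 1 / LL := ⟨_, rfl⟩
  have q1 : 4 * a 0 ≤ r1 := by
    rw [hr1, Int.le_ediv_iff_mul_le (by omega)]
    linarith
  have q2 : LL * r1 ≤ a 1 := by
    rw [hr1, mul_comm]
    exact Int.ediv_mul_le _ (by omega)
  have q3 : a 1 < LL * (r1 + 1) := by
    rw [hr1, mul_comm]
    exact Int.lt_ediv_add_one_mul_self _ (by omega)
  have q4 : a 1 ≤ 2 * LL * r1 := by nlinarith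
  have q5 : r1 ≤ a 1 / 2 := by
    have : 4 * r1 ≤ LL * r1 := mul_le_mul_of_nonneg_right hLL4 (by omega)
    omega
  have q6 : C.L * (C.L * r1) ≤ a 1 := by
    rw [← mul_assoc, ← hLL]
    exact q2
  have hVD : dF b (3 * a 0) r1 ⊆ D := ((cn_flt (hDm (K0 * a 2) le_rfl)).mono (by
    have : a 2 ≤ K0 * a 2 := by nlinarith
    omega)).dF (by omega)
  have hV : dF b (3 * a 0) r1 ⊆ Bq b r1 := fun v hv => by
    rw [mem_dF] at hv
    simp only [dq, Set.mem_ofPred_eq] at hv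
    rw [mem_Bq']
    omega
  have hfal : Pr Q D eta0 (Xc false b (3 * a 0) r1) ≤ Cu * hx Q false b (2 * a 0) (a 1) N :=
    hu false b (2 * a 0) (3 * a 0) r1 (a 1) N D (by omega) (by omega) (by nlinarith) (by omega)
      (by omega) q4 (hDm _ (by omega)) (by omega)
  have hx0 : 0 ≤ hx Q false b (2 * a 0) (a 1) N := Pr_nonneg hQ0 _
  refine ⟨?_, ?_, ?_⟩
  · refine hm1.trans (mul_le_mul_of_nonneg_right ?_ hSS)
    have : 1 ≤ Cu * max 1 (Cp * (6 * (LL : ℝ)) ^ α) := by nlinarith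
    nlinarith
  · have k1 := hm2 (dF b (3 * a 0) r1) ((Xc false b (3 * a 0) r1).indicator 1) r1 (by omega) q6
      hVD hV (fun _ => ind_nonneg _ _) loc_Xc
    have k2 : Pr Q D eta0 (Xc false b (3 * a 0) (a 1 / 2) ∩ H452.BE.Ams b a) ≤
        Ex Q D eta0 (fun ω => (H452.BE.Ams b a).indicator 1 ω *
          (Xc false b (3 * a 0) r1).indicator 1 ω) := by
      refine Ex_mono hQ0 fun S _ => ?_
      rw [← ind_inter]
      exact H519.ind_le_of_imp fun h => ⟨h.2, Xc_restrict le_rfl (by omega) q5 h.1⟩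
    refine k2.trans (k1.trans ?_)
    rw [mul_assoc Cv]
    refine mul_le_mul_of_nonneg_left ?_ (by linarith)
    rw [← mul_assoc]
    refine mul_le_mul_of_nonneg_right ?_ hSS
    refine hfal.trans (mul_le_mul_of_nonneg_right ?_ hx0)
    nlinarith
  · have k1 := hm2 (dF b (3 * a 0) r1)
      ((Xc true b (3 * a 0) r1 ∩ Xc false b (3 * a 0) r1).indicator 1) r1 (by omega) q6
      hVD hV (fun _ => ind_nonneg _ _) (loc_inter loc_Xc loc_Xc)
    have k2 : Pr Q D eta0 ((Xc true b (3 * a 0) (a 1 / 2) ∩ Xc false b (3 * a 0) (a 1 / 2)) ∩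
        H452.BE.Ams b a) ≤ Ex Q D eta0 (fun ω => (H452.BE.Ams b a).indicator 1 ω *
          (Xc true b (3 * a 0) r1 ∩ Xc false b (3 * a 0) r1).indicator 1 ω) := by
      refine Ex_mono hQ0 fun S _ => ?_
      rw [← ind_inter]
      exact H519.ind_le_of_imp fun h => ⟨h.2, Xc_restrict le_rfl (by omega) q5 h.1.1,
        Xc_restrict le_rfl (by omega) q5 h.1.2⟩
    have k3 := pr_opp (Q := Q) (D := D) (e := true) hQ f_good.2.1
      (inc_Xc true b (3 * a 0) r1) (inc_Xc false b (3 * a 0) r1)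
    have k4 : Pr Q D eta0 (Xc true b (3 * a 0) r1) ≤
        Cp * (6 * (LL : ℝ)) ^ α * ((a 0 : ℝ) / a 1) ^ α := by
      have j1 := Xc_le (c := true) hQ (by omega) hVD f_good.2.1
      have j2 := hp true b (3 * a 0) r1 (by omega) (by omega)
      refine j1.trans (j2.trans ?_)
      rw [mul_assoc, ← Real.mul_rpow (by positivity) (by
        have : (0 : ℝ) ≤ a 0 := by exact_mod_cast (by omega : (0 : ℤ) ≤ a 0)
        have : (0 : ℝ) ≤ a 1 := by exact_mod_cast (by omega : (0 : ℤ) ≤ a 1)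
        positivity)]
      have a0r : (1 : ℝ) ≤ a 0 := by exact_mod_cast ha0
      have a1r : (1 : ℝ) ≤ a 1 := by exact_mod_cast ha1
      have r1r : (1 : ℝ) ≤ r1 := by exact_mod_cast (by omega : (1 : ℤ) ≤ r1)
      have q4r : (a 1 : ℝ) ≤ 2 * LL * r1 := by exact_mod_cast q4
      refine mul_le_mul_of_nonneg_left (Real.rpow_le_rpow ?_ ?_ hα.le) hCp.le
      · push_cast
        positivity
      · push_cast
        rw [mul_div_assoc', div_le_div_iff₀ (by linarith) (by linarith)]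
        nlinarith
    have hfr : 0 ≤ ((a 0 : ℝ) / a 1) ^ α := by
      have : (0 : ℝ) ≤ a 0 := by exact_mod_cast (by omega : (0 : ℤ) ≤ a 0)
      have : (0 : ℝ) ≤ a 1 := by exact_mod_cast (by omega : (0 : ℤ) ≤ a 1)
      positivity
    have k5 : Pr Q D eta0 (Xc true b (3 * a 0) r1 ∩ Xc false b (3 * a 0) r1) ≤
        (Cu * max 1 (Cp * (6 * (LL : ℝ)) ^ α)) * ((a 0 : ℝ) / a 1) ^ α *
          hx Q false b (2 * a 0) (a 1) N := by
      refine k3.trans ((mul_le_mul k4 hfal (Pr_nonneg hQ0 _) (by positivity)).trans ?_)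
      have e1 : Cp * (6 * (LL : ℝ)) ^ α * ((a 0 : ℝ) / a 1) ^ α *
          (Cu * hx Q false b (2 * a 0) (a 1) N) = (Cu * (Cp * (6 * (LL : ℝ)) ^ α)) *
          ((a 0 : ℝ) / a 1) ^ α * hx Q false b (2 * a 0) (a 1) N := by ring
      rw [e1]
      refine mul_le_mul_of_nonneg_right (mul_le_mul_of_nonneg_right ?_ hfr) hx0
      exact mul_le_mul_of_nonneg_left (le_max_right _ _) (by linarith)
    refine k2.trans (k1.trans ?_)
    have k6 := mul_le_mul_of_nonneg_right k5 hSS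
    have k7 := mul_le_mul_of_nonneg_left k6 (by linarith : 0 ≤ Cv)
    refine k7.trans (le_of_eq ?_)
    ring

end Vale.Agent.P167.H469
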