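import Vale.Agent.P167.H452.BE.Defs
import Vale.Agent.P167.H469.BArm

/-!
# P167, general `q`, block BETA (2), (3): upper bounds of the arm probabilities
-/

namespace Vale.Agent.P167.H469

open Finset Vale.Agent.P167.FK Vale.Agent.P167.FKA Vale.Agent.P167.QM
open Vale.Agent.P167.H632 (IncC cs pr)
open Vale.Agent.P167.H704.Q (prC_inter)
open Vale.Agent.P167.H192.TA (Xc dq dF mem_dF)
open Vale.Agent.P167.H192.Q (SRSW pX pX_dec Xc_restrict loc_Xc Xc_congr Xc_le)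

variable {Q : ℝ} {D : Finset (ℤ × ℤ)} {η : Cfg} {b : ℤ × ℤ} {r R N : ℤ}

/-- Arms of different colours are negatively correlated. -/
theorem pr_opp (hQ : 1 ≤ Q) (hη : Good η) {e : Bool} {A B : Set Cfg} (hA : IncC e A)
    (hB : IncC (!e) B) : Pr Q D η (A ∩ B) ≤ Pr Q D η A * Pr Q D η B := by
  have hQ0 : 0 < Q := by linarith
  have h1 : IncC (!e) Aᶜ := by
    have := hA.compl
    exact this
  have h2 := prC_inter (D := D) hQ hη h1 hB
  rw [Pr_compl hQ0] at h2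
  have h3 : Pr Q D η B = Pr Q D η (A ∩ B) + Pr Q D η (Aᶜ ∩ B) := by
    unfold Pr
    rw [← Ex_add]
    refine Ex_congr fun S _ => ?_
    generalize cf D η S = ω
    by_cases hA' : ω ∈ A <;> by_cases hB' : ω ∈ B <;> simp [hA', hB']
  nlinarith

theorem cn_flt (h : BR.Flt D b R) : Cn D b R := fun v h1 h2 h3 h4 => by
  rcases le_or_gt 0 R with hR | hR
  · exact (h v h1 h2 (by omega) h4).2 h3
  · omega

theorem flf_flt (h : BR.Flt D b R) {R' : ℤ} (hR : R' ≤ R) : FlF D eta0 b R' where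
  dom := fun v hv => by
    rw [mem_Bq'] at hv
    exact h v (by omega) (by omega) (by omega) (by omega)
  out := fun _ _ _ => rfl

/-- **One lemma for all changes of radii.** -/
theorem Ks.arm_up (C : Ks Q) {M : ℤ} (hM : 1 ≤ M) : ∃ (Cu : ℝ) (K s0 : ℤ), 1 ≤ Cu ∧ 1 ≤ K ∧
    1 ≤ s0 ∧ ∀ (e : Bool) (b : ℤ × ℤ) (r r' R' R N : ℤ) (D : Finset (ℤ × ℤ)), s0 ≤ r → r ≤ r' →
      r' ≤ M * r → r' ≤ R' → R' ≤ R → R ≤ M * R' → BR.Flt D b (K * R) → K * R ≤ N →
      Pr Q D eta0 (Xc e b r' R') ≤ Cu * hx Q e b r R N := by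
  obtain ⟨c1, s1, hc1, hs1, h1⟩ := C.ext_out hM
  obtain ⟨c2, s2, hc2, hs2, h2⟩ := C.ext_in hM
  obtain ⟨C7, K7, hC7, hK7, h7⟩ := C.a7
  refine ⟨max 1 (C7 / (c1 * c2)), max 2 K7, max s1 s2, le_max_left _ _, by omega, by omega,
    fun e b r r' R' R N D hr hrr hrM hrR hRR hRM hD hN => ?_⟩
  have hR0 : 0 ≤ R := by omega
  have hη : Good eta0 := f_good.2.1
  have e2 : 2 * R ≤ max 2 K7 * R := mul_le_mul_of_nonneg_right (le_max_left _ _) hR0
  have e7 : K7 * R ≤ max 2 K7 * R := mul_le_mul_of_nonneg_right (le_max_right _ _) hR0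
  have hC : Cn D b (2 * R) := (cn_flt hD).mono e2
  have k1 := h1 e b r' R' R D eta0 (by omega) hrR hRR hRM hη hC
  have k2 := h2 e b r r' R D eta0 (by omega) hrr (by omega) hrM hη hC
  have k3 := (h7 e b r R N D eta0 (by omega) (by omega) (by omega) hη
    (flf_flt hD e7)).1
  have k0 : 0 ≤ hx Q e b r R N := Pr_nonneg C.hQ0 _
  have k4 : Pr Q D eta0 (Xc e b r' R') ≤ (C7 / (c1 * c2)) * hx Q e b r R N := by
    have k5 : c1 * c2 * Pr Q D eta0 (Xc e b r' R') ≤ C7 * hx Q e b r R N := by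
      have k6 := mul_le_mul_of_nonneg_left k1 hc2.le
      linarith
    rw [div_mul_eq_mul_div, le_div_iff₀ (by positivity)]
    linarith
  exact k4.trans (mul_le_mul_of_nonneg_right (le_max_right _ _) k0)

/-- The primal arm up to scale `t`. -/
def It (b : ℤ × ℤ) (a M : ℤ) (t : ℕ) : Set Cfg :=
  {ω | 2 ≤ t → ω ∈ Xc true b (3 * a) (M ^ t * a)}

/-- The dual arm from scale `t + 1`. -/
def Ot (b : ℤ × ℤ) (a a' M : ℤ) (t : ℕ) : Set Cfg :=
  {ω | M ^ (t + 1) * a ≤ a' / 2 → ω ∈ Xc false b (M ^ (t + 1) * a) (a' / 2)}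

theorem inc_It {a M : ℤ} {t : ℕ} : IncC true (It b a M t) := fun ω ω' h h1 h2 =>
  inc_Xc true _ _ _ ω ω' h (h1 h2)

theorem inc_Ot {a a' M : ℤ} {t : ℕ} : IncC false (Ot b a a' M t) := fun ω ω' h h1 h2 =>
  inc_Xc false _ _ _ ω ω' h (h1 h2)

/-- The scales. -/
def Ts (a a' M : ℤ) : Finset ℕ := (range (a'.toNat + 1)).filter (fun t : ℕ => M ^ t * a ≤ a')

theorem pow_ge {M : ℤ} (hM : 2 ≤ M) (t : ℕ) : (t : ℤ) + 1 ≤ M ^ t := by
  induction t with
  | zero => simp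
  | succ t ih =>
    rw [pow_succ]
    push_cast
    nlinarith

theorem mem_Ts {a a' M : ℤ} (hM : 2 ≤ M) (ha : 1 ≤ a) {t : ℕ} : t ∈ Ts a a' M ↔ M ^ t * a ≤ a' := by
  unfold Ts
  rw [mem_filter, mem_range]
  constructor
  · exact fun h => h.2
  · intro h
    refine ⟨?_, h⟩
    have h1 := pow_ge hM t
    have h2 : (t : ℤ) + 1 ≤ a' := by nlinarith
    omega

/-- **Covering of the event by the scales.** -/
theorem ams_cover {a : Fin 3 → ℤ} {M : ℤ} (hM : 2 ≤ M) (h1 : 1 ≤ a 1)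
    (h2 : M * a 1 ≤ a 2) {ω : Cfg} (h : ω ∈ H452.BE.Ams b a) :
    ∃ t ∈ Ts (a 1) (a 2) M, 1 ≤ t ∧ ω ∈ It b (a 1) M t ∩ Ot b (a 1) (a 2) M t := by
  classical
  set P : ℕ → Prop := fun t => t = 1 ∨ (2 ≤ t ∧ M ^ t * a 1 ≤ a 2 / 2 ∧
    ω ∈ Xc true b (3 * a 1) (M ^ t * a 1)) with hP
  have hbd : ∀ t, P t → t ≤ (a 2).toNat + 1 := by
    rintro t (ht | ⟨ht, ht2, -⟩)
    · omega
    · have h3 := pow_ge hM t
      have h4 : (t : ℤ) + 1 ≤ M ^ t * a 1 := by nlinarith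
      omega
  set t := Nat.findGreatest P ((a 2).toNat + 1) with ht
  have hPt : P t := Nat.findGreatest_spec (P := P) (m := 1) (by omega) (Or.inl rfl)
  have hmax : ∀ s, P s → s ≤ t := fun s hs => Nat.le_findGreatest (hbd s hs) hs
  have ht1 : 1 ≤ t := hmax 1 (Or.inl rfl)
  have h20 : 0 ≤ a 2 := le_trans (by positivity) h2
  refine ⟨t, (mem_Ts hM h1).2 ?_, ht1, ?_, ?_⟩
  · rcases hPt with h3 | ⟨-, h3, -⟩
    · rw [h3, pow_one]
      exact h2
    · omega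
  · intro h3
    rcases hPt with h4 | ⟨-, -, h4⟩
    · omega
    · exact h4
  · intro h3
    have h4 : 3 * a 1 ≤ M ^ (t + 1) * a 1 := by
      have h5 := pow_ge hM (t + 1)
      push_cast at h5
      have h6 : (3 : ℤ) ≤ M ^ (t + 1) := by
        have : (1 : ℤ) ≤ t := by exact_mod_cast ht1
        omega
      nlinarith
    rcases h (M ^ (t + 1) * a 1) h4 h3 with h5 | h5
    · exfalso
      have h6 := hmax (t + 1) (Or.inr ⟨by omega, h3, h5⟩)
      omega
    · exact h5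

theorem ind_Et {a a' M : ℤ} {t : ℕ} (hM : 2 ≤ M) (ha : 1 ≤ a) (ht : 1 ≤ t) :
    Ind (D ∩ Bq b a) ((It b a M t ∩ Ot b a a' M t).indicator 1) := by
  have hp : M ^ 1 ≤ M ^ (t + 1) := pow_le_pow_right₀ (by omega) (by omega)
  rw [pow_one] at hp
  have key : ∀ ω ω' : Cfg, (∀ v, v ∉ D ∩ Bq b a → ω v = ω' v) →
      ω ∈ It b a M t ∩ Ot b a a' M t → ω' ∈ It b a M t ∩ Ot b a a' M t := by
    rintro ω ω' hω ⟨h1, h2⟩
    refine ⟨fun h3 => Xc_congr (fun v hv => hω v fun hv' => ?_) (h1 h3),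
      fun h3 => Xc_congr (fun v hv => hω v fun hv' => ?_) (h2 h3)⟩
    · rw [Finset.mem_inter, mem_Bq'] at hv'
      rw [mem_dF] at hv
      simp only [dq, Set.mem_ofPred_eq] at hv
      omega
    · rw [Finset.mem_inter, mem_Bq'] at hv'
      rw [mem_dF] at hv
      simp only [dq, Set.mem_ofPred_eq] at hv
      have h5 : a ≤ M ^ (t + 1) * a := by nlinarith
      omega
  intro ω ω' hω
  by_cases h2 : ω ∈ It b a M t ∩ Ot b a a' M t
  · rw [Set.indicator_of_mem h2, Set.indicator_of_mem (key ω ω' hω h2)]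
    rfl
  · rw [Set.indicator_of_notMem h2, Set.indicator_of_notMem fun h3 =>
      h2 (key ω' ω (fun v hv => (hω v hv).symm) h3)]

/-- The constants for the ratio `M`: one scale. -/
theorem Ks.scale_up (C : Ks Q) {M : ℤ} (hM : 2 ≤ M) : ∃ (Cv : ℝ) (K s0 : ℤ), 1 ≤ Cv ∧ 1 ≤ K ∧
    1 ≤ s0 ∧ ∀ (b : ℤ × ℤ) (a a' N : ℤ) (D : Finset (ℤ × ℤ)) (t : ℕ), s0 ≤ a →
      BR.Flt D b (K * a') → K * a' ≤ N → 1 ≤ t → t ∈ Ts a a' M →
      Pr Q D eta0 (It b a M t ∩ Ot b a a' M t) ≤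
        Cv * (hx Q true b a (M ^ t * a) N * hx Q false b (M ^ t * a) a' N) := by
  obtain ⟨Cu, Ku, su, hCu, hKu, hsu, hu⟩ := C.arm_up (M := 3 * M) (by omega)
  obtain ⟨c8, K8, s8, hc8, hK8, hs8, h8⟩ := C.a8 (3 * M)
  refine ⟨max Cu (1 / c8) * max Cu (1 / c8), max Ku K8, max su s8, ?_, by omega, by omega,
    fun b a a' N D t ha hD hN ht hT => ?_⟩
  · have h1 : 1 ≤ max Cu (1 / c8) := hCu.trans (le_max_left _ _)
    nlinarith
  have hQ0 := C.hQ0
  have ha1 : 1 ≤ a := by omega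
  rw [mem_Ts hM ha1] at hT
  have hp1 : M ≤ M ^ t := by
    have h1 : M ^ 1 ≤ M ^ t := pow_le_pow_right₀ (by omega) ht
    rwa [pow_one] at h1
  have hs1 : M * a ≤ M ^ t * a := mul_le_mul_of_nonneg_right hp1 (by omega)
  have hs0 : a ≤ M * a := by nlinarith
  have ha' : 0 ≤ a' := by omega
  have eu : Ku * a' ≤ max Ku K8 * a' := mul_le_mul_of_nonneg_right (le_max_left _ _) ha'
  have e8 : K8 * a' ≤ max Ku K8 * a' := mul_le_mul_of_nonneg_right (le_max_right _ _) ha'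
  have hDm : ∀ s, s ≤ a' → BR.Flt D b (Ku * s) := fun s hs v h1 h2 h3 h4 => by
    have h5 : Ku * s ≤ Ku * a' := mul_le_mul_of_nonneg_left hs (by omega)
    exact hD v (by omega) (by omega) (by omega) (by omega)
  have hx0 : ∀ e r R, 0 ≤ hx Q e b r R N := fun e r R => Pr_nonneg hQ0 _
  have hmx : 0 < max Cu (1 / c8) := lt_of_lt_of_le (by linarith) (le_max_left _ _)
  have k1 : Pr Q D eta0 (It b a M t) ≤ max Cu (1 / c8) * hx Q true b a (M ^ t * a) N := by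
    by_cases h2 : 2 ≤ t
    · have h4 : (4 : ℤ) ≤ M ^ t := by
        have h5 : M ^ 2 ≤ M ^ t := pow_le_pow_right₀ (by omega) h2
        nlinarith
      have h3 := hu true b a (3 * a) (M ^ t * a) (M ^ t * a) N D (by omega) (by omega)
        (by nlinarith) (by nlinarith) le_rfl (by nlinarith) (hDm _ hT) (by nlinarith)
      refine (Pr_mono hQ0 (show It b a M t ⊆ Xc true b (3 * a) (M ^ t * a) from
        fun ω hω => hω h2)).trans (h3.trans ?_)
      exact mul_le_mul_of_nonneg_right (le_max_left _ _) (hx0 _ _ _)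
    · have ht1 : t = 1 := by omega
      subst ht1
      rw [pow_one] at *
      have h3 := h8 true b a (M * a) N (by omega) hs0 (by nlinarith) (by nlinarith)
      refine (Pr_le_one hQ0 _).trans ?_
      have h4 : 1 ≤ 1 / c8 * hx Q true b a (M * a) N := by
        rw [one_div, ← div_eq_inv_mul, le_div_iff₀ hc8]
        linarith
      exact h4.trans (mul_le_mul_of_nonneg_right (le_max_right _ _) (hx0 _ _ _))
  have k2 : Pr Q D eta0 (Ot b a a' M t) ≤ max Cu (1 / c8) * hx Q false b (M ^ t * a) a' N := by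
    have e1 : M ^ (t + 1) * a = M * (M ^ t * a) := by ring
    by_cases h2 : M ^ (t + 1) * a ≤ a' / 2
    · have h3 := hu false b (M ^ t * a) (M ^ (t + 1) * a) (a' / 2) a' N D (by omega)
        (by rw [e1]; nlinarith) (by rw [e1]; nlinarith) h2 (by omega) ?_ (hDm _ le_rfl) (by omega)
      · refine (Pr_mono hQ0 (show Ot b a a' M t ⊆ Xc false b (M ^ (t + 1) * a) (a' / 2) from
          fun ω hω => hω h2)).trans (h3.trans ?_)
        exact mul_le_mul_of_nonneg_right (le_max_left _ _) (hx0 _ _ _)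
      · have h7 : 1 ≤ a' / 2 := by
          rw [e1] at h2
          nlinarith
        have h5 : a' ≤ 3 * (a' / 2) := by omega
        have h6 : 3 * (a' / 2) ≤ 3 * M * (a' / 2) := by
          have : 0 ≤ a' / 2 := by omega
          nlinarith
        omega
    · have h3 := h8 false b (M ^ t * a) a' N (by omega) hT (by
        rw [e1] at h2
        have h5 : a' ≤ 2 * (M * (M ^ t * a)) := by omega
        nlinarith) (by omega)
      refine (Pr_le_one hQ0 _).trans ?_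
      have h4 : 1 ≤ 1 / c8 * hx Q false b (M ^ t * a) a' N := by
        rw [one_div, ← div_eq_inv_mul, le_div_iff₀ hc8]
        linarith
      exact h4.trans (mul_le_mul_of_nonneg_right (le_max_right _ _) (hx0 _ _ _))
  have k3 := pr_opp (D := D) (e := true) C.hQ f_good.2.1 (inc_It (b := b) (a := a) (M := M) (t := t))
    (inc_Ot (b := b) (a := a) (a' := a') (M := M) (t := t))
  refine k3.trans ((mul_le_mul k1 k2 (Pr_nonneg hQ0 _) (by
    have := hx0 true a (M ^ t * a)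
    positivity)).trans (le_of_eq ?_))
  ring

/-- The sum over the scales. -/
theorem sum_le_SS {a a' M : ℤ} (hQ : 0 < Q) :
    ∑ t ∈ Ts a a' M, hx Q true b a (M ^ t * a) N * hx Q false b (M ^ t * a) a' N ≤
      H452.BE.SS Q b a a' N M := by
  unfold H452.BE.SS
  have : 0 ≤ hx Q false b a a' N := Pr_nonneg hQ _
  change _ ≤ _ + ∑ t ∈ Ts a a' M, _
  linarith

/-- **Upper bound with an inner function.** -/
theorem Ks.main_up (C : Ks Q) {M : ℤ} (hM : 2 ≤ M) : ∃ (Cv : ℝ) (K s0 : ℤ), 1 ≤ Cv ∧ 1 ≤ K ∧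
    1 ≤ s0 ∧ ∀ (b : ℤ × ℤ) (a : Fin 3 → ℤ) (N : ℤ) (D : Finset (ℤ × ℤ)), s0 ≤ a 1 →
      M * a 1 ≤ a 2 → BR.Flt D b (K * a 2) → K * a 2 ≤ N →
      Pr Q D eta0 (H452.BE.Ams b a) ≤ Cv * H452.BE.SS Q b (a 1) (a 2) N M ∧
      ∀ (V : Finset (ℤ × ℤ)) (F : Cfg → ℝ) (r : ℤ), 1 ≤ r → C.L * (C.L * r) ≤ a 1 → V ⊆ D →
        V ⊆ Bq b r → (∀ ω, 0 ≤ F ω) → Loc V F →
        Ex Q D eta0 (fun ω => (H452.BE.Ams b a).indicator 1 ω * F ω) ≤
          Cv * (Ex Q D eta0 F * H452.BE.SS Q b (a 1) (a 2) N M) := by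
  classical
  obtain ⟨Cv, K, s0, hCv, hK, hs0, h⟩ := C.scale_up hM
  refine ⟨8 * Cv, K, s0, by linarith, hK, hs0, fun b a N D ha haM hD hN => ?_⟩
  have hQ0 := C.hQ0
  have ha1 : 1 ≤ a 1 := by omega
  have hη : Good eta0 := f_good.2.1
  have hKa : a 1 ≤ K * a 2 := by
    have h1 : a 1 ≤ M * a 1 := by nlinarith
    have h2 : a 2 ≤ K * a 2 := by nlinarith
    omega
  set T := (Ts (a 1) (a 2) M).filter (fun t => 1 ≤ t) with hT
  have hcov : ∀ ω, (H452.BE.Ams b a).indicator (1 : Cfg → ℝ) ω ≤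
      ∑ t ∈ T, (It b (a 1) M t ∩ Ot b (a 1) (a 2) M t).indicator (1 : Cfg → ℝ) ω := by
    intro ω
    by_cases hω : ω ∈ H452.BE.Ams b a
    · obtain ⟨t, ht, ht1, hE⟩ := ams_cover hM ha1 haM hω
      rw [Set.indicator_of_mem hω]
      have h1 : (It b (a 1) M t ∩ Ot b (a 1) (a 2) M t).indicator (1 : Cfg → ℝ) ω ≤
          ∑ t ∈ T, (It b (a 1) M t ∩ Ot b (a 1) (a 2) M t).indicator (1 : Cfg → ℝ) ω :=
        Finset.single_le_sum (f := fun t => (It b (a 1) M t ∩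
          Ot b (a 1) (a 2) M t).indicator (1 : Cfg → ℝ) ω) (fun t _ => ind_nonneg _ _)
          (mem_filter.2 ⟨ht, ht1⟩)
      rwa [Set.indicator_of_mem hE] at h1
    · rw [Set.indicator_of_notMem hω]
      exact Finset.sum_nonneg fun t _ => ind_nonneg _ _
  have hsum : ∑ t ∈ T, Pr Q D eta0 (It b (a 1) M t ∩ Ot b (a 1) (a 2) M t) ≤
      Cv * H452.BE.SS Q b (a 1) (a 2) N M := by
    have h1 : ∑ t ∈ T, Pr Q D eta0 (It b (a 1) M t ∩ Ot b (a 1) (a 2) M t) ≤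
        ∑ t ∈ T, Cv * (hx Q true b (a 1) (M ^ t * a 1) N *
          hx Q false b (M ^ t * a 1) (a 2) N) := by
      refine Finset.sum_le_sum fun t ht => ?_
      rw [hT, mem_filter] at ht
      exact h b (a 1) (a 2) N D t ha hD hN ht.2 ht.1
    refine h1.trans ?_
    rw [← Finset.mul_sum]
    refine mul_le_mul_of_nonneg_left ?_ (by linarith)
    refine (Finset.sum_le_sum_of_subset_of_nonneg (Finset.filter_subset _ _) fun t _ _ => ?_).trans
      (sum_le_SS hQ0)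
    exact mul_nonneg (Pr_nonneg hQ0 _) (Pr_nonneg hQ0 _)
  have hSS : 0 ≤ H452.BE.SS Q b (a 1) (a 2) N M := by
    unfold H452.BE.SS
    refine add_nonneg (Pr_nonneg hQ0 _) (Finset.sum_nonneg fun t _ => ?_)
    exact mul_nonneg (Pr_nonneg hQ0 _) (Pr_nonneg hQ0 _)
  constructor
  · have h1 : Pr Q D eta0 (H452.BE.Ams b a) ≤
        ∑ t ∈ T, Pr Q D eta0 (It b (a 1) M t ∩ Ot b (a 1) (a 2) M t) := by
      unfold Pr
      rw [← Ex_sum]
      exact Ex_mono hQ0 fun S _ => hcov _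
    refine h1.trans (hsum.trans ?_)
    nlinarith
  · intro V F r hr hrL hVD hV hF hFV
    have h1 : Ex Q D eta0 (fun ω => (H452.BE.Ams b a).indicator 1 ω * F ω) ≤
        ∑ t ∈ T, Ex Q D eta0 (fun ω => (It b (a 1) M t ∩
          Ot b (a 1) (a 2) M t).indicator 1 ω * F ω) := by
      rw [← Ex_sum]
      refine Ex_mono hQ0 fun S _ => ?_
      rw [← Finset.sum_mul]
      exact mul_le_mul_of_nonneg_right (hcov _) (hF _)
    have h2 : ∀ t ∈ T, Ex Q D eta0 (fun ω => (It b (a 1) M t ∩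
          Ot b (a 1) (a 2) M t).indicator 1 ω * F ω) ≤
        8 * (Pr Q D eta0 (It b (a 1) M t ∩ Ot b (a 1) (a 2) M t) * Ex Q D eta0 F) := by
      intro t ht
      rw [hT, mem_filter] at ht
      have h3 : FlF D eta0 b (a 1) := flf_flt hD hKa
      exact (H192.Q.rat_bdy_mul (Q := Q) (x := b) (r := r) (R := a 1) (D := D)
        (D' := D) (η := eta0) (η' := eta0) (V := V) (F := F)
        (G := (It b (a 1) M t ∩ Ot b (a 1) (a 2) M t).indicator 1) C.hQ C.hL hr hrL rfl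
        hVD hV hF hFV hη hη h3.out h3.out
        (fun _ => ind_nonneg _ _) (ind_Et hM ha1 ht.2)).1
    refine h1.trans ((Finset.sum_le_sum h2).trans ?_)
    rw [← Finset.mul_sum, ← Finset.sum_mul]
    have h3 : 0 ≤ Ex Q D eta0 F := Ex_nonneg hQ0 fun S _ => hF _
    have h4 := mul_le_mul_of_nonneg_right hsum h3
    nlinarith

end Vale.Agent.P167.H469
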