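import Vale.Agent.P167.H452.BE.Defs2
import Vale.Agent.P167.H469.PU

/-!
# P167, general `q`, block BETA (2), (3): the favourable event with the dual link
-/

namespace Vale.Agent.P167.H469

open Finset Relation Vale.Agent.P167.FK Vale.Agent.P167.FKA Vale.Agent.P167.QM
open Vale.Agent.P145.FB (PStep PConn)
open Vale.Agent.P153.Topo (Rect mem_rect)
open Vale.Agent.P167.BR (Flt sites pcs IsLp Vz)
open Vale.Agent.P167.H436.ND (Win Zg)
open Vale.Agent.P167.H632 (IncC cs pr nm_le le_nm cs_compl)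
open Vale.Agent.P167.H704 (Hc Vc inc_Vc)
open Vale.Agent.P167.H704.Q (rs_fk prC_inter)
open Vale.Agent.P167.H192.TA (Xc Pw dq sr dF mem_dF cut_dq arc_full)
open Vale.Agent.P167.H192.Q (SRSW Xc_restrict)
open Vale.Agent.P167.H452.BE (R3 cb LkD LkP Fav S_NB S_PLD)

variable {Q : ℝ} {D : Finset (ℤ × ℤ)} {η : Cfg} {b : ℤ × ℤ}

/-- The vertical crossing of the core. -/
def Vr (b : ℤ × ℤ) (a1 m : ℤ) : Set Cfg :=
  Vc false (b.1 - a1 / 4) (b.1 + a1 / 4) (b.2 + 3 * a1 / 2) (b.2 + m)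

/-- **Deterministic part.** -/
theorem lkD_of {a1 m R1 : ℤ} (ha : 8 ≤ a1) (hm : 2 * a1 ≤ m) (hmR : m ≤ R1) (hD : Cn D b (R1 + 1))
    {ω : Cfg} (h1 : ω ∈ Vr b a1 m) (h2 : ω ∉ Xc true b (2 * a1) m)
    (h3 : ω ∈ Xc false b (2 * a1) (R1 + 1)) : LkD D b a1 R1 ω := by
  -- the half circuit
  obtain ⟨x, x', x1, x2, x3, x4, x5, x6⟩ := arc_full (F := cs true ω) (b := b) (r := 2 * a1) (R := m)
    (e := 0) (Or.inl rfl) (by omega) hm (fun y y' hy hye hyr hyy' => by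
      by_contra hc
      exact h2 ⟨y, y', hy, by rw [hye]; rfl, hyr, hyy', by omega⟩)
  rw [cs_compl] at x6
  have x6 : Pw (cs false ω ∩ dq b (2 * a1) m) (x, b.2) (x', b.2) := x6
  have x5 : (x + b.2) % 2 = 1 := x5
  have hpsr : ((x, b.2) : ℤ × ℤ) ∈ sr b (2 * a1) m := by
    simp only [sr, Set.mem_ofPred_eq]
    omega
  -- the crossing of the rectangle
  obtain ⟨s, t, s1, t1, s2, s3⟩ := h1
  have hs := s3.left_mem
  rw [mem_rect] at hs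
  have s4 : Pw (cs false ω ∩ dq b (3 * a1 / 2) m) s t := by
    obtain ⟨k1, k2⟩ := s3
    clear t1
    induction k2 with
    | refl => exact ReflTransGen.refl
    | @tail x y hx hxy ih =>
      have hxm := (show PConn (cs false ω) (Rect (b.1 - a1 / 4) (b.1 + a1 / 4) (b.2 + 3 * a1 / 2)
        (b.2 + m)) s x from ⟨k1, hx⟩).right_mem
      have hym := hxy.2
      rw [mem_rect] at hxm hym
      obtain ⟨⟨p1, p2, p3⟩, -⟩ := hxy
      refine ih.tail ⟨p1, p2, p3, ?_⟩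
      simp only [dq, Set.mem_ofPred_eq]
      omega
  obtain ⟨y0, y1, k1, k2, k3, k4, k5⟩ := cut_dq (G := cs false ω ∩ dq b (3 * a1 / 2) m)
    (b := b) (r := 2 * a1) (R := m) hm (y := s) (y' := t) (by omega)
    (fun v hv => by have := hv.2; simp only [dq, Set.mem_ofPred_eq] at this; omega) s4
    (by rw [nm_le]; simp only [Prod.fst_sub, Prod.snd_sub]; omega)
    (by rw [le_nm]; simp only [Prod.fst_sub, Prod.snd_sub]; omega)
  have j1 := join_half (F := cs false ω) (e := 1) (Or.inr rfl) (by omega) hm (y := y0) (y' := y1)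
    (p := (x, b.2)) (q := (x', b.2)) k2 k3 k5 (by rw [← k1.parity, s2]; rfl)
    (k4.mono (Set.inter_subset_inter_left _ Set.inter_subset_left)) hpsr (by dsimp only; omega) rfl
    x5 (by dsimp only; omega) rfl x6
  -- the arm
  obtain ⟨y, y', l1, l2, l3, l4, l5⟩ := h3
  have hy : b.2 ≤ y.2 := by
    simp only [sr, Set.mem_ofPred_eq] at l1
    omega
  obtain ⟨t0, t1, c1, c2, c3, c4, c5⟩ := cut_dq (G := cs false ω ∩ dq b (2 * a1) (R1 + 1))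
    (b := b) (r := 2 * a1) (R := m) hm hy
    (fun v hv => by have := hv.2; simp only [dq, Set.mem_ofPred_eq] at this; omega) l4 l3
    (le_trans (by omega) l5)
  have j2 := join_half (F := cs false ω) (e := 1) (Or.inr rfl) (by omega) hm (y := t0) (y' := t1)
    (p := (x, b.2)) (q := (x', b.2)) c2 c3 c5 (by rw [← c1.parity, l2]; rfl)
    (c4.mono (Set.inter_subset_inter_left _ Set.inter_subset_left)) hpsr (by dsimp only; omega) rfl
    x5 (by dsimp only; omega) rfl x6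
  -- the end
  have hys' := l4.mem_sr l1
  have sub : ∀ r m' : ℤ, 0 ≤ r → m' ≤ R1 + 1 → cs false ω ∩ dq b r m' ⊆ cs false ω ∩ ↑D := by
    rintro r m' hr hm' v ⟨hv1, hv2⟩
    refine ⟨hv1, ?_⟩
    simp only [dq, Set.mem_ofPred_eq] at hv2
    exact Finset.mem_coe.2 (hD v (by omega) (by omega) (by omega) (by omega))
  refine ⟨s, ?_, y', ?_, ?_, ?_⟩
  · rw [sites, Finset.mem_biUnion]
    refine ⟨s, ?_, Finset.mem_insert_self _ _⟩
    rw [cb, Finset.mem_product, Finset.mem_Icc, Finset.mem_Icc]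
    omega
  · simp only [sr, Set.mem_ofPred_eq] at hys'
    rw [le_nm] at l5
    simp only [Prod.fst_sub, Prod.snd_sub] at l5
    have key : ∀ v : ℤ × ℤ, v ∈ Zg b R1 (R1 + a1) ↔ (b.1 - (R1 + a1) ≤ v.1 ∧
        v.1 ≤ b.1 + (R1 + a1) - 1 ∧ b.2 ≤ v.2 ∧ v.2 ≤ b.2 + (R1 + a1) - 1) ∧
        ¬ (b.1 - R1 ≤ v.1 ∧ v.1 ≤ b.1 + R1 - 1 ∧ b.2 ≤ v.2 ∧ v.2 ≤ b.2 + R1 - 1) := by
      intro v
      unfold Zg BR.hbox
      rw [Finset.mem_sdiff, Finset.mem_product, Finset.mem_product, Finset.mem_Icc, Finset.mem_Icc,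
        Finset.mem_Icc, Finset.mem_Icc]
      omega
    rw [sites, Finset.mem_biUnion]
    by_cases g1 : y'.1 = b.1 - (R1 + 1)
    · refine ⟨y', ?_, Finset.mem_insert_self _ _⟩
      rw [key]
      omega
    by_cases g2 : y'.1 = b.1 + (R1 + 1)
    · refine ⟨(y'.1 - 1, y'.2), ?_, ?_⟩
      · rw [key]
        dsimp only
        omega
      · rw [Finset.mem_insert, Finset.mem_insert]
        right; left
        refine Prod.ext ?_ rfl
        dsimp only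
        omega
    · refine ⟨(y'.1, y'.2 - 1), ?_, ?_⟩
      · rw [key]
        dsimp only
        omega
      · rw [Finset.mem_insert, Finset.mem_insert, Finset.mem_insert]
        right; right; left
        refine Prod.ext rfl ?_
        dsimp only
        omega
  · exact s2
  · have p1 : Pw (cs false ω ∩ ↑D) s y0 := k1.mono (sub _ _ (by omega) (by omega))
    have p2 : Pw (cs false ω ∩ ↑D) y0 t0 := Pw.mono (sub _ _ (by omega) (by omega)) (j1.trans j2.symm)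
    have p3 : Pw (cs false ω ∩ ↑D) t0 y := (c1.symm).mono (sub _ _ (by omega) le_rfl)
    have p4 : Pw (cs false ω ∩ ↑D) y y' := l4.mono (sub _ _ (by omega) le_rfl)
    exact p1.trans (p2.trans (p3.trans p4))

/-- The vertical crossing of the core has positive probability. -/
theorem Ks.vr_ge (C : Ks Q) (hR : RSW Q) : ∃ (c : ℝ) (s0 : ℤ), 0 < c ∧ 8 ≤ s0 ∧
    ∀ (b : ℤ × ℤ) (a1 : ℤ) (D : Finset (ℤ × ℤ)) (η : Cfg), s0 ≤ a1 → Good η →
      Cn D b (3 * (C.Λ * a1)) → c ≤ Pr Q D η (Vr b a1 (2 * (C.Λ * a1))) := by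
  have hΛ := C.hΛ
  obtain ⟨cV, sV, hcV, hcV1, hsV, hV⟩ := rs_fk C.hQ hR (8 * C.Λ).toNat
  have hVn : (((8 * C.Λ).toNat : ℕ) : ℤ) = 8 * C.Λ := Int.toNat_of_nonneg (by positivity)
  rw [hVn] at hV
  refine ⟨cV, 4 * sV + 16, hcV, by omega, fun b a1 D η ha hη hD => ?_⟩
  have v1 : 2 * a1 ≤ C.Λ * a1 := by nlinarith
  have z1 : a1 ≤ 4 * (b.1 + a1 / 4 - (b.1 - a1 / 4)) := by omega
  have z2 := mul_le_mul_of_nonneg_left z1 (by omega : (0 : ℤ) ≤ 2 * C.Λ)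
  obtain ⟨w, hw⟩ : ∃ w, w = C.Λ * a1 := ⟨_, rfl⟩
  rw [← hw] at hD v1 ⊢
  refine (hV false (b.1 - a1 / 4) (b.1 + a1 / 4) (b.2 + 3 * a1 / 2) (b.2 + 2 * w) D η hη
    (by omega) (by omega)).2 (by omega) ?_ ?_
  · have z3 : 0 ≤ 3 * a1 / 2 := by omega
    linarith
  · intro v z1 z2 z3 z4 hv
    exact absurd (hD v (by omega) (by omega) (by omega) (by omega)) hv

/-- The outer arm. -/
theorem Ks.outer_ge (C : Ks Q) {M : ℤ} (hM : 1 ≤ M) : ∃ (c : ℝ) (K s0 : ℤ), 0 < c ∧ 2 ≤ K ∧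
    1 ≤ s0 ∧ ∀ (b : ℤ × ℤ) (r R R' N : ℤ) (D : Finset (ℤ × ℤ)), s0 ≤ r → 2 * r ≤ R → R ≤ R' →
      R' ≤ M * R → Flt D b (K * R') → K * R' ≤ N →
      c * hx Q false b r R N ≤ Pr Q D eta0 (Xc false b (2 * r) R') := by
  obtain ⟨C7, K7, hC7, hK7, h7⟩ := C.a7
  obtain ⟨cE, sE, hcE, hsE, hE⟩ := C.ext_out hM
  refine ⟨cE * C7⁻¹, max 2 K7, sE, by positivity, by omega, hsE,
    fun b r R R' N D hr hrR hRR hRM hD hN => ?_⟩
  have hη : Good eta0 := f_good.2.1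
  have hR0 : 0 ≤ R' := by omega
  have e2 : 2 * R' ≤ max 2 K7 * R' := mul_le_mul_of_nonneg_right (le_max_left _ _) hR0
  have e7 : K7 * R' ≤ max 2 K7 * R' := mul_le_mul_of_nonneg_right (le_max_right _ _) hR0
  have e8 : K7 * R ≤ K7 * R' := mul_le_mul_of_nonneg_left hRR (by omega)
  have k1 : hx Q false b r R N ≤ hx Q false b (2 * r) R N :=
    Pr_mono C.hQ0 (Xc_restrict (by omega) (by omega) le_rfl)
  have k2 := (h7 false b (2 * r) R N D eta0 (by omega) (by omega) (by omega) hη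
    (flf_flt hD (by omega))).2
  have k3 := hE false b (2 * r) R R' D eta0 (by omega) (by omega) hRR hRM hη
    ((cn_flt hD).mono e2)
  have k4 : C7⁻¹ * hx Q false b r R N ≤ Pr Q D eta0 (Xc false b (2 * r) R) := by
    rw [inv_mul_le_iff₀ hC7]
    exact k1.trans k2
  rw [mul_assoc]
  exact (mul_le_mul_of_nonneg_left k4 hcE.le).trans k3

theorem flt_mono {r R : ℤ} (h : Flt D b R) (hr : r ≤ R) : Flt D b r := fun v h1 h2 h3 h4 =>
  h v (by omega) (by omega) (by omega) (by omega)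

/-- Products of lower bounds. -/
theorem inter_ge (hQ : 1 ≤ Q) (hη : Good η) {A B : Set Cfg} {x y : ℝ} (hx : 0 ≤ x) (hy : 0 ≤ y)
    (hA : IncC false A ∧ x ≤ Pr Q D η A) (hB : IncC false B ∧ y ≤ Pr Q D η B) :
    IncC false (A ∩ B) ∧ x * y ≤ Pr Q D η (A ∩ B) :=
  ⟨hA.1.inter hB.1, (mul_le_mul hA.2 hB.2 hy (hx.trans hA.2)).trans (prC_inter hQ hη hA.1 hB.1)⟩

theorem pld_arith {Λ K7 K1 L1 K0 a0 a1 a2 R N : ℤ} (hΛ : 2 ≤ Λ) (hL : 4 * Λ + 2 ≤ L1)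
    (h0 : 8 ≤ a0) (hK1 : 1 ≤ K1) (k1 : 4 * Λ ≤ K0) (k2 : K7 ≤ K0)
    (k3 : K1 * (L1 + 1) ≤ K0) (h1 : K0 * a0 ≤ a1) (h2 : K0 * a1 ≤ a2) (h3 : K0 * a2 ≤ R)
    (h4 : K0 * a2 ≤ N) :
    Λ * (2 * a0) ≤ a1 ∧ 8 * a1 ≤ a2 ∧ 8 * a2 ≤ R ∧ K7 * a1 ≤ R ∧ K7 * a1 ≤ N ∧
    Λ * (2 * a2 + 2) ≤ L1 * a2 - 2 ∧ 4 * (Λ * a1) ≤ a2 ∧ 2 * a1 ≤ Λ * a1 ∧
    K1 * (L1 * a2 + 1) ≤ R ∧ K1 * (L1 * a2 + 1) ≤ N ∧ 8 * a0 ≤ a1 := by
  have c1 : 4 * Λ * a0 ≤ K0 * a0 := mul_le_mul_of_nonneg_right k1 (by omega)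
  have c2 : 2 * a0 ≤ Λ * a0 := mul_le_mul_of_nonneg_right hΛ (by omega)
  have g1 : 8 * a0 ≤ a1 := by linarith
  have d1 : 4 * Λ * a1 ≤ K0 * a1 := mul_le_mul_of_nonneg_right k1 (by omega)
  have d2 : 2 * a1 ≤ Λ * a1 := mul_le_mul_of_nonneg_right hΛ (by omega)
  have g2 : 8 * a1 ≤ a2 := by linarith
  have f1 : 4 * Λ * a2 ≤ K0 * a2 := mul_le_mul_of_nonneg_right k1 (by omega)
  have f2 : 2 * a2 ≤ Λ * a2 := mul_le_mul_of_nonneg_right hΛ (by omega)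
  have g3 : 8 * a2 ≤ R := by linarith
  have e1 : K7 * a1 ≤ K0 * a1 := mul_le_mul_of_nonneg_right k2 (by omega)
  have e2 : a2 ≤ K0 * a2 := by nlinarith
  have e3 : (4 * Λ + 2) * a2 ≤ L1 * a2 := mul_le_mul_of_nonneg_right hL (by omega)
  have e4 : Λ * 1 ≤ Λ * a2 := mul_le_mul_of_nonneg_left (by omega) (by omega)
  have e5 : K1 * (L1 + 1) * a2 ≤ K0 * a2 := mul_le_mul_of_nonneg_right k3 (by omega)
  have e6 : K1 * (L1 * a2 + 1) ≤ K1 * ((L1 + 1) * a2) :=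
    mul_le_mul_of_nonneg_left (by linarith) (by omega)
  refine ⟨by linarith, g2, g3, by linarith, by linarith, by linarith, by linarith, d2, ?_, ?_, g1⟩
  · linarith
  · linarith

/-- Product of seven lower bounds. -/
theorem prod7 (hQ : 1 ≤ Q) (hη : Good η) {A1 A2 A3 A4 A5 A6 A7 : Set Cfg}
    {x1 x2 x3 x4 x5 x6 x7 : ℝ} (h1 : 0 ≤ x1) (h2 : 0 ≤ x2) (h3 : 0 ≤ x3) (h4 : 0 ≤ x4)
    (h5 : 0 ≤ x5) (h6 : 0 ≤ x6) (h7 : 0 ≤ x7)
    (k1 : IncC false A1 ∧ x1 ≤ Pr Q D η A1) (k2 : IncC false A2 ∧ x2 ≤ Pr Q D η A2)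
    (k3 : IncC false A3 ∧ x3 ≤ Pr Q D η A3) (k4 : IncC false A4 ∧ x4 ≤ Pr Q D η A4)
    (k5 : IncC false A5 ∧ x5 ≤ Pr Q D η A5) (k6 : IncC false A6 ∧ x6 ≤ Pr Q D η A6)
    (k7 : IncC false A7 ∧ x7 ≤ Pr Q D η A7) :
    x1 * (x2 * (x3 * (x4 * (x5 * (x6 * x7))))) ≤
      Pr Q D η (A1 ∩ (A2 ∩ (A3 ∩ (A4 ∩ (A5 ∩ (A6 ∩ A7)))))) :=
  (inter_ge hQ hη h1 (by positivity) k1 (inter_ge hQ hη h2 (by positivity) k2
    (inter_ge hQ hη h3 (by positivity) k3 (inter_ge hQ hη h4 (by positivity) k4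
      (inter_ge hQ hη h5 (by positivity) k5 (inter_ge hQ hη h6 h7 k6 k7)))))).2

/-- **(PLD)** -/
theorem s_pld (hQ : 1 ≤ Q) (hR : RSW Q) (hS : SRSW Q) (hNB : S_NB Q) : S_PLD Q := by
  obtain ⟨C⟩ := exists_Ks hQ hR hS
  have hQ0 := C.hQ0
  have hΛ := C.hΛ
  have hc0 := C.hc0
  have hη : Good eta0 := f_good.2.1
  obtain ⟨cN, aN, hcN, haN, hN⟩ := hNB
  obtain ⟨cV, sV, hcV, hsV, hV⟩ := C.vr_ge hR
  obtain ⟨C7, K7, hC7, hK7, h7⟩ := C.a7
  refine ⟨4 * C.Λ + 2, by omega, fun L1 hL1 => ?_⟩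
  obtain ⟨cE, K1, sE, hcE, hK1, hsE, hE⟩ := C.outer_ge (M := L1 + 1) (by omega)
  obtain ⟨K0, hK0⟩ : ∃ K0, K0 = max (max K7 (4 * C.Λ)) (K1 * (L1 + 1)) := ⟨_, rfl⟩
  refine ⟨C.c0 * (C.c0 * (cN * (cV * (C.c0 * (C7⁻¹ * cE))))), K0, max aN (max sV sE),
    by positivity, by omega, by omega, fun n q D l R N hW a ha hKN hLR => ?_⟩
  obtain ⟨p1, p2, p3, p4⟩ := ha
  obtain ⟨g1, g2, g3, g4, g5, g6, g7, g8, g9, g10, g11⟩ := pld_arith hΛ hL1 (by omega)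
    (by omega : 1 ≤ K1) (by omega) (by omega : K7 ≤ K0) (by omega) p2 p3 p4 hKN
  have q0 : 8 ≤ a 0 := by omega
  have q2 : 1 ≤ a 2 := by omega
  have hF : Flt D (q l) R := hW.flat
  have hCn : Cn D (q l) R := cn_flt hF
  have g12 : 2 * (L1 * a 2) ≤ R := by linarith
  have g13 : a 2 ≤ L1 * a 2 := by nlinarith
  -- the events
  obtain ⟨Nb, n1, n2, n3, n4⟩ := hN false (q l) (a 1) (by omega)
  have E1 : C.c0 ≤ Pr Q D eta0 (Xc true (q l) (2 * a 0) (a 1))ᶜ :=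
    C.half_ge (e := false) (by omega) g1 hη (hCn.mono (by omega))
  have E2 : C7⁻¹ * hx Q false (q l) (2 * a 0) (a 1) N ≤
      Pr Q D eta0 (Xc false (q l) (2 * a 0) (a 1)) := by
    rw [inv_mul_le_iff₀ hC7]
    exact (h7 false (q l) (2 * a 0) (a 1) N D eta0 (by omega) (by omega) g5 hη (flf_flt hF g4)).2
  have E3 : C.c0 ≤ Pr Q D eta0 (Xc true (q l) (2 * a 2 + 2) (L1 * a 2 - 2))ᶜ :=
    C.half_ge (e := false) (by omega) g6 hη (hCn.mono (by linarith))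
  have E4 : cN ≤ Pr Q D eta0 Nb := n3 D eta0 hη (by
    intro v hv
    unfold Zg BR.hbox at hv
    rw [Finset.mem_sdiff, Finset.mem_product, Finset.mem_Icc, Finset.mem_Icc] at hv
    exact hCn v (by omega) (by omega) (by omega) (by omega))
  have E5 := hV (q l) (a 1) D eta0 (by omega) hη (hCn.mono (by linarith))
  have E6 : C.c0 ≤ Pr Q D eta0 (Xc true (q l) (2 * a 1) (2 * (C.Λ * a 1)))ᶜ :=
    C.half_ge (e := false) (by omega) (by linarith) hη (hCn.mono (by linarith))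
  have E7 := hE (q l) (a 1) (a 2) (L1 * a 2 + 1) N D (by omega) (by omega) (by linarith)
    (by linarith) (flt_mono hF g9) g10
  -- their product
  have hx1 : 0 ≤ hx Q false (q l) (2 * a 0) (a 1) N := Pr_nonneg hQ0 _
  have hx2 : 0 ≤ hx Q false (q l) (a 1) (a 2) N := Pr_nonneg hQ0 _
  have key := prod7 (D := D) hQ hη hc0.le hc0.le hcN.le hcV.le hc0.le
    (mul_nonneg (by positivity) hx1) (mul_nonneg hcE.le hx2)
    ⟨inc_nXc false _ _ _, E1⟩ ⟨inc_nXc false _ _ _, E3⟩ ⟨n1, E4⟩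
    ⟨Vale.Agent.P167.H704.inc_Vc false _ _ _ _, E5⟩
    ⟨inc_nXc false _ _ _, E6⟩ ⟨inc_Xc false _ _ _, E2⟩ ⟨inc_Xc false _ _ _, E7⟩
  refine le_trans (le_of_eq (by ring)) (key.trans (Pr_mono hQ0 ?_))
  rintro ω ⟨w1, w2, w3, w4, w5, w6, w7⟩
  refine ⟨w1, w6, w2, fun A hA hL => n4 n q D l R hW rfl (by omega) ω w3 A hA hL, Or.inl ?_⟩
  exact lkD_of (by omega) (by linarith) (by linarith) (hCn.mono (by linarith)) w4 w5 w7

end Vale.Agent.P167.H469
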