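import Vale.Agent.P167.H469.Srsw
import Vale.Agent.P167.H947.Q.Pf8

/-!
# P167, general `q`, block Q-SRSW: strong Russo-Seymour-Welsh from RSW in the bulk
-/

namespace Vale.Agent.P167.H469

open Vale.Agent.P167.FK

/-- **Strong RSW at a flat free side** for `1 ≤ q < 4`, `√q = 2 cos μ`, from RSW in the bulk. -/
theorem srsw_of_rsw {μ : ℝ} (h0 : 0 < μ) (h1 : μ ≤ Real.pi / 3) (hR : RSW (2 * Real.cos μ)) :
    H192.Q.SRSW (2 * Real.cos μ) := by
  have hpi := Real.pi_pos
  refine srsw_of_pfi H947.Q.pfi h0 (by linarith) ?_ hR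
  have : Real.cos (Real.pi / 3) ≤ Real.cos μ :=
    Real.cos_le_cos_of_nonneg_of_le_pi h0.le (by linarith) h1
  rw [Real.cos_pi_div_three] at this
  linarith

end Vale.Agent.P167.H469
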