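import Vale.Agent.P167.H469.Flb3
import Vale.Agent.P167.H397.K.Frm
import Vale.Agent.P167.SG.Cls2

/-!
# P167, general `q`, [FLB]: the fields of the seam about the flat part

`FF … Fl`: the fields `com`, `cout`, `wpf`, `cbd`, `far`, `flo`, `flp`, `fw` of the seam for a part
`Fl` of the flat part. `Fl1`: the small box, `Fl2`: the second part.
-/

set_option autoImplicit false

namespace Vale.Agent.P167.H469.Fl

open Set Filter Topology Metric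
open Vale.Agent.P167.E6
open Vale.Agent.P167.E2 hiding ro
open Vale.Agent.P167.H72.SD (dk om Wr LB RB ComS Wf side wf_odd om_true)
open Vale.Agent.P167.H161 (zp Rd mem_Rd)
open Vale.Agent.P167.FKA (Cor)
open Vale.Agent.P167.H718 (Dq)
open Vale.Agent.P167.H192 (ro rf rf')
open Vale.Agent.P167.H918 (Loc)
open Vale.Agent.P167.H713.Q (oR Dn NearS Sd)
open Vale.Agent.P167.H397.K (frm)
open Vale.Agent.P167.SG (Bf)

/-- The fields of the seam about a part `Fl` of the flat part. -/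
structure FF {n : ℕ} (c : Bool) (p : ZMod n → ℤ × ℤ) (k : ℕ) (S : Finset (ℤ × ℤ))
    (A : Finset (Sym2 (ℤ × ℤ))) (j : ℕ) (δ : ℝ) (Bd P : Finset (ℤ × ℤ)) (ζ : Cfg)
    (W WP arcP : Set (ℤ × ℤ)) (Fl : Set ℂ) : Prop where
  com : ∀ y ∈ Fl, ∀ s, dist y (zp δ s) ≤ 6 * δ → (s.1 + s.2) % 2 = (if c then 0 else 1) →
    (∃ v ∈ H718.Dq S p k, Cor v s) → (∃ v ∈ P, Cor v s) → ComS p k S A j Bd P s
  cout : c = true → ∀ y ∈ Fl, ∀ s, dist y (zp δ s) ≤ 6 * δ → (s.1 + s.2) % 2 = 0 →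
    (∃ v ∈ H718.Dq S p k, Cor v s) → (∃ v ∈ P, Cor v s) →
    ∀ v, Cor v s → v ∉ P → v ∉ H718.Dq S p k → ζ v = true → om p k A v = true
  wpf : c = false → ∀ y ∈ Fl, ∀ s, dist y (zp δ s) ≤ 6 * δ → (s.1 + s.2) % 2 = 0 →
    (∃ v ∈ P, Cor v s) → (∃ v, v ∉ H718.Dq S p k ∧ om p k A v = true ∧ Cor v s) → s ∈ WP
  cbd : c = false → ∀ y ∈ Fl, ∀ s, dist y (zp δ s) ≤ 6 * δ → (s.1 + s.2) % 2 = 1 →
    (∃ v ∈ H718.Dq S p k, Cor v s) → ∀ v, Cor v s → v ∉ Bd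
  far : ∀ y ∈ Fl, ∀ o, o ∈ LB p k A j ∨ o ∈ RB p k A j → 6 * δ < dist y (zp δ o)
  flo : ∀ y ∈ Fl, ∀ s, dist y (zp δ s) ≤ 6 * δ → (s.1 + s.2) % 2 = 1 → H192.rf' s ∉ S →
    ∀ x ∈ H718.Dq S p k, ∀ x' ∈ H718.Dq S p k, Cor x s → Cor x' s →
    ∃ s', (s'.1 + s'.2) % 2 = 0 ∧ Cor x s' ∧ Cor x' s'
  flp : ∀ y ∈ Fl, ∀ s, dist y (zp δ s) ≤ 6 * δ → (s.1 + s.2) % 2 = 1 → H192.rf' s ∉ S →
    ∀ x ∈ P, ∀ x' ∈ H718.Dq S p k, Cor x s → Cor x' s → x' ∈ P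
  fw : ∀ y ∈ Fl, ∀ s, dist y (zp δ s) ≤ 6 * δ → (s.1 + s.2) % 2 = 1 →
    (∃ v ∈ P, Cor v s) → (∃ v ∈ H718.Dq S p k, Cor v s) →
    (c = true → s ∈ W → s ∈ arcP) ∧ (c = false → s ∈ arcP → s ∈ W)

variable {n : ℕ} {c : Bool} {p : ZMod n → ℤ × ℤ} {k : ℕ} {S : Finset (ℤ × ℤ)}
  {A : Finset (Sym2 (ℤ × ℤ))} {j : ℕ} {δ : ℝ} {Bd P : Finset (ℤ × ℤ)} {ζ : Cfg}
  {W WP arcP : Set (ℤ × ℤ)} {Fl Fl' : Set ℂ}

theorem FF.union (H : FF c p k S A j δ Bd P ζ W WP arcP Fl)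
    (H' : FF c p k S A j δ Bd P ζ W WP arcP Fl') :
    FF c p k S A j δ Bd P ζ W WP arcP (Fl ∪ Fl') where
  com := fun y hy => hy.elim (H.com y) (H'.com y)
  cout := fun hc y hy => hy.elim (H.cout hc y) (H'.cout hc y)
  wpf := fun hc y hy => hy.elim (H.wpf hc y) (H'.wpf hc y)
  cbd := fun hc y hy => hy.elim (H.cbd hc y) (H'.cbd hc y)
  far := fun y hy => hy.elim (H.far y) (H'.far y)
  flo := fun y hy => hy.elim (H.flo y) (H'.flo y)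
  flp := fun y hy => hy.elim (H.flp y) (H'.flp y)
  fw := fun y hy => hy.elim (H.fw y) (H'.fw y)

theorem FF.mono (H : FF c p k S A j δ Bd P ζ W WP arcP Fl') (h : Fl ⊆ Fl') :
    FF c p k S A j δ Bd P ζ W WP arcP Fl where
  com := fun y hy => H.com y (h hy)
  cout := fun hc y hy => H.cout hc y (h hy)
  wpf := fun hc y hy => H.wpf hc y (h hy)
  cbd := fun hc y hy => H.cbd hc y (h hy)
  far := fun y hy => H.far y (h hy)
  flo := fun y hy => H.flo y (h hy)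
  flp := fun y hy => H.flp y (h hy)
  fw := fun y hy => H.fw y (h hy)

/-- The radius of the small box in squares. -/
noncomputable def Bs (rc δ : ℝ) : ℤ := ⌈rc / (2 * H446.G.dl δ)⌉ + 12

/-- The small box. -/
def Fl1 (p : ZMod n → ℤ × ℤ) (k : ℕ) (S : Finset (ℤ × ℤ)) (A : Finset (Sym2 (ℤ × ℤ))) (j : ℕ)
    (δ rc : ℝ) : Set ℂ :=
  Dn p k S A j δ ∩ oR δ (ro (p k)) (Bs rc δ)

/-- The second part: the points near the side `Sd c` in the box of radius `rf / 4`, off the small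
box. -/
def Fl2 (c : Bool) (p : ZMod n → ℤ × ℤ) (k : ℕ) (S : Finset (ℤ × ℤ)) (A : Finset (Sym2 (ℤ × ℤ)))
    (j : ℕ) (δ rc : ℝ) (v₁ : ℤ × ℤ) (xb r : ℝ) : Set ℂ :=
  {y | y ∈ Dn p k S A j δ ∧ y ∉ oR δ (ro (p k)) (Bs rc δ) ∧ frm δ v₁ y ∈ Bf xb (r / 4) ∧
    NearS (Dn p k S A j δ) (Sd p k S A j δ c) (6 * δ) y}

/-- The flat part. -/
def FlA (c : Bool) (p : ZMod n → ℤ × ℤ) (k : ℕ) (S : Finset (ℤ × ℤ)) (A : Finset (Sym2 (ℤ × ℤ)))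
    (j : ℕ) (δ rc : ℝ) (v₁ : ℤ × ℤ) (xb r : ℝ) : Set ℂ :=
  Fl1 p k S A j δ rc ∪ Fl2 c p k S A j δ rc v₁ xb r

theorem mem_FlA {rc xb r : ℝ} {v₁ : ℤ × ℤ} {y : ℂ} (h1 : y ∈ Dn p k S A j δ)
    (h2 : frm δ v₁ y ∈ Bf xb (r / 4))
    (h3 : NearS (Dn p k S A j δ) (Sd p k S A j δ c) (6 * δ) y) :
    y ∈ FlA c p k S A j δ rc v₁ xb r := by
  by_cases h : y ∈ oR δ (ro (p k)) (Bs rc δ)
  · exact Or.inl ⟨h1, h⟩
  · exact Or.inr ⟨h1, h, h2, h3⟩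

/-- **The small box.** -/
theorem Dt.ff {M : ℕ} {R B : ℤ} {mc : ℕ} (H : Dt p k S A j δ Bd P ζ arcP M R B mc) :
    FF c p k S A j δ Bd P ζ (Wf p S (k - (mc + 1))) (Wr P ζ) arcP
      (Dn p k S A j δ ∩ oR δ (ro (p k)) B) where
  com := fun y hy s hs _ _ _ => by
    obtain ⟨h1, h2⟩ := near_site H.hδ hy.2 hs
    exact (H.com h1 h2).toComS
  cout := fun _ y hy s hs _ _ _ v hv hvP hvD hz => by
    obtain ⟨h1, h2⟩ := near_site H.hδ hy.2 hs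
    exact (H.com h1 h2).out v hv hvP hvD hz
  wpf := fun _ y hy s hs he _ ⟨v, hv1, hv2, hv3⟩ => by
    obtain ⟨h1, h2⟩ := near_site H.hδ hy.2 hs
    exact H.wpf h1 h2 he hv1 hv2 hv3
  cbd := fun _ y hy s hs _ _ v hv => by
    obtain ⟨h1, h2⟩ := near_site H.hδ hy.2 hs
    exact (H.com h1 h2).bad v hv
  far := fun y hy o ho => H.far hy.2 ho
  flo := fun y hy s hs ho hS x hx x' hx' hxs hxs' => by
    obtain ⟨h1, h2⟩ := near_site H.hδ hy.2 hs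
    exact H.flo h1 h2 ho hS hx hx' hxs hxs'
  flp := fun y hy s hs _ _ x _ x' hx' _ hxs' => by
    obtain ⟨h1, h2⟩ := near_site H.hδ hy.2 hs
    exact H.flp h1 h2 hx' hxs'
  fw := fun y hy s hs ho _ ⟨v, hv, hvs⟩ => by
    obtain ⟨h1, h2⟩ := near_site H.hδ hy.2 hs
    have h := H.fw h1 h2 ho hv hvs
    exact ⟨fun _ => h.1, fun _ => h.2⟩

end Vale.Agent.P167.H469.Fl
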