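import Vale.Agent.P167.H469.Flb7
import Vale.Agent.P167.H506.SHP.Inp

/-!
# P167, general `q`, [FLB]: `F_fl1` and `F_wfl`
-/

set_option autoImplicit false

namespace Vale.Agent.P167.H469.Fl

open Vale.Agent.P167.H411 (Set6)
open Vale.Agent.P167.H506.SHP (AllH F_fl1 F_wfl)

variable {Φ : (ℝ × ℝ) ≃ₜ (ℝ × ℝ)} {ψ : ℂ → ℂ} {δ : ℕ → ℝ} {N k : ℕ → ℕ}
    {p : ∀ n, ZMod (N n) → ℤ × ℤ} {S : ℕ → Finset (ℤ × ℤ)} {ψn : ℕ → ℂ → ℂ}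

/-- **The flat fields, first set.** -/
theorem f_fl1 (H : Set6 Φ ψ δ N k p S ψn) (hS : QE.Stair 3 Φ δ N k p S) : F_fl1 δ N k p S ψn :=
  AllH.mono (F := fun C K s n A j c O => _ ∧ _ ∧ _) (fl1_all H hS) fun _ _ _ _ _ _ _ _ h => h.1

/-- **The field `wfl`.** -/
theorem f_wfl (H : Set6 Φ ψ δ N k p S ψn) (hS : QE.Stair 3 Φ δ N k p S) : F_wfl δ N k p S ψn := by
  intro T R hT hR
  obtain ⟨ρ₁, h1, hF⟩ := fl1_all H hS T R hT hR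
  refine ⟨ρ₁, h1, fun C K eT eR hK hr => ?_⟩
  obtain ⟨s₁, k1, hF⟩ := hF C K eT eR hK hr
  refine ⟨s₁, k1, fun s hs hs' => ?_⟩
  filter_upwards [hF s hs hs'] with n g1 A j hb c O hC x hx v hv hxv ho
  rcases (g1 A j hb c O hC).2.1 x hx v hv hxv ho with h | ⟨y, hy, h⟩
  · exact Or.inl h
  · exact Or.inr ⟨y, Or.inl hy, h⟩

end Vale.Agent.P167.H469.Fl
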