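import Vale.Agent.P167.H192.Q.Arm3
import Vale.Agent.P167.H469.BDefs
import Vale.Agent.P167.H192.TA.Arc2

/-!
# P167, general `q`, block BETA: arms of one colour which are joined by a half circuit
-/

namespace Vale.Agent.P167.H469

open Finset Relation Vale.Agent.P145.FB Vale.Agent.P153 Vale.Agent.P153.Topo Vale.Agent.P167
  Vale.Agent.P167.H632 Vale.Agent.P167.H871 Vale.Agent.P167.H192.TA

/-- **A crossing of the half annulus and a half circuit of one colour are joined.** -/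
theorem join_half {F : Set Pt} {b : Pt} {r R e : ℤ} (he : e = 0 ∨ e = 1) (hr : 1 ≤ r) (hrR : r ≤ R)
    {y y' p q : Pt} (hy : y ∈ sr b r R) (hy0 : nm (y - b) ≤ r) (hy1 : R ≤ nm (y' - b))
    (hye : (y.1 + y.2) % 2 = e) (h : Pw (F ∩ dq b r R) y y')
    (hp : p ∈ sr b r R) (hp1 : p.1 ≤ b.1 - r) (hp2 : p.2 = b.2) (hpe : (p.1 + p.2) % 2 = e)
    (hq1 : b.1 + r ≤ q.1) (hq2 : q.2 = b.2)
    (h' : Pw (F ∩ dq b r R) p q) : Pw (F ∩ dq b r R) y p := by
  have hA := h'.lift hp hpe
  have hB := h.lift hy hye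
  have hys' := h.mem_sr hy
  have hqs := h'.mem_sr hp
  rw [nm_le] at hy0
  rw [le_nm] at hy1
  simp only [Prod.fst_sub, Prod.snd_sub] at hy0 hy1
  obtain ⟨a, ha⟩ : ∃ a : ℤ, a = 2 * (b.1 - R) - 2 := ⟨_, rfl⟩
  obtain ⟨c, hc⟩ : ∃ c : ℤ, c = 2 * (b.1 + R) + 2 := ⟨_, rfl⟩
  obtain ⟨X, hX⟩ : ∃ X : Set Pt, X = Sc e F ∩ Zs b r R := ⟨_, rfl⟩
  rw [← hX] at hA hB
  obtain ⟨A', hA'⟩ : ∃ A' : Set Pt, A' = {z | Conn X (2 * p.1, 2 * p.2) z} ∪
      {z | z.2 = 2 * b.2 - 1 ∧ a ≤ z.1 ∧ z.1 ≤ c ∧ (z.1 ≤ 2 * (b.1 - r) ∨ 2 * (b.1 + r) ≤ z.1)} :=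
    ⟨_, rfl⟩
  obtain ⟨B', hB'⟩ : ∃ B' : Set Pt, B' = {z | Conn X (2 * y.1, 2 * y.2) z} ∪
      ({z | 2 * (b.1 - r) < z.1 ∧ z.1 < 2 * (b.1 + r) ∧ 2 * b.2 - 2 ≤ z.2 ∧ z.2 < 2 * (b.2 + r)} ∪
      {z | (z.1 = 2 * (b.1 - R) - 1 ∨ z.1 = 2 * (b.1 + R) + 1) ∧ 2 * b.2 ≤ z.2 ∧
        z.2 ≤ 2 * (b.2 + R)}) := ⟨_, rfl⟩
  simp only [sr, Set.mem_ofPred_eq] at hy hys' hp hqs
  -- the left-right path
  have c1 : Conn A' (a, 2 * b.2 - 1) (2 * p.1, 2 * b.2 - 1) := by
    refine conn_row fun i hi hi' => ?_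
    rw [hA']
    right
    simp only [Set.mem_ofPred_eq, true_and]
    omega
  have c2 : Conn A' (2 * q.1, 2 * b.2 - 1) (c, 2 * b.2 - 1) := by
    refine conn_row fun i hi hi' => ?_
    rw [hA']
    right
    simp only [Set.mem_ofPred_eq, true_and]
    omega
  have hA1 : Conn A' (2 * p.1, 2 * p.2) (2 * q.1, 2 * q.2) := (conn_trans_closed hA).mono (by
    rw [hA']; exact Set.subset_union_left)
  have cA : Conn A' (a, 2 * b.2 - 1) (c, 2 * b.2 - 1) := by
    refine (c1.tail ?_ hA1.left_mem).trans (hA1.trans ?_)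
    · rw [adj_iff]; dsimp only; omega
    · exact ((Conn.refl hA1.right_mem).tail (by rw [adj_iff]; dsimp only; omega) c2.left_mem).trans c2
  -- the bottom-top path
  have hB1 : Conn B' (2 * y.1, 2 * y.2) (2 * y'.1, 2 * y'.2) := (conn_trans_closed hB).mono (by
    rw [hB']; exact Set.subset_union_left)
  have hin : ∀ z : Pt, 2 * (b.1 - r) < z.1 → z.1 < 2 * (b.1 + r) → 2 * b.2 - 2 ≤ z.2 →
      z.2 < 2 * (b.2 + r) → z ∈ B' ∧ Conn B' (2 * b.1, 2 * b.2 - 2) z := by
    intro z h1 h2 h3 h4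
    have key : ∀ w : Pt, 2 * (b.1 - r) < w.1 → w.1 < 2 * (b.1 + r) → 2 * b.2 - 2 ≤ w.2 →
      w.2 < 2 * (b.2 + r) → w ∈ B' := by
      intro w k1 k2 k3 k4
      rw [hB']
      right; left
      exact ⟨k1, k2, k3, k4⟩
    refine ⟨key z h1 h2 h3 h4, ?_⟩
    have e1 : Conn B' (2 * b.1, 2 * b.2 - 2) (z.1, 2 * b.2 - 2) :=
      conn_row fun i hi hi' => key _ (by dsimp only; omega) (by dsimp only; omega)
        (by dsimp only; omega) (by dsimp only; omega)
    have e2 : Conn B' (z.1, 2 * b.2 - 2) (z.1, z.2) :=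
      conn_col fun i hi hi' => key _ (by dsimp only; omega) (by dsimp only; omega)
        (by dsimp only; omega) (by dsimp only; omega)
    exact e1.trans e2
  have cB1 : Conn B' (2 * b.1, 2 * b.2 - 2) (2 * y.1, 2 * y.2) := by
    by_cases k1 : y.1 = b.1 - r
    · by_cases k2 : y.2 = b.2 + r
      · obtain ⟨m, hm⟩ := hin (2 * y.1 + 1, 2 * y.2 - 1) (by dsimp only; omega) (by dsimp only; omega)
          (by dsimp only; omega) (by dsimp only; omega)
        exact hm.tail (by rw [adj_iff]; dsimp only; omega) hB1.left_mem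
      · obtain ⟨m, hm⟩ := hin (2 * y.1 + 1, 2 * y.2) (by dsimp only; omega) (by dsimp only; omega)
          (by dsimp only; omega) (by dsimp only; omega)
        exact hm.tail (by rw [adj_iff]; dsimp only; omega) hB1.left_mem
    · by_cases k2 : y.1 = b.1 + r
      · by_cases k3 : y.2 = b.2 + r
        · obtain ⟨m, hm⟩ := hin (2 * y.1 - 1, 2 * y.2 - 1) (by dsimp only; omega)
            (by dsimp only; omega) (by dsimp only; omega) (by dsimp only; omega)
          have hz : ((2 * y.1 - 1, 2 * y.2) : Pt) ∈ B' := by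
            rw [hB']
            left
            refine (Conn.refl hB.left_mem).tail (by rw [adj_iff]; dsimp only; omega) ?_
            rw [hX]
            refine ⟨Or.inr ⟨not_ctr_right (a := y.2) rfl, ?_⟩, ?_⟩
            · simp only [st]; omega
            · simp only [Zs, Set.mem_ofPred_eq]; omega
          exact (hm.tail (by rw [adj_iff]; dsimp only; omega) hz).tail
            (by rw [adj_iff]; dsimp only; omega) hB1.left_mem
        · obtain ⟨m, hm⟩ := hin (2 * y.1 - 1, 2 * y.2) (by dsimp only; omega) (by dsimp only; omega)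
            (by dsimp only; omega) (by dsimp only; omega)
          exact hm.tail (by rw [adj_iff]; dsimp only; omega) hB1.left_mem
      · obtain ⟨m, hm⟩ := hin (2 * y.1, 2 * y.2 - 1) (by dsimp only; omega) (by dsimp only; omega)
          (by dsimp only; omega) (by dsimp only; omega)
        exact hm.tail (by rw [adj_iff]; dsimp only; omega) hB1.left_mem
  have cB2 : ∃ z : Pt, z.2 = 2 * (b.2 + R) ∧ Conn B' (2 * y'.1, 2 * y'.2) z := by
    by_cases k1 : y'.2 = b.2 + R
    · exact ⟨_, by dsimp only; omega, Conn.refl hB1.right_mem⟩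
    by_cases k2 : y'.1 = b.1 - R
    · refine ⟨(2 * y'.1 - 1, 2 * (b.2 + R)), rfl, ?_⟩
      have e1 : Conn B' (2 * y'.1 - 1, 2 * y'.2) (2 * y'.1 - 1, 2 * (b.2 + R)) := by
        refine conn_col fun i hi hi' => ?_
        rw [hB']
        right; right
        simp only [Set.mem_ofPred_eq]
        omega
      exact ((Conn.refl hB1.right_mem).tail (by rw [adj_iff]; dsimp only; omega)
        e1.left_mem).trans e1
    · refine ⟨(2 * y'.1 + 1, 2 * (b.2 + R)), rfl, ?_⟩
      have e1 : Conn B' (2 * y'.1 + 1, 2 * y'.2) (2 * y'.1 + 1, 2 * (b.2 + R)) := by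
        refine conn_col fun i hi hi' => ?_
        rw [hB']
        right; right
        simp only [Set.mem_ofPred_eq]
        omega
      exact ((Conn.refl hB1.right_mem).tail (by rw [adj_iff]; dsimp only; omega)
        e1.left_mem).trans e1
  obtain ⟨z1, hz1, k1⟩ := cB2
  have cB := (cB1.trans hB1).trans k1
  have hXZ : ∀ z ∈ X, z ∈ Zs b r R := fun z hz => by rw [hX] at hz; exact hz.2
  obtain ⟨z, hzA, hzB⟩ := cross (A := A') (B := B') (a := a) (b := c)
    (c := 2 * b.2 - 2) (d := 2 * (b.2 + R)) (by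
      intro z hz
      rw [hA'] at hz
      rcases hz with hz | hz
      · have hz := hXZ z (show Conn X _ z from hz).right_mem
        simp only [Zs, Set.mem_ofPred_eq] at hz; omega
      · simp only [Set.mem_ofPred_eq] at hz; omega) (by
      intro z hz
      rw [hB'] at hz
      rcases hz with hz | hz | hz
      · have hz := hXZ z (show Conn X _ z from hz).right_mem
        simp only [Zs, Set.mem_ofPred_eq] at hz; omega
      · simp only [Set.mem_ofPred_eq] at hz; omega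
      · simp only [Set.mem_ofPred_eq] at hz; omega) cA rfl rfl cB rfl hz1
  rw [hA'] at hzA
  rw [hB'] at hzB
  rcases hzA with hzA | hzA
  · have hzA' := hXZ z (show Conn X _ z from hzA).right_mem
    rcases hzB with hzB | hzB | hzB
    · have key : Conn X (2 * y.1, 2 * y.2) (2 * p.1, 2 * p.2) :=
        (show Conn X _ z from hzB).trans (show Conn X _ z from hzA).symm
      rw [hX] at key
      exact nr_proj key (nr_dbl e y) (nr_dbl e p)
    · simp only [Zs, Set.mem_ofPred_eq] at hzA' hzB; omega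
    · simp only [Zs, Set.mem_ofPred_eq] at hzA' hzB; omega
  · rcases hzB with hzB | hzB | hzB
    · have hzB' := hXZ z (show Conn X _ z from hzB).right_mem
      simp only [Zs, Set.mem_ofPred_eq] at hzA hzB'; omega
    · simp only [Set.mem_ofPred_eq] at hzA hzB; omega
    · simp only [Set.mem_ofPred_eq] at hzA hzB; omega

/-- **Gluing.** -/
theorem glue_arms {e : Bool} {b : Pt} {r R r2 R1 m1 m2 : ℤ} (hr : 1 ≤ m1) (h12 : m1 ≤ m2)
    (g1 : r ≤ m1) (g2 : m2 ≤ R1) (g3 : r2 ≤ m1) (g4 : m2 ≤ R) (g5 : r ≤ r2) (g6 : R1 ≤ R)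
    {ω : Cfg} (hα : ω ∈ Xc e b r R1) (hβ : ω ∈ Xc e b r2 R) (hγ : ω ∉ Xc (!e) b m1 m2) :
    ω ∈ Xc e b r R := by
  -- the half circuit
  have hpe : pr (!e) = 0 ∨ pr (!e) = 1 := by cases e <;> simp [pr]
  have hpn : 1 - pr (!e) = pr e := by cases e <;> simp [pr]
  have hcs : (cs (!e) ω)ᶜ = cs e ω := by rw [cs_compl, Bool.not_not]
  obtain ⟨x, x', x1, x2, x3, x4, x5, x6⟩ := arc_full (F := cs (!e) ω) (b := b) (r := m1) (R := m2)
    hpe hr h12 (fun y y' hy hye hyr hyy' => by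
      by_contra hc
      exact hγ ⟨y, y', hy, hye, hyr, hyy', by omega⟩)
  rw [hcs] at x6
  rw [hpn] at x5
  -- the crossings of the smaller half annulus
  obtain ⟨y, y', k1, k2, k3, k4, k5⟩ := hα
  obtain ⟨t, t', l1, l2, l3, l4, l5⟩ := hβ
  have hy : b.2 ≤ y.2 := by
    simp only [sr, Set.mem_ofPred_eq] at k1
    omega
  have ht : b.2 ≤ t.2 := by
    simp only [sr, Set.mem_ofPred_eq] at l1
    omega
  obtain ⟨y0, y1, a1, a2, a3, a4, a5⟩ := cut_dq (G := cs e ω ∩ dq b r R1) h12 hy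
    (fun v hv => by have := hv.2; simp only [dq, Set.mem_ofPred_eq] at this; omega) k4 (k3.trans g1)
    (g2.trans k5)
  obtain ⟨t0, t1, c1, c2, c3, c4, c5⟩ := cut_dq (G := cs e ω ∩ dq b r2 R) h12 ht
    (fun v hv => by have := hv.2; simp only [dq, Set.mem_ofPred_eq] at this; omega) l4 (l3.trans g3)
    (g4.trans l5)
  have hpsr : ((x, b.2) : Pt) ∈ sr b m1 m2 := by
    simp only [sr, Set.mem_ofPred_eq]
    omega
  have he0 : pr e = 0 ∨ pr e = 1 := by cases e <;> simp [pr]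
  have j1 := join_half (F := cs e ω) (e := pr e) he0 hr h12 (y := y0) (y' := y1) (p := (x, b.2))
    (q := (x', b.2)) a2 a3 a5 (by rw [← a1.parity, k2])
    (a4.mono (Set.inter_subset_inter_left _ Set.inter_subset_left)) hpsr (by dsimp only; omega) rfl
    x5 (by dsimp only; omega) rfl x6
  have j2 := join_half (F := cs e ω) (e := pr e) he0 hr h12 (y := t0) (y' := t1) (p := (x, b.2))
    (q := (x', b.2)) c2 c3 c5 (by rw [← c1.parity, l2])
    (c4.mono (Set.inter_subset_inter_left _ Set.inter_subset_left)) hpsr (by dsimp only; omega) rfl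
    x5 (by dsimp only; omega) rfl x6
  have s1 : dq b r R1 ⊆ dq b r R := by
    intro v hv
    simp only [dq, Set.mem_ofPred_eq] at hv ⊢
    omega
  have s2 : dq b r2 R ⊆ dq b r R := by
    intro v hv
    simp only [dq, Set.mem_ofPred_eq] at hv ⊢
    omega
  have s3 : dq b m1 m2 ⊆ dq b r R := by
    intro v hv
    simp only [dq, Set.mem_ofPred_eq] at hv ⊢
    omega
  have p1 : Pw (cs e ω ∩ dq b r R) y y0 := a1.mono (Set.inter_subset_inter_right _ s1)
  have p2 : Pw (cs e ω ∩ dq b r R) y0 t0 :=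
    Pw.mono (Set.inter_subset_inter_right _ s3) (j1.trans j2.symm)
  have p3 : Pw (cs e ω ∩ dq b r R) t0 t' :=
    Pw.mono (Set.inter_subset_inter_right _ s2) (c1.symm.trans l4)
  refine ⟨y, t', ?_, k2, k3, p1.trans (p2.trans p3), l5⟩
  simp only [sr, Set.mem_ofPred_eq] at k1 ⊢
  omega

end Vale.Agent.P167.H469
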