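import Vale.Agent.P167.H469.Ra2

/-!
# P167, general `q`, [BAD], (B3): the boundary vertices near the start
-/

set_option autoImplicit false

open Filter Topology Set Metric

namespace Vale.Agent.P167.H469.Ra

open Vale.Agent.P167.E6
open Vale.Agent.P167.H174 (bc)

/-- **The vertices of the polygon near the start are joined to it by small arcs.** -/
theorem arc_near {Φ : (ℝ × ℝ) ≃ₜ (ℝ × ℝ)} {δ : ℕ → ℝ} {N k : ℕ → ℕ}
    {p : ∀ n, ZMod (N n) → ℤ × ℤ} {S : ℕ → Finset (ℤ × ℤ)} (hA : Approx Φ δ N k p S) {r : ℝ}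
    (hr : 0 < r) : ∃ s : ℝ, 0 < s ∧ ∀ᶠ m in atTop,
      (∀ i : ℕ, k m ≤ i → i < N m → dist ((δ m : ℂ) * pt (p m i)) (bc Φ 0) < s →
        ∀ t : ℕ, i ≤ t → t < N m → dist ((δ m : ℂ) * pt (p m t)) (bc Φ 0) < r) ∧
      (∀ i : ℕ, i < k m → dist ((δ m : ℂ) * pt (p m i)) (bc Φ 0) < s →
        ∀ t : ℕ, t ≤ i → dist ((δ m : ℂ) * pt (p m t)) (bc Φ 0) < r) := by
  obtain ⟨r2, h2, h3, h4, h5⟩ := near_a Φ (r := r / 2) (by linarith)
  refine ⟨r2 / 2, by linarith, ?_⟩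
  filter_upwards [hA.2.2 (r2 / 2) (by linarith)] with m ⟨σ, s1, s2, s3, s4, s5⟩
  obtain ⟨-, -, hkN, -, -⟩ := hA.1 m
  have key : ∀ i : ℕ, i < N m → dist ((δ m : ℂ) * pt (p m i)) (bc Φ (σ i)) < r2 / 2 :=
    fun i hi => s5 i hi (σ i) ⟨le_rfl, s1 (Nat.le_succ i)⟩
  have h0 : ∀ i : ℕ, 0 ≤ σ i := fun i => by rw [← s2]; exact s1 (Nat.zero_le i)
  refine ⟨fun i hki hi hd t hit ht => ?_, fun i hi hd t hti => ?_⟩
  · have g1 := key i hi
    have g2 : Real.pi ≤ σ i := by rw [← s3]; exact s1 hki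
    have g3 : σ i ≤ 2 * Real.pi := by rw [← s4]; exact s1 hi.le
    have g4 : dist (bc Φ (σ i)) (bc Φ 0) < r2 := by
      have := dist_triangle_left (bc Φ (σ i)) (bc Φ 0) ((δ m : ℂ) * pt (p m i))
      linarith
    have g5 := h5 (σ i) g2 g3 g4 (σ t) (s1 hit) (by rw [← s4]; exact s1 ht.le)
    have g6 := key t ht
    have := dist_triangle ((δ m : ℂ) * pt (p m t)) (bc Φ (σ t)) (bc Φ 0)
    linarith
  · have hiN : i < N m := hi.trans hkN
    have g1 := key i hiN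
    have g2 : σ i ≤ Real.pi := by rw [← s3]; exact s1 hi.le
    have g4 : dist (bc Φ (σ i)) (bc Φ 0) < r2 := by
      have := dist_triangle_left (bc Φ (σ i)) (bc Φ 0) ((δ m : ℂ) * pt (p m i))
      linarith
    have g5 := h4 (σ i) (h0 i) g2 g4 (σ t) (h0 t) (s1 hti)
    have g6 := key t (lt_of_le_of_lt hti hiN)
    have := dist_triangle ((δ m : ℂ) * pt (p m t)) (bc Φ (σ t)) (bc Φ 0)
    linarith

end Vale.Agent.P167.H469.Ra
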