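import Vale.Agent.P167.H947.B3.Wl
import Vale.Agent.P167.H174.BD.Lit
import Vale.Agent.P167.H469.ArcN

/-!
# P167, general `q`, [BAD], (B3): the sequence form
-/

set_option autoImplicit false

open Filter Topology Set Metric

namespace Vale.Agent.P167.H469.B3

open Vale.Agent.P167.E6
open Vale.Agent.P167.E2
open Vale.Agent.P167.H174 (bc)
open Vale.Agent.P167.H174.BD (Ret P_b3)
open Vale.Agent.P167.H446.G (rS rR)
open Vale.Agent.P167.H713.Q (Cfl)
open Vale.Agent.P167.H531.K (R1)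
open Vale.Agent.P167.H469.Ra (arc_near)
open Vale.Agent.P167.H469 (bc_ne0)

theorem ps_eq (z : ℤ × ℤ) : (H174.CT.ps z).re - (H174.CT.ps z).im = z.1 ∧
    (H174.CT.ps z).re + (H174.CT.ps z).im = z.2 := by
  unfold H174.CT.ps
  constructor <;> ring

/-- The points of the box are near the centre. -/
theorem R1_ps {z : ℤ × ℤ} {m : ℝ} {x : ℂ} (h : x ∈ R1 z m) : dist x (H174.CT.ps z) ≤ m := by
  obtain ⟨h1, h2⟩ := h
  obtain ⟨e1, e2⟩ := ps_eq z
  rw [← e1] at h1
  rw [← e2] at h2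
  have hm : 0 ≤ m := (abs_nonneg _).trans h1.le
  rw [dist_eq_norm]
  have e3 : ‖x - H174.CT.ps z‖ ^ 2 =
      ((x.re - x.im - ((H174.CT.ps z).re - (H174.CT.ps z).im)) ^ 2 +
        (x.re + x.im - ((H174.CT.ps z).re + (H174.CT.ps z).im)) ^ 2) / 2 := by
    rw [Complex.sq_norm, Complex.normSq_apply]
    simp only [Complex.sub_re, Complex.sub_im]
    ring
  have g1 := sq_lt_sq' (abs_lt.1 h1).1 (abs_lt.1 h1).2
  have g2 := sq_lt_sq' (abs_lt.1 h2).1 (abs_lt.1 h2).2
  refine abs_le_of_sq_le_sq' ?_ hm |>.2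
  rw [e3]
  linarith

/-- The points near the centre are in the box. -/
theorem ps_R1 {z : ℤ × ℤ} {m : ℝ} {x : ℂ} (h : 2 * dist x (H174.CT.ps z) < m) : x ∈ R1 z m := by
  obtain ⟨e1, e2⟩ := ps_eq z
  rw [dist_eq_norm] at h
  have h1 := Complex.abs_re_le_norm (x - H174.CT.ps z)
  have h2 := Complex.abs_im_le_norm (x - H174.CT.ps z)
  rw [Complex.sub_re] at h1
  rw [Complex.sub_im] at h2
  rw [abs_le] at h1 h2
  constructor
  · rw [← e1, abs_lt]
    constructor <;> linarith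
  · rw [← e2, abs_lt]
    constructor <;> linarith

theorem norm_pt_dir (r : Fin 4) : ‖pt (dir r)‖ = 1 := by
  have h : ‖pt (dir r)‖ ^ 2 = 1 := by
    rw [Complex.sq_norm, Complex.normSq_apply]
    fin_cases r <;> simp [pt, dir]
  have h0 := norm_nonneg (pt (dir r))
  nlinarith

theorem dist_mid {d : ℝ} (hd : 0 ≤ d) (c : Medial) : dist (mid d c) ((d : ℂ) * pt c.1) ≤ d := by
  have e : mid d c - (d : ℂ) * pt c.1 = (d : ℂ) * (pt (dir (c.2 + 1)) / 2) := by
    unfold mid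
    have : pt (c.1 + dir (c.2 + 1)) = pt c.1 + pt (dir (c.2 + 1)) := by
      apply Complex.ext <;> simp [pt]
    rw [this]
    ring
  rw [dist_eq_norm, e, norm_mul, norm_div, norm_pt_dir, Complex.norm_real, Real.norm_of_nonneg hd]
  norm_num
  linarith

theorem dist_mul {d : ℝ} (hd : 0 ≤ d) (x y : ℂ) : dist ((d : ℂ) * x) ((d : ℂ) * y) = d * dist x y := by
  rw [dist_eq_norm, ← mul_sub, norm_mul, Complex.norm_real, Real.norm_of_nonneg hd, ← dist_eq_norm]

/-- **(B3)**: no conflict pairs near the start. -/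
theorem p_b3 {Φ : (ℝ × ℝ) ≃ₜ (ℝ × ℝ)} {δ : ℕ → ℝ} {N k : ℕ → ℕ} {p : ∀ n, ZMod (N n) → ℤ × ℤ}
    {S : ℕ → Finset (ℤ × ℤ)} (hA : Approx Φ δ N k p S) : P_b3 Φ δ N k p S := by
  intro r hr
  have hpi := Real.pi_pos
  have hD : 0 < dist (bc Φ 0) (bc Φ Real.pi) := by
    rw [dist_comm, dist_pos]
    exact bc_ne0 hpi (by linarith)
  obtain ⟨D, hDe⟩ : ∃ D, D = dist (bc Φ 0) (bc Φ Real.pi) := ⟨_, rfl⟩
  rw [← hDe] at hD
  refine ⟨min (r / 16) D, by positivity, by rw [← hDe]; exact min_le_right _ _, fun r₂ hr₂ => ?_⟩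
  obtain ⟨s', hs', harc⟩ := arc_near hA (r := r / 16) (by linarith)
  obtain ⟨ρ, hρ, q1, q2, q3, q4⟩ : ∃ ρ : ℝ, 0 < ρ ∧ ρ ≤ r₂ / 4 ∧ ρ ≤ r / 64 ∧ ρ ≤ s' / 4 ∧
      ρ ≤ D / 8 := by
    refine ⟨min (min (r₂ / 4) (r / 64)) (min (s' / 4) (D / 8)), by positivity, ?_, ?_, ?_, ?_⟩
    · exact (min_le_left _ _).trans (min_le_left _ _)
    · exact (min_le_left _ _).trans (min_le_right _ _)
    · exact (min_le_right _ _).trans (min_le_left _ _)
    · exact (min_le_right _ _).trans (min_le_right _ _)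
  refine ⟨ρ, hρ, ρ / 1600, by positivity, fun s hs hs0 => ?_⟩
  filter_upwards [harc, hA.2.2 (D / 8) (by positivity),
    H411.good_ev hA, hA.2.1.eventually (gt_mem_nhds (show 0 < ρ / 64 by positivity))] with n h1 h2 h3 h4
    A hAs j hj hret z hz c u w hC
  obtain ⟨hδ, hk0, hkN, hp, hS⟩ := hA.1 n
  obtain ⟨σ, s1, s2, s3, s4, s5⟩ := h2
  have hb : dist ((δ n : ℂ) * pt (p n (k n))) (bc Φ Real.pi) < D / 8 := by
    have := s5 (k n) hkN (σ (k n)) ⟨le_rfl, s1 (Nat.le_succ _)⟩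
    rwa [s3] at this
  -- the sizes
  have g1 : ((rS s (δ n) : ℕ) : ℝ) * δ n ≤ 800 * s + 8 * δ n := by
    unfold rS
    push_cast
    have := (Nat.ceil_lt_add_one (show 0 ≤ 100 * s / δ n by positivity)).le
    have e : 100 * s / δ n * δ n = 100 * s := div_mul_cancel₀ _ hδ.ne'
    nlinarith
  have g2 : r - δ n < ((rR r (δ n) : ℕ) : ℝ) * δ n := by
    have := Nat.lt_floor_add_one (r / δ n)
    have e : r / δ n * δ n = r := div_mul_cancel₀ _ hδ.ne'
    unfold rR
    nlinarith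
  have hsmall : ∀ v : ℤ × ℤ, pt v ∈ R1 z ((rS s (δ n) : ℕ) + 16 : ℝ) →
      dist ((δ n : ℂ) * pt v) (bc Φ 0) < 2 * ρ := by
    intro v hv
    have e1 := R1_ps hv
    have e2 := dist_mul hδ.le (pt v) (H174.CT.ps z)
    have e3 := dist_triangle ((δ n : ℂ) * pt v) ((δ n : ℂ) * H174.CT.ps z) (bc Φ 0)
    have e4 : δ n * dist (pt v) (H174.CT.ps z) ≤ δ n * ((rS s (δ n) : ℕ) + 16) :=
      mul_le_mul_of_nonneg_left e1 hδ.le
    nlinarith
  have hball : ∀ v : ℤ × ℤ, dist ((δ n : ℂ) * pt v) (bc Φ 0) ≤ r / 16 + δ n →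
      closedBall (pt v) 2 ⊆ R1 z ((rR r (δ n) : ℕ) : ℝ) := by
    intro v hv x hx
    rw [mem_closedBall] at hx
    apply ps_R1
    have e2 := dist_mul hδ.le x (H174.CT.ps z)
    have e3 := dist_mul hδ.le x (pt v)
    have e4 := dist_triangle4_right ((δ n : ℂ) * x) ((δ n : ℂ) * H174.CT.ps z)
      ((δ n : ℂ) * pt v) (bc Φ 0)
    have e5 : δ n * dist x (pt v) ≤ δ n * 2 := mul_le_mul_of_nonneg_left hx hδ.le
    have e6 : δ n * (2 * dist x (H174.CT.ps z)) < δ n * ((rR r (δ n) : ℕ) : ℝ) := by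
      nlinarith
    exact lt_of_mul_lt_mul_left e6 hδ.le
  have hρR : rS s (δ n) + 16 ≤ rR r (δ n) := by
    have e : (((rS s (δ n) + 16 : ℕ) : ℝ)) * δ n ≤ ((rR r (δ n) : ℕ) : ℝ) * δ n := by
      push_cast
      nlinarith
    exact_mod_cast le_of_mul_le_mul_right e hδ
  refine H947.B3.b3_n hp hS h3 hAs hk0 hδ hj hC hρR ?_ ?_ ?_
  · intro l hl hlm
    have e1 := hsmall _ hlm
    have hll : l < len (p n) (k n) A := by
      rcases lt_or_ge l (len (p n) (k n) A) with h | h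
      · exact h
      · exfalso
        have hl' : l = len (p n) (k n) A := by omega
        rw [hl', run_len hp hS (by omega) hAs] at e1
        have e2 := dist_triangle_left (bc Φ 0) (bc Φ Real.pi) ((δ n : ℂ) * pt (p n (k n)))
        rw [← hDe] at e2
        have e3 : (ce (p n) (k n)).1 = p n (k n) := rfl
        rw [e3] at e1
        linarith
    refine ⟨hll, fun t ht => hball _ ?_⟩
    by_contra hcon
    push Not at hcon
    refine hret ⟨t, l, ht, hll, ?_, ?_⟩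
    · have e2 := dist_mid hδ.le (run (p n) (k n) A t)
      have e3 := dist_triangle_left ((δ n : ℂ) * pt (run (p n) (k n) A t).1) (bc Φ 0)
        (mid (δ n) (run (p n) (k n) A t))
      exact lt_of_le_of_lt (min_le_left _ _) (by linarith)
    · have e2 := dist_mid hδ.le (run (p n) (k n) A l)
      have e3 := dist_triangle (mid (δ n) (run (p n) (k n) A l))
        ((δ n : ℂ) * pt (run (p n) (k n) A l).1) (bc Φ 0)
      linarith
  · intro _ i hki hi him t hit ht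
    refine hball _ ?_
    have := h1.1 i hki hi ((hsmall _ him).trans_le (by linarith)) t hit ht
    linarith
  · intro _ i hi him t hti
    refine hball _ ?_
    have := h1.2 i hi ((hsmall _ him).trans_le (by linarith)) t hti
    linarith

end Vale.Agent.P167.H469.B3
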