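import Vale.Agent.P167.H469.RDefs
import Vale.Agent.P167.FKA.Wir

/-!
# P167, general `q`, block Q-SRSW: comparison of the two sides of a junction

`fl` is the mirror image in the column of the junction together with duality.
-/

namespace Vale.Agent.P167.H469

open Finset Relation Vale.Agent.P167.FK Vale.Agent.P167.FKA Vale.Agent.P167.H947.Q
  Vale.Agent.P167.QM
open Vale.Agent.P145.FB (PStep PConn)

variable {Q : ℝ}

/-- Mirror image and duality. -/
def fl (ω : Cfg) : Cfg := fun v => !(ω (-v.1, v.2))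

theorem fl_eq (ω : Cfg) : fl ω = du (ω ∘ (fun v : ℤ × ℤ => (-1 - v.1, v.2))) := by
  funext v
  simp only [fl, du, Function.comp]
  congr 2
  ext
  · show -v.1 = -1 - (v.1 - 1); ring
  · rfl

theorem fl_fl (ω : Cfg) : fl (fl ω) = ω := by
  funext v
  simp [fl]

/-- The mirror image of a set of squares. -/
def mi (v : ℤ × ℤ) : ℤ × ℤ := (-v.1, v.2)

theorem mem_mi {D : Finset (ℤ × ℤ)} {v : ℤ × ℤ} : v ∈ D.image mi ↔ mi v ∈ D := by
  rw [Finset.mem_image]
  constructor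
  · rintro ⟨w, hw, rfl⟩
    simpa [mi] using hw
  · intro h
    exact ⟨mi v, h, by simp [mi]⟩

theorem good_fl {ω : Cfg} (h : Good ω) : Good (fl ω) := by
  rw [fl_eq]
  exact f_dual.1 _ (sy_rx.1 _ h)

theorem Ex_fl (hQ : 0 < Q) {D : Finset (ℤ × ℤ)} {η : Cfg} (hη : Good η) (F : Cfg → ℝ) :
    Ex Q D η (fun ω => F (fl ω)) = Ex Q (D.image mi) (fl η) F := by
  set rx : ℤ × ℤ → ℤ × ℤ := fun v => (-1 - v.1, v.2) with hrx
  have h1 := sy_rx.2 Q (D.image rx) η (fun ω => F (du ω)) hQ hη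
  have e1 : (D.image rx).image rx = D := by
    rw [Finset.image_image]
    have : rx ∘ rx = id := by
      funext v
      simp [hrx]
    rw [this, Finset.image_id]
  rw [e1] at h1
  have h2 := f_dual.2 Q (D.image rx) (η ∘ rx) F hQ (sy_rx.1 _ hη)
  have e2 : (D.image rx).image (fun v : ℤ × ℤ => (v.1 + 1, v.2)) = D.image mi := by
    rw [Finset.image_image]
    congr 1
    funext v
    simp only [hrx, mi, Function.comp, Prod.mk.injEq, and_true]
    ring
  rw [e2, ← fl_eq] at h2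
  rw [h2, h1]
  refine Ex_congr fun S _ => ?_
  rw [fl_eq]

/-- The mirror image of a site. -/
def ms (s : ℤ × ℤ) : ℤ × ℤ := (1 - s.1, s.2)

theorem ms_ms (s : ℤ × ℤ) : ms (ms s) = s := by simp [ms]

theorem step_ms {F F' : Set (ℤ × ℤ)} (hF : ∀ v ∈ F, mi v ∈ F') {u v : ℤ × ℤ} (h : PStep F u v) :
    PStep F' (ms u) (ms v) := by
  obtain ⟨h1, h2, h3⟩ := h
  refine ⟨by simp only [ms]; omega, by simp only [ms]; omega, ?_⟩
  have h4 := hF _ h3
  have e : ((min (ms u).1 (ms v).1, min (ms u).2 (ms v).2) : ℤ × ℤ) =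
      mi (min u.1 v.1, min u.2 v.2) := by
    simp only [ms, mi, Prod.mk.injEq, and_true]
    omega
  rw [e]
  exact h4

theorem rtg_ms {F F' : Set (ℤ × ℤ)} (hF : ∀ v ∈ F, mi v ∈ F') {u v : ℤ × ℤ}
    (h : ReflTransGen (PStep F) u v) : ReflTransGen (PStep F') (ms u) (ms v) := by
  induction h with
  | refl => exact ReflTransGen.refl
  | tail _ h ih => exact ih.tail (step_ms hF h)

theorem dc_iff {ω : Cfg} {s t : ℤ × ℤ} : DC ω s t ↔ PC (fl ω) (ms s) (ms t) := by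
  constructor
  · intro h
    refine rtg_ms (fun v hv => ?_) h
    have h1 : ¬ ω v = true := hv
    show fl ω (mi v) = true
    simp only [fl, mi, neg_neg]
    simpa using h1
  · intro h
    have h2 : ReflTransGen (PStep (op ω)ᶜ) (ms (ms s)) (ms (ms t)) := by
      refine rtg_ms (fun v hv => ?_) h
      have h1 : fl ω v = true := hv
      show ¬ ω (mi v) = true
      simp only [fl] at h1
      simpa [mi] using h1
    rwa [ms_ms, ms_ms] at h2

theorem good_ea (n : ℤ) : Good (ea n) := by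
  have h := f_good.1 ((Finset.Ico (-n) 0) ×ˢ {(-1 : ℤ)}) eta0
    ((Finset.Ico (-n) 0) ×ˢ {(-1 : ℤ)}) f_good.2.1
  have e : cf ((Finset.Ico (-n) 0) ×ˢ {(-1 : ℤ)}) eta0 ((Finset.Ico (-n) 0) ×ˢ {(-1 : ℤ)}) = ea n := by
    funext v
    simp only [cf, ea, eta0, Finset.mem_product, Finset.mem_Ico, Finset.mem_singleton]
    by_cases h : v.2 = -1 ∧ -n ≤ v.1 ∧ v.1 < 0
    · rw [if_pos ⟨h.2, h.1⟩]
      simp [h]
    · rw [if_neg fun h' => h ⟨h'.2, h'.1⟩]
      simp only [Bool.false_eq, decide_eq_false_iff_not]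
      exact h
  rwa [e] at h

theorem mem_Rt {x0 x1 H : ℤ} {v : ℤ × ℤ} :
    v ∈ Rt x0 x1 H ↔ x0 ≤ v.1 ∧ v.1 < x1 ∧ 0 ≤ v.2 ∧ v.2 < H := by
  simp only [Rt, Finset.mem_product, Finset.mem_Ico]
  tauto

theorem inc_pc (s t : ℤ × ℤ) : FKA.IncS {ω | PC ω s t} := by
  intro ω ω' h h'
  exact H259.PC_mono h h'

/-- **Comparison at the right junction.** -/
theorem cmp_right (hQ : 1 ≤ Q) (x0 x1 H n k : ℤ) (hn0 : 0 ≤ n) :
    Pa Q x0 x1 H n (k, 0) ≤ Pb Q x0 x1 H n (1 - k, 0) := by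
  classical
  have hQ0 : 0 < Q := by linarith
  set D := Rt x0 x1 H with hD
  have hb : Pb Q x0 x1 H n (1 - k, 0) = Pr Q (D.image mi) (fl (ea n)) {ω | PC ω (k, 0) (0, 0)} := by
    unfold Pb Pr
    rw [← Ex_fl hQ0 (good_ea n)]
    refine Ex_congr fun S _ => ?_
    have h1 : (cf D (ea n) S ∈ {ω | DC ω (1 - k, 0) (1, 0)}) ↔
        fl (cf D (ea n) S) ∈ {ω | PC ω (k, 0) (0, 0)} := by
      show DC _ _ _ ↔ PC _ _ _
      rw [dc_iff]
      simp [ms]
    by_cases h2 : cf D (ea n) S ∈ {ω | DC ω (1 - k, 0) (1, 0)}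
    · rw [Set.indicator_of_mem h2, Set.indicator_of_mem (h1.1 h2)]
      rfl
    · rw [Set.indicator_of_notMem h2, Set.indicator_of_notMem fun h => h2 (h1.2 h)]
  rw [hb]
  have hF := (inc_pc (k, 0) (0, 0)).incF
  have hg := good_ea n
  have hg' := good_fl hg
  have ho : ∀ v : ℤ × ℤ, ea n v = true → v.2 = -1 ∧ -n ≤ v.1 ∧ v.1 < 0 := by
    intro v hv
    simpa [ea] using hv
  have hfl : ∀ v : ℤ × ℤ, ea n v = true → fl (ea n) v = true := by
    intro v hv
    have h1 := ho v hv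
    simp only [fl, ea, Bool.not_eq_true', decide_eq_false_iff_not]
    omega
  have s1 : Pr Q D (ea n) {ω | PC ω (k, 0) (0, 0)} ≤
      Pr Q (D ∪ D.image mi) (ea n) {ω | PC ω (k, 0) (0, 0)} := by
    refine Ex_up hQ Finset.subset_union_left hF hg hg fun v _ hv => ⟨fun h => ?_, hv⟩
    have h1 := ho v hv
    rw [Finset.mem_union, mem_mi] at h
    rcases h with h | h
    · rw [hD, mem_Rt] at h; omega
    · rw [hD, mem_Rt] at h
      have : (mi v).2 = v.2 := rfl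
      omega
  have s2 : Pr Q (D ∪ D.image mi) (ea n) {ω | PC ω (k, 0) (0, 0)} ≤
      Pr Q (D ∪ D.image mi) (fl (ea n)) {ω | PC ω (k, 0) (0, 0)} :=
    comp_out hQ hF hg hg' fun v _ hv => hfl v hv
  have s3 : Pr Q (D ∪ D.image mi) (fl (ea n)) {ω | PC ω (k, 0) (0, 0)} ≤
      Pr Q (D.image mi) (fl (ea n)) {ω | PC ω (k, 0) (0, 0)} := by
    refine Ex_dn hQ Finset.subset_union_right hF hg' hg' (fun v _ h => h) fun v hv _ => ?_
    have h2 : 0 ≤ v.2 := by
      rw [Finset.mem_union, mem_mi] at hv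
      rcases hv with h | h
      · rw [hD, mem_Rt] at h; omega
      · rw [hD, mem_Rt] at h
        have : (mi v).2 = v.2 := rfl
        omega
    simp only [fl, ea, Bool.not_eq_true', decide_eq_false_iff_not]
    omega
  exact s1.trans (s2.trans s3)

/-! ### The outside connections -/

theorem rtg_symm {F : Set (ℤ × ℤ)} {s t : ℤ × ℤ} (h : ReflTransGen (PStep F) s t) :
    ReflTransGen (PStep F) t s := by
  induction h with
  | refl => exact ReflTransGen.refl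
  | tail _ h ih => exact ReflTransGen.head h.symm ih

theorem pc_symm {ω : Cfg} {s t : ℤ × ℤ} (h : PC ω s t) : PC ω t s := rtg_symm h

theorem dc_symm {ω : Cfg} {s t : ℤ × ℤ} (h : DC ω s t) : DC ω t s := rtg_symm h

/-- The arc is connected. -/
theorem arc_conn {ω : Cfg} {n : ℤ} (h : ∀ x : ℤ, -n ≤ x → x < 0 → ω (x, -1) = true) :
    ∀ m : ℕ, 2 * (m : ℤ) ≤ n → PC ω (-(2 * (m : ℤ)), 0) (0, 0) := by
  intro m
  induction m with
  | zero => intro _; exact ReflTransGen.refl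
  | succ m ih =>
    intro hm
    have h1 := ih (by push_cast at hm; omega)
    have s1 : PStep (op ω) (-(2 * ((m + 1 : ℕ) : ℤ)), 0) (-(2 * (m : ℤ)) - 1, -1) := by
      refine ⟨Or.inl (by push_cast; ring), Or.inr (by norm_num), ?_⟩
      show ω _ = true
      have e : ((min (-(2 * ((m + 1 : ℕ) : ℤ))) (-(2 * (m : ℤ)) - 1), min (0 : ℤ) (-1)) : ℤ × ℤ) =
          (-(2 * (m : ℤ)) - 2, -1) := by
        refine Prod.ext ?_ rfl
        push_cast
        omega
      rw [e]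
      exact h _ (by push_cast at hm; omega) (by omega)
    have s2 : PStep (op ω) (-(2 * (m : ℤ)) - 1, -1) (-(2 * (m : ℤ)), 0) := by
      refine ⟨Or.inl (by ring), Or.inl (by norm_num), ?_⟩
      show ω _ = true
      have e : ((min (-(2 * (m : ℤ)) - 1) (-(2 * (m : ℤ))), min (-1 : ℤ) 0) : ℤ × ℤ) =
          (-(2 * (m : ℤ)) - 1, -1) := by
        refine Prod.ext ?_ rfl
        show min (-(2 * (m : ℤ)) - 1) (-(2 * (m : ℤ))) = _
        omega
      rw [e]
      exact h _ (by push_cast at hm; omega) (by omega)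
    exact (ReflTransGen.head s1 (ReflTransGen.head s2 ReflTransGen.refl)).trans h1

/-- The two free parts are joined below the arc. -/
theorem free_conn {ω : Cfg} {n : ℤ} (h : ∀ x y : ℤ, y < 0 → ω (x, y) = true → y = -1 ∧ -n ≤ x ∧ x < 0) :
    ∀ m : ℕ, DC ω (-(2 * (m : ℤ)), -1) (0, -1) := by
  intro m
  induction m with
  | zero => exact ReflTransGen.refl
  | succ m ih =>
    have s1 : PStep (op ω)ᶜ (-(2 * ((m + 1 : ℕ) : ℤ)), -1) (-(2 * (m : ℤ)) - 1, -2) := by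
      refine ⟨Or.inl (by push_cast; ring), Or.inr (by norm_num), ?_⟩
      show ¬ ω _ = true
      intro h'
      have := h _ _ (by norm_num) h'
      omega
    have s2 : PStep (op ω)ᶜ (-(2 * (m : ℤ)) - 1, -2) (-(2 * (m : ℤ)), -1) := by
      refine ⟨Or.inl (by ring), Or.inl (by norm_num), ?_⟩
      show ¬ ω _ = true
      intro h'
      have := h _ _ (by norm_num) h'
      omega
    exact (ReflTransGen.head s1 (ReflTransGen.head s2 ReflTransGen.refl)).trans ih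

theorem ends_conn {ω : Cfg} {n : ℤ} (hn : Even n) (hn0 : 0 ≤ n)
    (h : ∀ x y : ℤ, y < 0 → ω (x, y) = true → y = -1 ∧ -n ≤ x ∧ x < 0) :
    DC ω (-n - 1, 0) (1, 0) := by
  obtain ⟨m', hm'⟩ := hn
  obtain ⟨m, rfl⟩ : ∃ m : ℕ, m' = m := ⟨m'.toNat, by omega⟩
  have h1 := free_conn h m
  have s1 : PStep (op ω)ᶜ (-n - 1, 0) (-(2 * (m : ℤ)), -1) := by
    refine ⟨Or.inl (by omega), Or.inr (by norm_num), ?_⟩
    show ¬ ω _ = true
    intro h'
    have := h _ _ (by norm_num) h'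
    omega
  have s2 : PStep (op ω)ᶜ (0, -1) (1, 0) := by
    refine ⟨Or.inl (by norm_num), Or.inl (by norm_num), ?_⟩
    show ¬ ω _ = true
    intro h'
    have := h _ _ (by norm_num) h'
    have e : min (0 : ℤ) 1 = 0 := by norm_num
    rw [e] at this
    omega
  exact (ReflTransGen.head s1 h1).tail s2

/-! ### The mirror image of the arc -/

/-- The mirror image of the squares which exchanges the ends of the arc. -/
def mn (n : ℤ) (v : ℤ × ℤ) : ℤ × ℤ := (-1 - v.1 - n, v.2)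

theorem sy_mn {n : ℤ} (hn : Even n) : IsSy (mn n) := by
  have h := (sy_tr (-n, 0) (by simpa using hn)).comp sy_rx
  have e : mn n = (fun v : ℤ × ℤ => (v.1 + (-n, (0 : ℤ)).1, v.2 + (-n, (0 : ℤ)).2)) ∘
      (fun v : ℤ × ℤ => (-1 - v.1, v.2)) := by
    funext v
    simp only [mn, Function.comp, add_zero, Prod.mk.injEq, and_true]
    ring
  rw [e]
  exact h

theorem ea_mn (n : ℤ) : ea n ∘ mn n = ea n := by
  funext v
  show decide (v.2 = -1 ∧ -n ≤ -1 - v.1 - n ∧ -1 - v.1 - n < 0) =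
    decide (v.2 = -1 ∧ -n ≤ v.1 ∧ v.1 < 0)
  rw [decide_eq_decide]
  omega

theorem Rt_mn (x0 x1 H n : ℤ) : (Rt x0 x1 H).image (mn n) = Rt (-n - x1) (-n - x0) H := by
  ext v
  rw [Finset.mem_image, mem_Rt]
  constructor
  · rintro ⟨w, hw, rfl⟩
    rw [mem_Rt] at hw
    simp only [mn]
    omega
  · intro h
    refine ⟨mn n v, ?_, ?_⟩
    · rw [mem_Rt]
      simp only [mn]
      omega
    · simp only [mn]
      ext
      · simp only; ring
      · rfl

theorem step_mn {n : ℤ} {F F' : Set (ℤ × ℤ)} (hF : ∀ v ∈ F, mn n v ∈ F') {u v : ℤ × ℤ}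
    (h : PStep F u v) : PStep F' (-n - u.1, u.2) (-n - v.1, v.2) := by
  obtain ⟨h1, h2, h3⟩ := h
  refine ⟨by simp only; omega, by simp only; omega, ?_⟩
  have h4 := hF _ h3
  have e : ((min (-n - u.1) (-n - v.1), min u.2 v.2) : ℤ × ℤ) =
      mn n (min u.1 v.1, min u.2 v.2) := by
    simp only [mn, Prod.mk.injEq, and_true]
    omega
  rw [e]
  exact h4

theorem rtg_mn {n : ℤ} {F F' : Set (ℤ × ℤ)} (hF : ∀ v ∈ F, mn n v ∈ F') {u v : ℤ × ℤ}
    (h : ReflTransGen (PStep F) u v) :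
    ReflTransGen (PStep F') (-n - u.1, u.2) (-n - v.1, v.2) := by
  induction h with
  | refl => exact ReflTransGen.refl
  | tail _ h ih => exact ih.tail (step_mn hF h)

theorem mn_mn (n : ℤ) (v : ℤ × ℤ) : mn n (mn n v) = v := by
  ext
  · simp only [mn]; ring
  · rfl

theorem pc_mn {n : ℤ} {ω : Cfg} {u v : ℤ × ℤ} :
    PC (ω ∘ mn n) u v ↔ PC ω (-n - u.1, u.2) (-n - v.1, v.2) := by
  constructor
  · exact fun h => rtg_mn (fun v hv => hv) h
  · intro h
    have h1 : ReflTransGen (PStep (op (ω ∘ mn n))) _ _ := rtg_mn (n := n) (fun v hv => by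
      show ω (mn n (mn n v)) = true
      rw [mn_mn]
      exact hv) h
    simp only [sub_sub_cancel] at h1
    exact h1

theorem dc_mn {n : ℤ} {ω : Cfg} {u v : ℤ × ℤ} :
    DC (ω ∘ mn n) u v ↔ DC ω (-n - u.1, u.2) (-n - v.1, v.2) := by
  constructor
  · exact fun h => rtg_mn (fun v hv => hv) h
  · intro h
    have h1 : ReflTransGen (PStep (op (ω ∘ mn n))ᶜ) _ _ := rtg_mn (n := n) (fun v hv => by
      show ¬ ω (mn n (mn n v)) = true
      rw [mn_mn]
      exact hv) h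
    simp only [sub_sub_cancel] at h1
    exact h1

theorem cf_row {x0 x1 H n : ℤ} {S : Finset (ℤ × ℤ)} {x : ℤ} (h : -n ≤ x) (h' : x < 0) :
    cf (Rt x0 x1 H) (ea n) S (x, -1) = true := by
  rw [cf_out (by rw [mem_Rt]; simp)]
  simp only [ea, decide_eq_true_eq]
  exact ⟨trivial, h, h'⟩

theorem cf_low {x0 x1 H n : ℤ} {S : Finset (ℤ × ℤ)} {x y : ℤ} (hy : y < 0)
    (h : cf (Rt x0 x1 H) (ea n) S (x, y) = true) : y = -1 ∧ -n ≤ x ∧ x < 0 := by
  rw [cf_out (by rw [mem_Rt]; simp only; omega)] at h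
  simpa [ea] using h

theorem Pr_sy_mn (hQ : 0 < Q) {x0 x1 H n : ℤ} (hn : Even n) (A : Set Cfg) :
    Pr Q (Rt x0 x1 H) (ea n) A = Pr Q (Rt (-n - x1) (-n - x0) H) (ea n) {ω | ω ∘ mn n ∈ A} := by
  have h := (sy_mn hn).2 Q (Rt x0 x1 H) (ea n) (A.indicator 1) hQ (good_ea n)
  rw [ea_mn, Rt_mn] at h
  exact h

theorem Pr_congr {D : Finset (ℤ × ℤ)} {η : Cfg} {A B : Set Cfg}
    (h : ∀ S, S ⊆ D → (cf D η S ∈ A ↔ cf D η S ∈ B)) : Pr Q D η A = Pr Q D η B := by
  refine Ex_congr fun S hS => ?_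
  by_cases h1 : cf D η S ∈ A
  · rw [Set.indicator_of_mem h1, Set.indicator_of_mem ((h S hS).1 h1)]
  · rw [Set.indicator_of_notMem h1, Set.indicator_of_notMem fun h2 => h1 ((h S hS).2 h2)]

theorem Pa_mn (hQ : 0 < Q) {x0 x1 H n : ℤ} (hn : Even n) (hn0 : 0 ≤ n) (s : ℤ × ℤ) :
    Pa Q x0 x1 H n s = Pa Q (-n - x1) (-n - x0) H n (-n - s.1, s.2) := by
  unfold Pa
  rw [Pr_sy_mn hQ hn]
  refine Pr_congr fun S _ => ?_
  show PC (_ ∘ mn n) s (0, 0) ↔ PC _ _ _
  rw [pc_mn]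
  obtain ⟨m', hm'⟩ := hn
  obtain ⟨m, rfl⟩ : ∃ m : ℕ, m' = m := ⟨m'.toNat, by omega⟩
  have h1 := arc_conn (ω := cf (Rt (-n - x1) (-n - x0) H) (ea n) S) (n := n)
    (fun x hx hx' => cf_row hx hx') m (by omega)
  have e : ((-n - (0, (0 : ℤ)).1, (0, (0 : ℤ)).2) : ℤ × ℤ) = (-(2 * (m : ℤ)), 0) := by
    ext
    · simp only; omega
    · rfl
  rw [e]
  exact ⟨fun h => h.trans h1, fun h => h.trans (pc_symm h1)⟩

theorem Pb_mn (hQ : 0 < Q) {x0 x1 H n : ℤ} (hn : Even n) (hn0 : 0 ≤ n) (s : ℤ × ℤ) :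
    Pb Q x0 x1 H n s = Pb Q (-n - x1) (-n - x0) H n (-n - s.1, s.2) := by
  unfold Pb
  rw [Pr_sy_mn hQ hn]
  refine Pr_congr fun S _ => ?_
  show DC (_ ∘ mn n) s (1, 0) ↔ DC _ _ _
  rw [dc_mn]
  have h1 := ends_conn (ω := cf (Rt (-n - x1) (-n - x0) H) (ea n) S) (n := n) hn hn0
    (fun x y hy h => cf_low hy h)
  exact ⟨fun h => h.trans h1, fun h => h.trans (dc_symm h1)⟩

/-- **R1.** -/
theorem r1 (hQ : 1 ≤ Q) : R1 Q := by
  intro x0 x1 H n k hn hn0 _ _
  have hQ0 : 0 < Q := by linarith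
  refine ⟨cmp_right hQ x0 x1 H n k hn0, ?_⟩
  rw [Pa_mn hQ0 hn hn0, Pb_mn hQ0 hn hn0]
  have h := cmp_right hQ (-n - x1) (-n - x0) H n k hn0
  have e1 : ((-n - (-n - k, (0 : ℤ)).1, (-n - k, (0 : ℤ)).2) : ℤ × ℤ) = (k, 0) := by
    ext
    · simp only; ring
    · rfl
  have e2 : ((-n - (-n - 1 + k, (0 : ℤ)).1, (-n - 1 + k, (0 : ℤ)).2) : ℤ × ℤ) = (1 - k, 0) := by
    ext
    · simp only; ring
    · rfl
  rw [e1, e2]
  exact h

end Vale.Agent.P167.H469
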