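import Vale.Agent.P167.H469.Reg

/-!
# P167, general `q`, block Q-SRSW: upper bound for the connection to the arc from far
-/

namespace Vale.Agent.P167.H469

open Finset Relation Vale.Agent.P167.FK Vale.Agent.P167.FKA Vale.Agent.P167.H947.Q
  Vale.Agent.P167.QM
open Vale.Agent.P145.FB (PStep PConn)
open Vale.Agent.P167.H632 (bl first_exit)
open Vale.Agent.P167.H519 (Rat)

variable {Q : ℝ}

/-- Open path in `D` from `s` to distance `d`. -/
def AD (D : Finset (ℤ × ℤ)) (s : ℤ × ℤ) (d : ℤ) : Set Cfg :=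
  {ω | ∃ v, d ≤ nm (v - s) ∧ PConn {w | ω w = true ∧ w ∈ D} (bl s d) s v}

theorem inc_AD (D : Finset (ℤ × ℤ)) (s : ℤ × ℤ) (d : ℤ) : FKA.IncS (AD D s d) := by
  rintro o o' ho ⟨v, h1, h2⟩
  refine ⟨v, h1, h2.mono ?_ subset_rfl⟩
  rintro w ⟨hw1, hw2⟩
  exact ⟨ho w hw1, hw2⟩

theorem pconn_univ {F : Set (ℤ × ℤ)} {u v : ℤ × ℤ} (h : ReflTransGen (PStep F) u v) :
    PConn F Set.univ u v := by
  refine ⟨trivial, ?_⟩
  induction h with
  | refl => exact ReflTransGen.refl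
  | tail _ h3 ih => exact ih.tail ⟨h3, trivial⟩

theorem loc_AD (D : Finset (ℤ × ℤ)) (s : ℤ × ℤ) (d : ℤ) :
    Loc (D ∩ Bq s d) ((AD D s d).indicator 1) := by
  have key : ∀ ω ω' : Cfg, (∀ v ∈ D ∩ Bq s d, ω v = ω' v) → ω ∈ AD D s d → ω' ∈ AD D s d := by
    rintro ω ω' h ⟨v, h1, h2⟩
    refine ⟨v, h1, congr_reg (fun a b ha hb hab => ?_) h2⟩
    obtain ⟨s1, s2, s3, s4⟩ := hab
    refine ⟨s1, s2, ?_, s4⟩
    have ha1 : nm (a - s) ≤ d := ha
    have hb1 : nm (b - s) ≤ d := hb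
    unfold nm at ha1 hb1
    simp only [Prod.fst_sub, Prod.snd_sub, max_le_iff, abs_le] at ha1 hb1
    rw [← h _ ?_]
    · exact s3
    · rw [Finset.mem_inter, mem_Bq']
      refine ⟨s4, ?_⟩
      dsimp only
      omega
  intro ω ω' h1
  by_cases h2 : ω ∈ AD D s d
  · rw [Set.indicator_of_mem h2, Set.indicator_of_mem (key ω ω' h1 h2)]
    rfl
  · have h3 : ω' ∉ AD D s d := fun h3 => h2 (key ω' ω (fun v hv => (h1 v hv).symm) h3)
    rw [Set.indicator_of_notMem h2, Set.indicator_of_notMem h3]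

/-- **Comparison with the half box.** -/
theorem arm_le (hQ : 1 ≤ Q) {L : ℤ} (hL : Rat Q L) {D : Finset (ℤ × ℤ)} {s : ℤ × ℤ} {d : ℤ}
    (hd : 1 ≤ d) {η : Cfg} (hη : Good η) (hfr : H192.Q.Fr s (L * (L * d)) D η)
    {τ ρ : ℤ × ℤ → ℤ × ℤ} (hτ : IsSy τ)
    (hB : ∀ v, v ∈ Bq s (L * (L * d)) → v ∈ D → ∃ w ∈ HB 0 (L * (L * d)), τ w = v)
    (hρ0 : ρ s = 0) (hρn : ∀ u, nm (ρ u) = nm (u - s))
    (hstep : ∀ (ω : Cfg) (u v : ℤ × ℤ), PStep (op ω) u v → PStep (op (ω ∘ τ)) (ρ u) (ρ v))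
    (hup : ∀ u v : ℤ × ℤ, PStep (D : Set (ℤ × ℤ)) u v → 0 ≤ (ρ v).2) :
    Pr Q D η (AD D s d) ≤ 2 * ah Q L d := by
  have hQ0 : 0 < Q := by linarith
  have hL2 := hL.1
  have hR' : d ≤ L * (L * d) := by
    have : L * (L * d) = (L * L) * d := by ring
    have hLL : 1 ≤ L * L := by nlinarith
    nlinarith
  have h1 := (H192.Q.dom_le (Q := Q) (x := s) (r := d) (R := L * (L * d)) (V := D ∩ Bq s d)
    (D := D) (η := η) (F := (AD D s d).indicator 1) hQ hL hd le_rfl Finset.inter_subset_left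
    Finset.inter_subset_right (fun _ => ind_nonneg _ _) (loc_AD D s d) hη hfr).1
  have h2 : Ex Q (D ∩ Bq s (L * (L * d))) eta0 ((AD D s d).indicator 1) ≤
      Ex Q ((HB 0 (L * (L * d))).image τ) eta0 ((AD D s d).indicator 1) := by
    refine Ex_up hQ (fun v hv => ?_) (inc_AD D s d).incF f_good.2.1 f_good.2.1
      fun v _ hv => by simp [eta0] at hv
    rw [Finset.mem_inter] at hv
    rw [Finset.mem_image]
    exact hB v hv.2 hv.1
  have h3 : Ex Q ((HB 0 (L * (L * d))).image τ) eta0 ((AD D s d).indicator 1) ≤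
      Ex Q ((HB 0 (L * (L * d))).image τ) eta0 (fun ω => (Ar 0 d).indicator 1 (ω ∘ τ)) := by
    refine Ex_mono hQ0 fun S _ => ?_
    obtain ⟨ω, hω⟩ : ∃ ω, ω = cf ((HB 0 (L * (L * d))).image τ) eta0 S := ⟨_, rfl⟩
    rw [← hω]
    by_cases h4 : ω ∈ AD D s d
    · have h5 : ω ∘ τ ∈ Ar 0 d := by
        obtain ⟨v, v1, v2⟩ := h4
        refine ⟨ρ v, ?_, ?_⟩
        · rw [sub_zero, hρn]
          exact v1
        · have key : PConn (op (ω ∘ τ)) (bl 0 d ∩ {w : ℤ × ℤ | (0 : ℤ × ℤ).2 ≤ w.2}) (ρ s)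
              (ρ v) := by
            obtain ⟨v3, v4⟩ := v2
            have hs : ρ s ∈ bl 0 d ∩ {w : ℤ × ℤ | (0 : ℤ × ℤ).2 ≤ w.2} := by
              rw [hρ0]
              refine ⟨?_, le_refl (0 : ℤ)⟩
              show nm ((0 : ℤ × ℤ) - 0) ≤ d
              rw [sub_self]
              simp only [nm, Prod.fst_zero, Prod.snd_zero, abs_zero, max_self]
              omega
            clear v1
            induction v4 with
            | refl => exact PConn.refl hs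
            | @tail a b _ hab ih =>
              refine ih.tail (hstep ω a b ⟨hab.1.1, hab.1.2.1, hab.1.2.2.1⟩) ⟨?_, ?_⟩
              · have h6 : nm (b - s) ≤ d := hab.2
                show nm (ρ b - 0) ≤ d
                rw [sub_zero, hρn]
                exact h6
              · exact hup a b ⟨hab.1.1, hab.1.2.1, hab.1.2.2.2⟩
          rw [hρ0] at key
          exact key
      rw [Set.indicator_of_mem h4, Set.indicator_of_mem h5]
      rfl
    · rw [Set.indicator_of_notMem h4]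
      exact ind_nonneg _ _
  have h4 := hτ.2 Q (HB 0 (L * (L * d))) eta0 ((Ar 0 d).indicator 1) hQ0 f_good.2.1
  have h5 : Ex Q (HB 0 (L * (L * d))) (eta0 ∘ τ) ((Ar 0 d).indicator 1) = ah Q L d := rfl
  rw [h5] at h4
  rw [← h4] at h3
  unfold Pr
  linarith

/-- The path to the arc. -/
theorem pa_le (hQ : 0 < Q) {x0 x1 H n d : ℤ} {s : ℤ × ℤ} (hn : 0 ≤ n) (hd : 0 ≤ d)
    (h : ∀ x : ℤ, -n ≤ x → x ≤ 0 → d < nm (s - (x, 0))) :
    Pa Q x0 x1 H n s ≤ Pr Q (Rt x0 x1 H) (ea n) (AD (Rt x0 x1 H) s d) := by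
  refine Pr_le hQ fun S hS hω => ?_
  have h1 : PC (cf (Rt x0 x1 H) (ea n) S) s (0, 0) := hω
  have h2 : PConn (op (cf (Rt x0 x1 H) (ea n) S)) Set.univ s (0, 0) := pconn_univ h1
  have h0 := h 0 (by omega) le_rfl
  obtain ⟨z, z1, z2, -⟩ := first_exit (b := s) (R := d) h2 (by
    rw [sub_self]
    simp only [nm, Prod.fst_zero, Prod.snd_zero, abs_zero, max_self]
    exact hd) (by
    have e : ((0, 0) : ℤ × ℤ) - s = -(s - (0, 0)) := by rw [neg_sub]
    rw [e]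
    have e2 : nm (-(s - (0, 0))) = nm (s - (0, 0)) := by
      simp only [nm, Prod.fst_neg, Prod.snd_neg, abs_neg]
    rw [e2]
    exact h0.le)
  refine ⟨z, z1.ge, congr_reg (Rg := bl s d) ?_ (z2.mono subset_rfl (by rintro w ⟨-, hw⟩; exact hw))⟩
  intro a b ha hb hab
  obtain ⟨s1, s2, s3⟩ := hab
  refine ⟨s1, s2, s3, ?_⟩
  by_contra hD
  have s4 : cf (Rt x0 x1 H) (ea n) S (min a.1 b.1, min a.2 b.2) = true := s3
  rw [cf_out hD] at s4
  unfold ea at s4
  rw [decide_eq_true_eq] at s4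
  dsimp only at s4
  have ha1 : nm (a - s) ≤ d := ha
  have hb1 : nm (b - s) ≤ d := hb
  have h3 := h a.1
  have h4 := h b.1
  unfold nm at ha1 hb1 h3 h4
  simp only [Prod.fst_sub, Prod.snd_sub, max_le_iff, abs_le, lt_max_iff, lt_abs] at ha1 hb1 h3 h4
  omega

/-! ### The four sides -/

theorem sy_t (s : ℤ × ℤ) (hs : Even (s.1 + s.2)) : IsSy (fun v => (v.1 + s.1, v.2 + s.2)) :=
  sy_tr s hs

theorem sy_top (s : ℤ × ℤ) (hs : Even (s.1 + s.2)) :
    IsSy (fun v => (v.1 + s.1, -1 - v.2 + s.2)) :=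
  (sy_tr s hs).comp sy_ry

theorem sy_left (s : ℤ × ℤ) (hs : Even (s.1 + s.2)) : IsSy (fun v => (v.2 + s.1, v.1 + s.2)) :=
  (sy_tr s hs).comp sy_sw

theorem sy_right (s : ℤ × ℤ) (hs : Even (s.1 + s.2)) :
    IsSy (fun v => (-1 - v.2 + s.1, v.1 + s.2)) :=
  (sy_tr s hs).comp (sy_rx.comp sy_sw)

/-- **R3.** -/
theorem r3 (hQ : 1 ≤ Q) {L : ℤ} (hL : Rat Q L) : R3 Q L := by
  have hQ0 : 0 < Q := by linarith
  have hL2 := hL.1
  refine ⟨2, by norm_num, fun x0 x1 H n d s hd hn hs h => ?_⟩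
  obtain ⟨R, hR⟩ : ∃ R, R = L * (L * d) := ⟨_, rfl⟩
  have hR' : d ≤ R := by
    have e1 : L * (L * d) = (L * L) * d := by ring
    have hLL : 1 ≤ L * L := by nlinarith
    rw [hR, e1]
    nlinarith
  rw [← hR] at h
  have hfr : H192.Q.Fr s (L * (L * d)) (Rt x0 x1 H) (ea n) := by
    intro v hv _
    rw [← hR, mem_Bq'] at hv
    by_contra hc
    rw [Bool.not_eq_false] at hc
    unfold ea at hc
    rw [decide_eq_true_eq] at hc
    have h3 := h v.1 (by omega) (by omega)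
    unfold nm at h3
    simp only [Prod.fst_sub, Prod.snd_sub, lt_max_iff, lt_abs] at h3
    omega
  have h1 : Pa Q x0 x1 H n s ≤ Pr Q (Rt x0 x1 H) (ea n) (AD (Rt x0 x1 H) s d) :=
    pa_le hQ0 hn (by omega) fun x hx hx' => lt_of_le_of_lt hR' (h x hx hx')
  refine h1.trans ?_
  obtain ⟨hse, hs⟩ := hs
  have hs' : (x0 ≤ s.1 ∧ s.1 ≤ x1 ∧ s.2 = 0) ∨ (x0 ≤ s.1 ∧ s.1 ≤ x1 ∧ s.2 = H) ∨
      (0 ≤ s.2 ∧ s.2 ≤ H ∧ s.1 = x0) ∨ (0 ≤ s.2 ∧ s.2 ≤ H ∧ s.1 = x1) := by tauto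
  rcases hs' with ⟨-, -, hs⟩ | ⟨-, -, hs⟩ | ⟨-, -, hs⟩ | ⟨-, -, hs⟩
  · -- bottom
    refine arm_le hQ hL hd (good_ea n) hfr (ρ := fun u => (u.1 - s.1, u.2 - s.2)) (sy_t s hse)
      ?_ ?_ ?_ ?_ ?_
    · intro v hv hvD
      rw [mem_Bq'] at hv
      rw [mem_Rt] at hvD
      refine ⟨(v.1 - s.1, v.2 - s.2), ?_, by ext <;> simp⟩
      rw [mem_HB]
      simp only [Prod.fst_zero, Prod.snd_zero]
      omega
    · ext <;> simp
    · exact fun u => rfl
    · rintro ω u v ⟨s1, s2, s3⟩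
      refine ⟨by dsimp only; omega, by dsimp only; omega, ?_⟩
      have s4 : ω (min u.1 v.1, min u.2 v.2) = true := s3
      show ω (min (u.1 - s.1) (v.1 - s.1) + s.1, min (u.2 - s.2) (v.2 - s.2) + s.2) = true
      rw [← s4]
      congr 2 <;> omega
    · rintro u v ⟨s1, s2, s3⟩
      have s4 : (min u.1 v.1, min u.2 v.2) ∈ Rt x0 x1 H := s3
      rw [mem_Rt] at s4
      dsimp only at s4 ⊢
      omega
  · -- top
    refine arm_le hQ hL hd (good_ea n) hfr (ρ := fun u => (u.1 - s.1, s.2 - u.2)) (sy_top s hse)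
      ?_ ?_ ?_ ?_ ?_
    · intro v hv hvD
      rw [mem_Bq'] at hv
      rw [mem_Rt] at hvD
      refine ⟨(v.1 - s.1, s.2 - 1 - v.2), ?_, Prod.ext (by dsimp only; omega)
        (by dsimp only; omega)⟩
      rw [mem_HB]
      simp only [Prod.fst_zero, Prod.snd_zero]
      omega
    · ext <;> simp
    · intro u
      simp only [nm, Prod.fst_sub, Prod.snd_sub]
      rw [abs_sub_comm s.2]
    · rintro ω u v ⟨s1, s2, s3⟩
      refine ⟨by dsimp only; omega, by dsimp only; omega, ?_⟩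
      have s4 : ω (min u.1 v.1, min u.2 v.2) = true := s3
      show ω (min (u.1 - s.1) (v.1 - s.1) + s.1, -1 - min (s.2 - u.2) (s.2 - v.2) + s.2) = true
      rw [← s4]
      congr 2 <;> omega
    · rintro u v ⟨s1, s2, s3⟩
      have s4 : (min u.1 v.1, min u.2 v.2) ∈ Rt x0 x1 H := s3
      rw [mem_Rt] at s4
      dsimp only at s4 ⊢
      omega
  · -- left
    refine arm_le hQ hL hd (good_ea n) hfr (ρ := fun u => (u.2 - s.2, u.1 - s.1)) (sy_left s hse)
      ?_ ?_ ?_ ?_ ?_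
    · intro v hv hvD
      rw [mem_Bq'] at hv
      rw [mem_Rt] at hvD
      refine ⟨(v.2 - s.2, v.1 - s.1), ?_, by ext <;> simp⟩
      rw [mem_HB]
      simp only [Prod.fst_zero, Prod.snd_zero]
      omega
    · ext <;> simp
    · intro u
      simp only [nm, Prod.fst_sub, Prod.snd_sub]
      rw [max_comm]
    · rintro ω u v ⟨s1, s2, s3⟩
      refine ⟨by dsimp only; omega, by dsimp only; omega, ?_⟩
      have s4 : ω (min u.1 v.1, min u.2 v.2) = true := s3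
      show ω (min (u.1 - s.1) (v.1 - s.1) + s.1, min (u.2 - s.2) (v.2 - s.2) + s.2) = true
      rw [← s4]
      congr 2 <;> omega
    · rintro u v ⟨s1, s2, s3⟩
      have s4 : (min u.1 v.1, min u.2 v.2) ∈ Rt x0 x1 H := s3
      rw [mem_Rt] at s4
      dsimp only at s4 ⊢
      omega
  · -- right
    refine arm_le hQ hL hd (good_ea n) hfr (ρ := fun u => (u.2 - s.2, s.1 - u.1)) (sy_right s hse)
      ?_ ?_ ?_ ?_ ?_
    · intro v hv hvD
      rw [mem_Bq'] at hv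
      rw [mem_Rt] at hvD
      refine ⟨(v.2 - s.2, s.1 - 1 - v.1), ?_, Prod.ext (by dsimp only; omega)
        (by dsimp only; omega)⟩
      rw [mem_HB]
      simp only [Prod.fst_zero, Prod.snd_zero]
      omega
    · ext <;> simp
    · intro u
      simp only [nm, Prod.fst_sub, Prod.snd_sub]
      rw [max_comm, abs_sub_comm s.1]
    · rintro ω u v ⟨s1, s2, s3⟩
      refine ⟨by dsimp only; omega, by dsimp only; omega, ?_⟩
      have s4 : ω (min u.1 v.1, min u.2 v.2) = true := s3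
      show ω (-1 - min (s.1 - u.1) (s.1 - v.1) + s.1, min (u.2 - s.2) (v.2 - s.2) + s.2) = true
      rw [← s4]
      congr 2 <;> omega
    · rintro u v ⟨s1, s2, s3⟩
      have s4 : (min u.1 v.1, min u.2 v.2) ∈ Rt x0 x1 H := s3
      rw [mem_Rt] at s4
      dsimp only at s4 ⊢
      omega

/-- **Regularity of the one-arm probability**, from the parafermionic identity. -/
theorem reg (hP : PFI) {μ : ℝ} (h0 : 0 < μ) (h1 : μ < Real.pi / 2) (hQ : 1 ≤ 2 * Real.cos μ)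
    (hR : RSW (2 * Real.cos μ)) {L : ℤ} (hL : Rat (2 * Real.cos μ) L) :
    REG (2 * Real.cos μ) L :=
  reg_of hP h0 h1 hQ hL (r1 hQ) (r2 hQ hR (by have := hL.1; omega)) (r3 hQ hL)

end Vale.Agent.P167.H469
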