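import Vale.Agent.P167.H756.Exn
import Vale.Agent.P167.QE.FinL
import Vale.Agent.P167.H161.Cex

/-!
# P167, general `q`, GeoQ: the path stays away from the far boundary points
-/

set_option autoImplicit false

open MeasureTheory Filter Topology Set Metric Bornology

namespace Vale.Agent.P167.H469

open Vale.Agent.P153.R2
open Vale.Agent.P153.R2.DET (Uni HC)
open Vale.Agent.P153.R2.R1 (IsU)
open Vale.Agent.P153.R2.L1 (HH)
open Vale.Agent.P153.R2.Final (dom circ toC IsUniformizer)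
open Vale.Agent.P164 (loewnerDomain)
open Vale.Agent.P167.SLE (bq)
open Vale.Agent.P167.E6 Vale.Agent.P167.E2 Vale.Agent.P167.H411 Vale.Agent.P167.H756

variable {Φ : (ℝ × ℝ) ≃ₜ (ℝ × ℝ)} {ψ : ℂ → ℂ} {δ : ℕ → ℝ} {N k : ℕ → ℕ}
  {p : ∀ n, ZMod (N n) → ℤ × ℤ} {S : ℕ → Finset (ℤ × ℤ)} {ψn : ℕ → ℂ → ℂ}

/-- Points of the half-plane in the ball of radius `C` and points outside of the ball of radius
`2 C` have images at a positive distance, also from the end point. -/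
theorem sep_uni {ψ : ℂ → ℂ} {b : ℂ} (hU : Uni ψ b) {C : ℝ} (hC : 0 < C) :
    ∃ ρ : ℝ, 0 < ρ ∧ ∀ z ∈ HC, ‖z‖ ≤ C → ρ ≤ dist (ψ z) b ∧ ∀ w ∈ HC, 2 * C ≤ ‖w‖ →
      ρ ≤ dist (ψ z) (ψ w) := by
  have hcl : IsClosed (HC : Set ℂ) := isClosed_le continuous_const Complex.continuous_im
  have h0 : (0 : ℂ) ∈ HC := by simp [HC]
  set K : Set ℂ := HC ∩ closedBall 0 C with hK
  have hKc : IsCompact K := (isCompact_closedBall 0 C).inter_left hcl
  have hKn : K.Nonempty := ⟨0, h0, by simp [hC.le]⟩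
  have hcf : ContinuousOn (fun z => dist (ψ z) b) K :=
    continuous_dist.comp_continuousOn ((hU.cont.mono inter_subset_left).prodMk continuousOn_const)
  obtain ⟨z0, hz0, hmin⟩ := hKc.exists_isMinOn hKn hcf
  set r1 := dist (ψ z0) b with hr1
  have hr1p : 0 < r1 := dist_pos.2 (hU.ne z0 hz0.1)
  have h1 : ∀ᶠ w in cobounded ℂ ⊓ 𝓟 HC, dist (ψ w) b < r1 / 2 :=
    (Metric.tendsto_nhds.1 hU.inf) (r1 / 2) (by positivity)
  rw [eventually_inf_principal] at h1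
  obtain ⟨R1, hR1⟩ := (hasBasis_cobounded_norm.eventually_iff).1 h1 |>.imp fun _ h => h.2
  set K2 : Set ℂ := {w | w ∈ HC ∧ 2 * C ≤ ‖w‖ ∧ ‖w‖ ≤ max R1 (2 * C)} with hK2
  have hK2c : IsCompact K2 := by
    have e : K2 = (HC ∩ {w : ℂ | 2 * C ≤ ‖w‖}) ∩ closedBall 0 (max R1 (2 * C)) := by
      ext w
      simp only [hK2, mem_ofPred_eq, mem_inter_iff, mem_closedBall_zero_iff]
      tauto
    rw [e]
    exact (isCompact_closedBall _ _).inter_left
      (hcl.inter (isClosed_le continuous_const continuous_norm))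
  have hKn2 : K2.Nonempty := by
    refine ⟨((2 * C : ℝ) : ℂ), ?_, ?_, ?_⟩
    · simp [HC]
    · rw [Complex.norm_real, Real.norm_of_nonneg (by positivity)]
    · rw [Complex.norm_real, Real.norm_of_nonneg (by positivity)]
      exact le_max_right _ _
  have hP : IsCompact (K ×ˢ K2) := hKc.prod hK2c
  have hcont : ContinuousOn (fun x : ℂ × ℂ => dist (ψ x.1) (ψ x.2)) (K ×ˢ K2) :=
    continuous_dist.comp_continuousOn
      ((hU.cont.comp continuousOn_fst fun x hx => hx.1.1).prodMk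
        (hU.cont.comp continuousOn_snd fun x hx => hx.2.1))
  obtain ⟨x0, hx0, hmin2⟩ := hP.exists_isMinOn (hKn.prod hKn2) hcont
  have hr2p : 0 < dist (ψ x0.1) (ψ x0.2) := by
    rw [dist_pos]
    intro h
    have h2 := hU.inj hx0.1.1 hx0.2.1 h
    have h3 : ‖x0.1‖ ≤ C := mem_closedBall_zero_iff.1 hx0.1.2
    have h4 : 2 * C ≤ ‖x0.2‖ := hx0.2.2.1
    rw [h2] at h3
    linarith
  refine ⟨min (r1 / 2) (dist (ψ x0.1) (ψ x0.2)), lt_min (by positivity) hr2p, ?_⟩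
  intro z hz hzC
  have hzK : z ∈ K := ⟨hz, mem_closedBall_zero_iff.2 hzC⟩
  have h2 : r1 ≤ dist (ψ z) b := hmin hzK
  refine ⟨(min_le_left _ _).trans (by linarith), fun w hw hwC => ?_⟩
  by_cases h3 : ‖w‖ ≤ max R1 (2 * C)
  · have h4 : dist (ψ x0.1) (ψ x0.2) ≤ dist (ψ z) (ψ w) :=
      hmin2 (show (z, w) ∈ K ×ˢ K2 from ⟨hzK, hw, hwC, h3⟩)
    exact (min_le_right _ _).trans h4
  · push Not at h3
    have h4 : dist (ψ w) b < r1 / 2 := hR1 (show R1 ≤ ‖w‖ by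
      have := le_max_left R1 (2 * C)
      linarith) hw
    have h5 := dist_triangle_right (ψ z) b (ψ w)
    rw [dist_comm b] at h5
    exact (min_le_left _ _).trans (by linarith)

/-- The end points converge. -/
theorem bM_near (H : Set6 Φ ψ δ N k p S ψn) {ε : ℝ} (hε : 0 < ε) :
    ∀ᶠ n in atTop, dist (bM (p n) (k n) (δ n)) (bq Φ) < ε := by
  have hU : Uni ψ (bq Φ) := SLE.uni_of_uniformizer R1.i_uinj H.unif
  filter_upwards [H.conv (ε / 3) (by positivity), good_ev H.appr] with n h1 h2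
  have hUn := H.uni n h2
  have h3 : ∀ᶠ w in cobounded ℂ ⊓ 𝓟 HC, dist (ψ w) (bq Φ) < ε / 3 :=
    (Metric.tendsto_nhds.1 hU.inf) (ε / 3) (by positivity)
  have h4 : ∀ᶠ w in cobounded ℂ ⊓ 𝓟 HC, dist (ψn n w) (bM (p n) (k n) (δ n)) < ε / 3 :=
    (Metric.tendsto_nhds.1 hUn.inf) (ε / 3) (by positivity)
  have h5 := h3.and h4
  rw [eventually_inf_principal] at h5
  obtain ⟨R1, hR1⟩ := (hasBasis_cobounded_norm.eventually_iff).1 h5 |>.imp fun _ h => h.2
  have hw : ((max R1 0 : ℝ) : ℂ) ∈ HC := by simp [HC]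
  obtain ⟨h6, h7⟩ := hR1 (show R1 ≤ ‖((max R1 0 : ℝ) : ℂ)‖ by
    rw [Complex.norm_real, Real.norm_of_nonneg (le_max_right _ _)]
    exact le_max_left _ _) hw
  have h8 := h1 _ hw
  have h9 := dist_triangle_left (bM (p n) (k n) (δ n)) (bq Φ) (ψn n ((max R1 0 : ℝ) : ℂ))
  have h10 := dist_triangle (ψn n ((max R1 0 : ℝ) : ℂ)) (ψ ((max R1 0 : ℝ) : ℂ)) (bq Φ)
  linarith

/-- The same for the uniformizers of the lattice domains, with one constant. -/
theorem sep_n (H : Set6 Φ ψ δ N k p S ψn) {C : ℝ} (hC : 0 < C) :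
    ∃ ρ : ℝ, 0 < ρ ∧ ∀ᶠ n in atTop, ∀ z ∈ HC, ‖z‖ ≤ C →
      ρ ≤ dist (ψn n z) (bM (p n) (k n) (δ n)) ∧ ∀ w ∈ HC, 2 * C ≤ ‖w‖ →
      ρ ≤ dist (ψn n z) (ψn n w) := by
  have hU : Uni ψ (bq Φ) := SLE.uni_of_uniformizer R1.i_uinj H.unif
  obtain ⟨ρ, hρ, h⟩ := sep_uni hU hC
  refine ⟨ρ / 2, by positivity, ?_⟩
  filter_upwards [H.conv (ρ / 4) (by positivity), bM_near H (ε := ρ / 4) (by positivity)]
    with n h1 h2 z hz hzC
  obtain ⟨h3, h4⟩ := h z hz hzC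
  have h5 := h1 z hz
  constructor
  · have h6 := dist_triangle4 (ψ z) (ψn n z) (bM (p n) (k n) (δ n)) (bq Φ)
    rw [dist_comm (ψ z) (ψn n z)] at h6
    linarith
  · intro w hw hwC
    have h6 := h4 w hw hwC
    have h7 := h1 w hw
    have h8 := dist_triangle4 (ψ z) (ψn n z) (ψn n w) (ψ w)
    rw [dist_comm (ψ z) (ψn n z)] at h8
    linarith

/-- The radius of the half disc which contains the paths before the exit. -/
noncomputable def radF (T R : ℝ) : ℝ := 4 * (R + 1) + 4 * (T + 1) + 1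

theorem radF_pos {T R : ℝ} (hT : 0 ≤ T) (hR : 0 ≤ R) : 0 < radF T R := by
  unfold radF
  positivity

/-- **The path before the exit**, seen from the half-plane, is in a fixed half disc. -/
theorem path_in (H : Set6 Φ ψ δ N k p S ψn) {T R : ℝ} (hT : 0 ≤ T) (hR : 0 ≤ R) :
    ∀ᶠ n in atTop, ∀ A ∈ (exn δ N k p S ψn n).C, ∀ j < (exn δ N k p S ψn n).K A,
      (∀ i < j, (exn δ N k p S ψn n).c A i ≤ T ∧ |(exn δ N k p S ψn n).V A i| ≤ R) →
      ∀ t ∈ Icc (0 : ℝ) j, ∃ z ∈ HC, ‖z‖ ≤ radF T R ∧ ψn n z = pl (p n) (k n) (δ n) A t := by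
  filter_upwards [drv H hT hR one_pos, good_ev H.appr] with n h1 h2 A hA j hj hb t ht
  obtain ⟨hD, -⟩ := h1 A hA j hj hb
  have hW := wf_of H h2
  have htK : t < (exn δ N k p S ψn n).K A := by
    have : (j : ℝ) < (exn δ N k p S ψn n).K A := by exact_mod_cast hj
    linarith [ht.2]
  obtain ⟨z, hz, hzt⟩ := hW.X_mem hA ht.1 htK
  refine ⟨z, hz, ?_, hzt⟩
  by_contra hcon
  push Not at hcon
  have hr := radF_pos hT hR
  rcases ht.1.eq_or_lt with h3 | h3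
  · -- the starting point
    have h4 := hW.start A hA
    rw [← h3] at hzt
    have h5 := (H.uni n h2).inj hz (show (0 : ℂ) ∈ HC by simp [HC]) (hzt.trans h4)
    rw [h5, norm_zero] at hcon
    linarith
  · obtain ⟨z', hz', hzt'⟩ := hW.inter A hA t ⟨h3, htK⟩
    have hz'0 : 0 < z'.im := hz'
    have h5 := (H.uni n h2).inj (show z' ∈ HC from hz'0.le) hz (hzt'.trans hzt.symm)
    rw [h5] at hz'0
    have h6 : z ∈ loewnerDomain ((exn δ N k p S ψn n).W A) ((exn δ N k p S ψn n).c A j) := by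
      refine hD.dom hz'0 ?_ ?_
      · unfold radF at hcon
        linarith
      · unfold radF at hcon
        have h7 : 4 * (T + 1) ≤ ‖z‖ := by linarith
        have h8 : (4 * (T + 1)) ^ 2 ≤ ‖z‖ ^ 2 := by gcongr
        nlinarith
    have h7 := dom_DC hW (H.uni n h2) hA hj
    have h8 : ψn n z ∈ ψn n '' loewnerDomain ((exn δ N k p S ψn n).W A)
      ((exn δ N k p S ψn n).c A j) := mem_image_of_mem _ h6
    have h9 : ψn n z ∉ (Qc (p n) (k n) (δ n) (S n)).X A '' Icc 0 (j : ℝ) := by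
      have h10 : ψn n z ∈ (ψn n '' HH) \ ((Qc (p n) (k n) (δ n) (S n)).X A '' Icc 0 (j : ℝ)) := by
        rw [← h7]
        exact h8
      exact h10.2
    exact h9 ⟨t, ht, hzt.symm⟩

/-- **[FAR]**, continuum form: before the exit from `[0, T] × [-R, R]` the path has a positive
distance from the points with half-plane coordinate at least `b` and from the end point. -/
theorem far_path (H : Set6 Φ ψ δ N k p S ψn) {T R : ℝ} (hT : 0 ≤ T) (hR : 0 ≤ R) :
    ∃ ρ : ℝ, 0 < ρ ∧ ∀ᶠ n in atTop, ∀ κ : Finset (Sym2 (ℤ × ℤ)) → ℕ,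
      QE.BefIx (exn δ N k p S ψn n) T R κ → ∀ A ∈ (exn δ N k p S ψn n).C,
      ∀ t ∈ Icc (0 : ℝ) (κ A), ρ ≤ dist (pl (p n) (k n) (δ n) A t) (bM (p n) (k n) (δ n)) ∧
        ∀ w ∈ HC, 2 * radF T R ≤ ‖w‖ → ρ ≤ dist (pl (p n) (k n) (δ n) A t) (ψn n w) := by
  obtain ⟨ρ, hρ, h⟩ := sep_n H (radF_pos hT hR)
  refine ⟨ρ, hρ, ?_⟩
  filter_upwards [h, path_in H hT hR] with n h1 h2 κ hκ A hA t ht
  obtain ⟨h3, h4⟩ := hκ.2 A hA
  obtain ⟨z, hz, hzC, hzt⟩ := h2 A hA (κ A) h3 h4 t ht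
  rw [← hzt]
  exact h1 z hz hzC

end Vale.Agent.P167.H469
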