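import Vale.Agent.P167.QT.Defs
import Vale.Agent.P167.XDL.Enl2

/-!
# P167, general `q`, [FLB]: a polygon near a flat part of the boundary
-/

set_option autoImplicit false

namespace Vale.Agent.P167.H469.Fl

open Vale.Agent.P167.E6 (IsPolygon Encloses dir face)

/-- In the box of radius `B` around the vertex `b = q i₀` the domain is the half plane above `b`. -/
structure Fb {M : ℕ} (q : ZMod M → ℤ × ℤ) (D : Finset (ℤ × ℤ)) (b : ℤ × ℤ) (B : ℤ) (i₀ : ZMod M) :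
    Prop where
  poly : IsPolygon q
  enc : Encloses q D
  flat : ∀ v : ℤ × ℤ, |v.1 - b.1| ≤ B → |v.2 - b.2| ≤ B → (v ∈ D ↔ b.2 ≤ v.2)
  base : q i₀ = b
  pos : 1 ≤ B

namespace Fb

variable {M : ℕ} {q : ZMod M → ℤ × ℤ} {D : Finset (ℤ × ℤ)} {b : ℤ × ℤ} {B : ℤ} {i₀ : ZMod M}

theorem face0 (v : ℤ × ℤ) : face v 0 = v := by
  obtain ⟨x, y⟩ := v
  show ((x, y) : ℤ × ℤ) + (0, 0) = _
  simp

theorem face3 (v : ℤ × ℤ) : face v (0 - 1) = (v.1, v.2 - 1) := by
  obtain ⟨x, y⟩ := v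
  show ((x, y) : ℤ × ℤ) + (0, -1) = _
  refine Prod.ext ?_ ?_ <;> simp <;> ring

theorem step (H : Fb q D b B i₀) {x : ℤ} (hx : |x - b.1| ≤ B) :
    ∃ i, q i = (x, b.2) ∧ q (i + 1) = (x + 1, b.2) := by
  have hB := H.pos
  have h := (H.enc (x, b.2) 0).2 ⟨by
    rw [face0]
    exact (H.flat (x, b.2) hx (by simp; omega)).2 le_rfl, by
    rw [face3]
    intro h
    have := (H.flat (x, b.2 - 1) hx (by
      show |b.2 - 1 - b.2| ≤ B
      rw [abs_le]; omega)).1 h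
    dsimp only at this
    omega⟩
  obtain ⟨i, h1, h2⟩ := h
  refine ⟨i, h1, ?_⟩
  rw [h2]
  show ((x, b.2) : ℤ × ℤ) + (1, 0) = _
  simp

theorem fw (H : Fb q D b B i₀) : ∀ m : ℕ, (m : ℤ) ≤ B + 1 → q (i₀ + m) = (b.1 + m, b.2) := by
  intro m
  induction m with
  | zero =>
    intro _
    simp [H.base]
  | succ m ih =>
    intro hm
    push_cast at hm
    have h1 := ih (by omega)
    obtain ⟨i, h2, h3⟩ := H.step (x := b.1 + m) (by rw [abs_le]; omega)
    have h4 : i = i₀ + m := H.poly.2.1 (by rw [h2, h1])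
    push_cast
    rw [← add_assoc, ← h4, h3, add_assoc]

theorem bw (H : Fb q D b B i₀) : ∀ m : ℕ, (m : ℤ) ≤ B → q (i₀ - m) = (b.1 - m, b.2) := by
  intro m
  induction m with
  | zero =>
    intro _
    simp [H.base]
  | succ m ih =>
    intro hm
    push_cast at hm
    have h1 := ih (by omega)
    obtain ⟨i, h2, h3⟩ := H.step (x := b.1 - m - 1) (by rw [abs_le]; omega)
    have h4 : i + 1 = i₀ - m := H.poly.2.1 (by rw [h3, h1]; simp)
    have h5 : i = i₀ - ((m : ZMod M) + 1) := by linear_combination h4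
    push_cast
    rw [← h5, h2, sub_sub]

/-- The vertices of the polygon in the box are on the line. -/
theorem on (H : Fb q D b B i₀) {i : ZMod M} (h1 : |(q i).1 - b.1| ≤ B - 1)
    (h2 : |(q i).2 - b.2| ≤ B - 1) : (q i).2 = b.2 ∧
      ((∃ m : ℕ, (m : ℤ) ≤ B - 1 ∧ (q i).1 = b.1 + m ∧ i = i₀ + m) ∨
        (∃ m : ℕ, (m : ℤ) ≤ B - 1 ∧ 1 ≤ m ∧ (q i).1 = b.1 - m ∧ i = i₀ - m)) := by
  obtain ⟨r, hr⟩ := H.poly.2.2 i
  obtain ⟨h3, h4⟩ := (H.enc (q i) r).1 ⟨i, rfl, hr⟩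
  rw [abs_le] at h1 h2
  have key : ∀ s : Fin 4, ((face (q i) s).1 = (q i).1 ∨ (face (q i) s).1 = (q i).1 - 1) ∧
      ((face (q i) s).2 = (q i).2 ∨ (face (q i) s).2 = (q i).2 - 1) := by
    intro s
    generalize q i = v
    obtain ⟨x, y⟩ := v
    fin_cases s <;> simp [face] <;> omega
  have k1 := key r
  have k2 := key (r - 1)
  rw [H.flat _ (by rw [abs_le]; omega) (by rw [abs_le]; omega)] at h3 h4
  have h5 : (q i).2 = b.2 := by omega
  refine ⟨h5, ?_⟩
  rcases le_or_gt b.1 (q i).1 with h6 | h6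
  · left
    refine ⟨((q i).1 - b.1).toNat, by omega, by omega, ?_⟩
    have h7 := H.fw ((q i).1 - b.1).toNat (by omega)
    refine H.poly.2.1 ?_
    rw [h7]
    refine Prod.ext ?_ h5
    dsimp only
    omega
  · right
    refine ⟨(b.1 - (q i).1).toNat, by omega, by omega, by omega, ?_⟩
    have h7 := H.bw (b.1 - (q i).1).toNat (by omega)
    refine H.poly.2.1 ?_
    rw [h7]
    refine Prod.ext ?_ h5
    dsimp only
    omega

end Fb

end Vale.Agent.P167.H469.Fl
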