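import Vale.Agent.P167.H469.Flb1

/-!
# P167, general `q`, [FLB]: a shape with a flat box around the target
-/

set_option autoImplicit false

namespace Vale.Agent.P167.H469.Fl

open Vale.Agent.P167.E6 (IsPolygon Encloses dir face)
open Vale.Agent.P167.QT
open Vale.Agent.P167.H825 (enl pdir dirOf)
open Vale.Agent.P167.H718 (etaW mem_opW)

variable {P : Sh4} {ρ N Kd Kc : ℕ} {v₀ : ℤ × ℤ} {B : ℤ}

theorem mem_dom {v : ℤ × ℤ} : v ∈ dom N v₀ P ↔ v - v₀ ∈ enl P.S N := by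
  unfold dom
  rw [Finset.mem_image]
  constructor
  · rintro ⟨w, hw, rfl⟩
    rwa [add_sub_cancel_right]
  · intro h
    exact ⟨v - v₀, h, sub_add_cancel _ _⟩

/-- The junction `b`. -/
def bb (N Kd : ℕ) (v₀ : ℤ × ℤ) : ℤ × ℤ := (v₀.1 + ((Kd * N + N / 2 : ℕ) : ℤ), v₀.2)

/-- The junction in the coordinates of the shape. -/
def b0 (N Kd : ℕ) : ℤ × ℤ := (((Kd * N + N / 2 : ℕ) : ℤ), 0)

/-- The shape has a flat box around the target, which does not contain the tip. -/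
structure Box (P : Sh4) (ρ N Kd Kc : ℕ) (v₀ : ℤ × ℤ) (B : ℤ) : Prop where
  ok : P.Ok ρ
  hN : 4 ∣ N
  hN0 : 0 < N
  hl : P.l + Kd = P.m
  hj : P.j + Kc = P.m
  pos : 1 ≤ B
  flat : ∀ v : ℤ × ℤ, |v.1 - (bb N Kd v₀).1| ≤ B → |v.2 - (bb N Kd v₀).2| ≤ B →
    (v ∈ dom N v₀ P ↔ (bb N Kd v₀).2 ≤ v.2)
  tip : ¬ (|(Enl.PN P.q N (P.k * N + N / 2) + v₀).1 - (bb N Kd v₀).1| ≤ B ∧
    |(Enl.PN P.q N (P.k * N + N / 2) + v₀).2 - (bb N Kd v₀).2| ≤ B)

namespace Box

theorem q0 (H : Box P ρ N Kd Kc v₀ B) : P.q 0 = ((Kd : ℤ), 0) := by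
  have h1 := H.ok.k_lt
  have h2 := H.ok.j_lt
  have h3 := H.ok.l_lt
  have h0 := H.ok.line P.m (by omega) (by omega)
  rw [ZMod.natCast_self] at h0
  rw [h0, Prod.mk.injEq]
  have := H.hl
  omega

theorem q1 (H : Box P ρ N Kd Kc v₀ B) : P.q (0 + 1) = ((Kd : ℤ) + 1, 0) := by
  have h1 := H.ok.k_lt
  have h2 := H.ok.j_lt
  have h3 := H.ok.l_lt
  have h0 := H.ok.line (P.m + 1) (by omega) (by omega)
  push_cast at h0
  rw [ZMod.natCast_self] at h0
  rw [h0, Prod.mk.injEq]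
  have := H.hl
  omega

theorem pd (H : Box P ρ N Kd Kc v₀ B) : pdir P.q 0 = 0 := by
  unfold pdir
  have h0 := H.q0
  have h1 := H.q1
  rw [Nat.cast_zero, h0, h1]
  simp [dirOf]

theorem neZero (H : Box P ρ N Kd Kc v₀ B) : NeZero P.m :=
  ⟨by have := H.ok.poly.1; omega⟩

theorem PN_b (H : Box P ρ N Kd Kc v₀ B) : Enl.PN P.q N (N / 2) = b0 N Kd := by
  have hN := H.hN0
  have h := Enl.PN_lin (p := P.q) (n := N) hN (i := 0) (j := N / 2) (by omega)
  rw [zero_mul, zero_add, Nat.cast_zero, H.q0, H.pd] at h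
  rw [h]
  have e : dir 0 = (1, 0) := rfl
  rw [e]
  refine Prod.ext ?_ ?_
  · simp [b0]
    ring
  · simp [b0]

theorem fb (H : Box P ρ N Kd Kc v₀ B) :
    Fb (Enl.qN P.q N 0) (enl P.S N) (b0 N Kd) B ((N / 2 : ℕ) : ZMod (P.m * N)) where
  poly := Enl.isPolygon_qN H.hN0 H.ok.poly 0
  enc := Enl.encloses_qN H.hN0 H.ok.poly H.ok.encl 0
  flat := by
    intro v h1 h2
    have h := H.flat (v + v₀) (by
      simp only [bb, b0, Prod.fst_add] at h1 ⊢
      rw [abs_le] at h1 ⊢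
      omega) (by
      simp only [bb, b0, Prod.snd_add] at h2 ⊢
      rw [abs_le] at h2 ⊢
      omega)
    rw [mem_dom, add_sub_cancel_right] at h
    rw [h]
    simp only [bb, b0, Prod.snd_add]
    omega
  base := by
    have := H.neZero
    rw [Enl.qN_nat H.hN0, add_zero, H.PN_b]
  pos := H.pos

theorem qN_eq (H : Box P ρ N Kd Kc v₀ B) (i : ℕ) :
    Enl.qN P.q N 0 (i : ZMod (P.m * N)) = Enl.PN P.q N i := by
  have := H.neZero
  rw [Enl.qN_nat H.hN0, add_zero]

theorem k_lt' (H : Box P ρ N Kd Kc v₀ B) : P.k * N + N ≤ P.m * N := by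
  have h1 := H.ok.k_lt
  have h2 := H.ok.j_lt
  have h3 := H.ok.l_lt
  have : P.k + 1 ≤ P.m := by omega
  calc P.k * N + N = (P.k + 1) * N := by ring
    _ ≤ P.m * N := Nat.mul_le_mul_right _ this

theorem a_fw (H : Box P ρ N Kd Kc v₀ B) : B < (P.k * N : ℕ) := by
  by_contra hc
  push Not at hc
  apply H.tip
  have h := H.fb.fw (P.k * N) (by omega)
  rw [← Nat.cast_add, H.qN_eq, add_comm (N / 2)] at h
  rw [h]
  have hB := H.pos
  constructor
  · simp only [bb, b0, Prod.fst_add]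
    rw [abs_le]
    omega
  · simp only [bb, b0, Prod.snd_add]
    rw [abs_le]
    omega

theorem a_bw (H : Box P ρ N Kd Kc v₀ B) : B + (P.k * N : ℕ) < (P.m * N : ℕ) := by
  by_contra hc
  push Not at hc
  apply H.tip
  have hk := H.k_lt'
  have h := H.fb.bw (P.m * N - P.k * N) (by omega)
  have e : ((N / 2 : ℕ) : ZMod (P.m * N)) - ((P.m * N - P.k * N : ℕ) : ZMod (P.m * N)) =
      ((P.k * N + N / 2 : ℕ) : ZMod (P.m * N)) := by
    rw [Nat.cast_sub (by omega), ZMod.natCast_self]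
    push_cast
    ring
  rw [e, H.qN_eq] at h
  rw [h]
  have hB := H.pos
  constructor
  · simp only [bb, b0, Prod.fst_add]
    rw [abs_le]
    omega
  · simp only [bb, b0, Prod.snd_add]
    rw [abs_le]
    omega

/-- Equality of indices. -/
theorem idx {M i j : ℕ} (h : (i : ZMod M) = (j : ZMod M)) (h1 : i < j + M) (h2 : j < i + M) :
    i = j := by
  rw [ZMod.natCast_eq_natCast_iff] at h
  rcases le_total i j with h3 | h3
  · obtain ⟨c, hc⟩ := (Nat.modEq_iff_dvd' h3).1 h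
    rcases Nat.eq_zero_or_pos c with h4 | h4
    · rw [h4, mul_zero] at hc
      omega
    · have : M * 1 ≤ M * c := Nat.mul_le_mul_left _ h4
      omega
  · obtain ⟨c, hc⟩ := (Nat.modEq_iff_dvd' h3).1 h.symm
    rcases Nat.eq_zero_or_pos c with h4 | h4
    · rw [h4, mul_zero] at hc
      omega
    · have : M * 1 ≤ M * c := Nat.mul_le_mul_left _ h4
      omega

/-- **The free arc in the box.** -/
theorem arcc_iff (H : Box P ρ N Kd Kc v₀ B) {s : ℤ × ℤ} (h1 : |s.1 - (bb N Kd v₀).1| ≤ B - 1)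
    (h2 : |s.2 - (bb N Kd v₀).2| ≤ B - 1) : s ∈ arcc N v₀ P ↔
      s.2 = (bb N Kd v₀).2 ∧ s.1 + ((Kc * N + N / 2 : ℕ) : ℤ) ≤ (bb N Kd v₀).1 := by
  have hk := H.k_lt'
  have ha := H.a_fw
  have ha' := H.a_bw
  have hN := H.hN0
  have hN2 : 1 ≤ N / 2 := by
    have := H.hN
    omega
  have hjN : P.j * N + Kc * N = P.m * N := by rw [← Nat.add_mul, H.hj]
  have hkj : P.k * N ≤ P.j * N := Nat.mul_le_mul_right _ (by have := H.ok.k_lt; omega)
  constructor
  · rintro ⟨i, i1, i2, rfl⟩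
    have e1 := H.qN_eq i
    simp only [bb, Prod.fst_add, Prod.snd_add] at h1 h2 ⊢
    obtain ⟨g1, g2⟩ := H.fb.on (i := (i : ZMod (P.m * N)))
      (by rw [e1]; simp only [b0]; rw [abs_le] at h1 ⊢; omega)
      (by rw [e1]; simp only [b0]; rw [abs_le] at h2 ⊢; omega)
    rw [e1] at g1 g2
    refine ⟨by simp only [b0] at g1; omega, ?_⟩
    rcases g2 with ⟨m, m1, m2, m3⟩ | ⟨m, m1, m1', m2, m3⟩
    · exfalso
      rw [← Nat.cast_add] at m3
      have h3 := idx m3 (by omega) (by omega)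
      omega
    · have h4 : ((i + m : ℕ) : ZMod (P.m * N)) = ((N / 2 + P.m * N : ℕ) : ZMod (P.m * N)) := by
        push_cast
        rw [m3]
        have e : (P.m : ZMod (P.m * N)) * (N : ZMod (P.m * N)) = 0 := by
          rw [← Nat.cast_mul, ZMod.natCast_self]
        rw [e]
        ring
      have h5 := idx h4 (by omega) (by omega)
      simp only [b0] at m2
      omega
  · rintro ⟨h3, h4⟩
    obtain ⟨m, hm⟩ : ∃ m : ℕ, (m : ℤ) = (bb N Kd v₀).1 - s.1 := by
      refine ⟨((bb N Kd v₀).1 - s.1).toNat, ?_⟩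
      omega
    rw [abs_le] at h1
    have g := H.fb.bw m (by omega)
    refine ⟨N / 2 + P.m * N - m, by omega, by omega, ?_⟩
    have e : ((N / 2 : ℕ) : ZMod (P.m * N)) - (m : ZMod (P.m * N)) =
        ((N / 2 + P.m * N - m : ℕ) : ZMod (P.m * N)) := by
      rw [Nat.cast_sub (by omega), Nat.cast_add, ZMod.natCast_self]
      ring
    rw [e, H.qN_eq] at g
    rw [g]
    simp only [bb] at hm h3
    refine Prod.ext ?_ ?_
    · simp only [b0, Prod.fst_add]
      omega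
    · simp only [b0, Prod.snd_add]
      omega

theorem PN_rot (hN : 0 < N) (i : ℕ) : Enl.PN (rot P) N i = Enl.PN P.q N (i + P.k * N) := by
  unfold Enl.PN
  rw [Nat.add_mul_div_right _ _ hN, Nat.add_mul_mod_self_right]
  have e : pdir (rot P) (i / N) = pdir P.q (i / N + P.k) := by
    unfold pdir rot
    push_cast
    rw [add_right_comm]
  rw [e]
  unfold rot
  push_cast
  rfl

/-- **The outside configuration in the box.** -/
theorem ext_iff (H : Box P ρ N Kd Kc v₀ B) {v : ℤ × ℤ} (h1 : |v.1 - (bb N Kd v₀).1| ≤ B - 2)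
    (h2 : |v.2 - (bb N Kd v₀).2| ≤ B - 2) (h3 : v.2 < (bb N Kd v₀).2) : ext N v₀ P v = true ↔
      v.2 = (bb N Kd v₀).2 - 1 ∧ (bb N Kd v₀).1 ≤ v.1 := by
  have hk := H.k_lt'
  have ha := H.a_fw
  have ha' := H.a_bw
  have hN := H.hN0
  have hN4 := H.hN
  have hev : Even ((Kd * N + N / 2 : ℕ) : ℤ) := by
    obtain ⟨c, hc⟩ := hN4
    have h5 : N / 2 = 2 * c := by omega
    rw [Int.even_coe_nat, h5, hc]
    exact ⟨Kd * (2 * c) + c, by ring⟩
  have hmk : (P.m - P.k) * N = P.m * N - P.k * N := Nat.sub_mul _ _ _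
  have := H.neZero
  have hq : ∀ j : ℕ, Enl.qN (rot P) N (N / 2) (j : ZMod (P.m * N)) =
      Enl.PN P.q N (j + N / 2 + P.k * N) := by
    intro j
    rw [Enl.qN_nat hN, PN_rot hN]
  have e0 : ext N v₀ P v = true ↔ v - v₀ ∈ H718.opW (enl P.S N) (Enl.qN (rot P) N (N / 2))
      ((P.m - P.k) * N) := by
    unfold ext etaW
    rw [decide_eq_true_iff]
  have keyf : ∀ (z : ℤ × ℤ) (s : Fin 4), ((face z s).1 = z.1 ∨ (face z s).1 = z.1 - 1) ∧
      ((face z s).2 = z.2 ∨ (face z s).2 = z.2 - 1) := by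
    rintro ⟨x, y⟩ s
    fin_cases s <;> simp [face] <;> omega
  rw [e0, mem_opW]
  simp only [bb] at h1 h2 h3 ⊢
  rw [abs_le] at h1 h2
  constructor
  · rintro ⟨⟨j, j1, j2, j3, r, j4⟩, -⟩
    rw [hq] at j3 j4
    have e1 := H.qN_eq (j + N / 2 + P.k * N)
    obtain ⟨k1, k2⟩ := keyf (Enl.PN P.q N (j + N / 2 + P.k * N)) r
    rw [← j4] at k1 k2
    simp only [Prod.fst_sub, Prod.snd_sub] at k1 k2
    obtain ⟨g1, g2⟩ := H.fb.on (i := ((j + N / 2 + P.k * N : ℕ) : ZMod (P.m * N)))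
      (by rw [e1]; simp only [b0]; rw [abs_le]; omega)
      (by rw [e1]; simp only [b0]; rw [abs_le]; omega)
    rw [e1] at g1 g2
    simp only [b0] at g1 g2
    refine ⟨by omega, ?_⟩
    rcases g2 with ⟨m, m1, m2, m3⟩ | ⟨m, m1, m1', m2, m3⟩
    · rw [Int.even_iff] at hev j3
      omega
    · exfalso
      have h4 : ((j + N / 2 + P.k * N + m : ℕ) : ZMod (P.m * N)) =
          ((N / 2 + P.m * N : ℕ) : ZMod (P.m * N)) := by
        rw [Nat.cast_add, m3, Nat.cast_add (N / 2) (P.m * N), ZMod.natCast_self]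
        ring
      have h5 := idx h4 (by omega) (by omega)
      omega
  · rintro ⟨g1, g2⟩
    obtain ⟨x, hx⟩ : ∃ x : ℕ, (x : ℤ) = v.1 - (v₀.1 + ((Kd * N + N / 2 : ℕ) : ℤ)) :=
      ⟨(v.1 - (v₀.1 + ((Kd * N + N / 2 : ℕ) : ℤ))).toNat, by omega⟩
    refine ⟨?_, ?_⟩
    · obtain ⟨t, ht, ht'⟩ : ∃ t : ℕ, t % 2 = 1 ∧ (t = x ∨ t = x + 1) := by
        rcases Nat.mod_two_eq_zero_or_one x with h | h
        · exact ⟨x + 1, by omega, Or.inr rfl⟩
        · exact ⟨x, h, Or.inl rfl⟩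
      have hf := H.fb.fw t (by omega)
      rw [← Nat.cast_add, H.qN_eq] at hf
      have e2 : Enl.PN P.q N (P.m * N + t - P.k * N + N / 2 + P.k * N) =
          ((b0 N Kd).1 + t, (b0 N Kd).2) := by
        have e3 : P.m * N + t - P.k * N + N / 2 + P.k * N = N / 2 + t + P.m * N := by omega
        rw [e3, Enl.PN_add_l hN, hf]
      refine ⟨P.m * N + t - P.k * N, by rw [hmk]; omega, by omega, ?_, ?_⟩
      · rw [hq, e2]
        simp only [b0]
        rw [Int.even_iff] at hev ⊢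
        omega
      · rcases ht' with ht' | ht'
        · refine ⟨3, ?_⟩
          rw [hq, e2]
          show _ = ((b0 N Kd).1 + (t : ℤ), (b0 N Kd).2) + (0, -1)
          refine Prod.ext ?_ ?_
          · simp only [b0, Prod.fst_add, Prod.fst_sub]
            omega
          · simp only [b0, Prod.snd_add, Prod.snd_sub]
            omega
        · refine ⟨2, ?_⟩
          rw [hq, e2]
          show _ = ((b0 N Kd).1 + (t : ℤ), (b0 N Kd).2) + (-1, -1)
          refine Prod.ext ?_ ?_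
          · simp only [b0, Prod.fst_add, Prod.fst_sub]
            omega
          · simp only [b0, Prod.snd_add, Prod.snd_sub]
            omega
    · intro h
      rw [← mem_dom] at h
      have := (H.flat v (by simp only [bb]; rw [abs_le]; omega)
        (by simp only [bb]; rw [abs_le]; omega)).1 h
      simp only [bb] at this
      omega

end Box

end Vale.Agent.P167.H469.Fl
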