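import Vale.Agent.P167.H469.Flb2
import Vale.Agent.P167.H713.Q.SeamD
import Vale.Agent.P167.H72.SD.Wf
import Vale.Agent.P167.E2.Om

/-!
# P167, general `q`, [FLB]: the common flat part
-/

set_option autoImplicit false

namespace Vale.Agent.P167.H469.Fl

open Set Filter Topology Metric
open Vale.Agent.P167.E6
open Vale.Agent.P167.E2 hiding ro
open Vale.Agent.P167.H72.SD (dk om Wr LB RB ComW Wf side wf_odd om_true)
open Vale.Agent.P167.H161 (zp Rd mem_Rd)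
open Vale.Agent.P167.FKA (Cor)
open Vale.Agent.P167.H718 (Dq)
open Vale.Agent.P167.H192 (ro rf rf')
open Vale.Agent.P167.H918 (Loc)
open Vale.Agent.P167.H713.Q (oR Dn NearS Sd)

variable {n : ℕ} {p : ZMod n → ℤ × ℤ} {S : Finset (ℤ × ℤ)} {k : ℕ} {A : Finset (Sym2 (ℤ × ℤ))}
  {j : ℕ} {δ : ℝ} {Bd P : Finset (ℤ × ℤ)} {ζ : Cfg} {arcP : Set (ℤ × ℤ)} {M : ℕ} {R B : ℤ} {mc : ℕ}

theorem near_site {bs s : ℤ × ℤ} {y : ℂ} (hδ : 0 < δ) (hy : y ∈ oR δ bs B)
    (hs : dist y (zp δ s) ≤ 6 * δ) : |s.1 - bs.1| ≤ B + 12 ∧ |s.2 - bs.2| ≤ B + 12 := by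
  rw [dist_eq_norm] at hs
  have h1 := (Complex.abs_re_le_norm (y - zp δ s)).trans hs
  have h2 := (Complex.abs_im_le_norm (y - zp δ s)).trans hs
  simp only [zp, Complex.sub_re, Complex.sub_im] at h1 h2
  obtain ⟨h3, h4⟩ := hy
  rw [abs_le] at h1 h2
  rw [abs_lt] at h3 h4
  push_cast at h1 h2
  constructor
  · have g1 : δ * ((s.1 - bs.1 : ℤ) : ℝ) < δ * ((B + 13 : ℤ) : ℝ) := by push_cast; linarith
    have g2 : δ * ((-(B + 13) : ℤ) : ℝ) < δ * ((s.1 - bs.1 : ℤ) : ℝ) := by push_cast; linarith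
    have g3 := Int.cast_lt.1 (lt_of_mul_lt_mul_left g1 hδ.le)
    have g4 := Int.cast_lt.1 (lt_of_mul_lt_mul_left g2 hδ.le)
    rw [abs_le]
    omega
  · have g1 : δ * ((s.2 - bs.2 : ℤ) : ℝ) < δ * ((B + 13 : ℤ) : ℝ) := by push_cast; linarith
    have g2 : δ * ((-(B + 13) : ℤ) : ℝ) < δ * ((s.2 - bs.2 : ℤ) : ℝ) := by push_cast; linarith
    have g3 := Int.cast_lt.1 (lt_of_mul_lt_mul_left g1 hδ.le)
    have g4 := Int.cast_lt.1 (lt_of_mul_lt_mul_left g2 hδ.le)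
    rw [abs_le]
    omega

/-- The faces around a vertex in the coordinates of the squares. -/
theorem rf_face (v : ℤ × ℤ) (r : Fin 4) : rf (face v r) = ((ro v).1, (ro v).2 + 1) ∨
    rf (face v r) = ((ro v).1 - 1, (ro v).2) ∨ rf (face v r) = ((ro v).1, (ro v).2 - 1) ∨
    rf (face v r) = ((ro v).1 + 1, (ro v).2) := by
  obtain ⟨x, y⟩ := v
  fin_cases r <;> simp [face, rf, ro, Prod.ext_iff] <;> omega

theorem rf_face2 (v : ℤ × ℤ) : rf (face v 2) = ((ro v).1, (ro v).2 - 1) := by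
  obtain ⟨x, y⟩ := v
  simp [face, rf, ro, Prod.ext_iff]
  omega

/-- The boundary edge of an outer face which touches a square of `Dq`. -/
theorem out_edge' (hp : IsPolygon p) (hS : Encloses p S) {s x : ℤ × ℤ}
    (hs : (s.1 + s.2) % 2 = 1) (hx : x ∈ Dq S p k) (hxs : Cor x s) (ho : rf' s ∉ S) :
    ∃ i : ZMod n, H192.ed x = s(p i, p (i + 1)) ∧ (i.val < k ∨ i.val + 1 = n) ∧
      ∃ r : Fin 4, face (p (i + 1)) r ∉ S ∧ rf (face (p (i + 1)) r) = s := by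
  have hn : NeZero n := ⟨by have := hp.1; omega⟩
  obtain ⟨u, r, h1, h2⟩ := side hs hxs
  have hfS : face u r ∉ S := by
    rwa [h2, H192.rf'_rf] at ho
  have hxD := (H718.mem_Dq').1 hx
  have hxE := hxD.1
  rw [h1, E2.mem_edges] at hxE
  have h3 : face u (r - 1) ∈ S := by
    rcases hxE with h3 | h3
    · exact absurd h3 hfS
    · exact h3
  obtain ⟨e1, e2⟩ := H918.face_opp u r
  obtain ⟨i, h4, h5⟩ := (hS (u + dir r) (r + 2)).2 ⟨by rw [e1]; exact h3, by rw [e2]; exact hfS⟩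
  rw [H918.dir_opp] at h5
  have hed : H192.ed x = s(p i, p (i + 1)) := by rw [h1, h4, h5, Sym2.eq_swap]
  refine ⟨i, hed, ?_, r, ?_, ?_⟩
  · by_contra h6
    push Not at h6
    refine hxD.2 (H718.mem_wE.2 ⟨i.val, h6.1, ?_, ?_⟩)
    · have := ZMod.val_lt i
      omega
    · rw [ZMod.natCast_zmod_val]
      exact hed
  · rw [h5]
    exact hfS
  · rw [h5, h2]

theorem even_b (v : ℤ × ℤ) : ((ro v).1 + (ro v).2) % 2 = 0 := Int.even_iff.1 (H192.even_ro _)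

theorem zp_le {s t : ℤ × ℤ} {m : ℤ} (hδ : 0 < δ) (h1 : |t.1 - s.1| ≤ m) (h2 : |t.2 - s.2| ≤ m) :
    ‖zp δ t - zp δ s‖ ≤ δ * m := by
  have hm : 0 ≤ m := (abs_nonneg _).trans h1
  have hm' : (0 : ℝ) ≤ m := by exact_mod_cast hm
  have e1 : ((t.1 : ℝ) - s.1) ^ 2 ≤ (m : ℝ) ^ 2 := by
    refine sq_le_sq' ?_ ?_
    · rw [abs_le] at h1; exact_mod_cast h1.1
    · rw [abs_le] at h1; exact_mod_cast h1.2
  have e2 : ((t.2 : ℝ) - s.2) ^ 2 ≤ (m : ℝ) ^ 2 := by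
    refine sq_le_sq' ?_ ?_
    · rw [abs_le] at h2; exact_mod_cast h2.1
    · rw [abs_le] at h2; exact_mod_cast h2.2
  have e3 : ‖zp δ t - zp δ s‖ ^ 2 = δ ^ 2 * ((((t.1 : ℝ) - s.1) ^ 2 + ((t.2 : ℝ) - s.2) ^ 2) / 2) := by
    rw [Complex.sq_norm, Complex.normSq_apply]
    simp only [zp, Complex.sub_re, Complex.sub_im]
    push_cast
    ring
  refine abs_le_of_sq_le_sq' ?_ (by positivity) |>.2
  rw [e3, mul_pow]
  have : (((t.1 : ℝ) - s.1) ^ 2 + ((t.2 : ℝ) - s.2) ^ 2) / 2 ≤ (m : ℝ) ^ 2 := by linarith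
  exact mul_le_mul_of_nonneg_left this (by positivity)

/-- The data in the box of radius about `B` around `b = ro (p k)`. -/
structure Dt (p : ZMod n → ℤ × ℤ) (k : ℕ) (S : Finset (ℤ × ℤ)) (A : Finset (Sym2 (ℤ × ℤ)))
    (j : ℕ) (δ : ℝ) (Bd P : Finset (ℤ × ℤ)) (ζ : Cfg) (arcP : Set (ℤ × ℤ)) (M : ℕ) (R B : ℤ)
    (mc : ℕ) : Prop where
  loc : Loc p S k M R
  hA : A ⊆ edges S
  hδ : 0 < δ
  hR : B + 18 ≤ R
  hmc : mc % 2 = 0
  hmB : (mc : ℤ) + 4 ≤ B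
  P_iff : ∀ v : ℤ × ℤ, |v.1 - (ro (p k)).1| ≤ B + 14 → |v.2 - (ro (p k)).2| ≤ B + 14 →
    (v ∈ P ↔ (ro (p k)).2 ≤ v.2)
  ζ_iff : ∀ v : ℤ × ℤ, |v.1 - (ro (p k)).1| ≤ B + 14 → |v.2 - (ro (p k)).2| ≤ B + 14 →
    v.2 < (ro (p k)).2 → (ζ v = true ↔ v.2 = (ro (p k)).2 - 1 ∧ (ro (p k)).1 ≤ v.1)
  arc_iff : ∀ s : ℤ × ℤ, |s.1 - (ro (p k)).1| ≤ B + 14 → |s.2 - (ro (p k)).2| ≤ B + 14 →
    (s ∈ arcP ↔ s.2 = (ro (p k)).2 ∧ s.1 + (mc : ℤ) ≤ (ro (p k)).1)
  rd : ∀ y ∈ Rd p k S A j, B + 14 < nm (y - ro (p k))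
  bad : ∀ y ∈ Bd, B + 14 < nm (y - ro (p k))
  lr : ∀ o, o ∈ LB p k A j ∨ o ∈ RB p k A j → B + 14 < nm (o - ro (p k))
  path : ∀ t ∈ Icc (0 : ℝ) j, (B + 14 : ℝ) * δ < dist (pl p k δ A t) ((δ : ℂ) * pt (p k))

namespace Dt

variable (H : Dt p k S A j δ Bd P ζ arcP M R B mc)

include H

theorem dq {v : ℤ × ℤ} (h1 : |v.1 - (ro (p k)).1| ≤ B + 14) (h2 : |v.2 - (ro (p k)).2| ≤ B + 14) :
    v ∈ Dq S p k ↔ (ro (p k)).2 ≤ v.2 := by
  have hR := H.hR
  exact H.loc.mem_Dq_iff (x := v.1) (y := v.2) (by omega) (by omega)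

theorem om_iff {v : ℤ × ℤ} (h1 : |v.1 - (ro (p k)).1| ≤ B + 14)
    (h2 : |v.2 - (ro (p k)).2| ≤ B + 14) (h3 : v.2 < (ro (p k)).2) :
    om p k A v = true ↔ v.2 = (ro (p k)).2 - 1 ∧ (ro (p k)).1 ≤ v.1 := by
  have hR := H.hR
  exact H.loc.cfg_iff (x := v.1) (y := v.2) (by omega) (by omega) h3 H.hA

theorem key {s : ℤ × ℤ} (h1 : |s.1 - (ro (p k)).1| ≤ B + 12) (h2 : |s.2 - (ro (p k)).2| ≤ B + 12)
    {y : ℤ × ℤ} (hy : Cor y s) : |y.1 - (ro (p k)).1| ≤ B + 14 ∧ |y.2 - (ro (p k)).2| ≤ B + 14 := by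
  have _ := H.hδ
  obtain ⟨g1, g2⟩ := hy
  rw [abs_le] at h1 h2 ⊢
  rw [abs_le]
  omega

theorem nm_key {s : ℤ × ℤ} (h1 : |s.1 - (ro (p k)).1| ≤ B + 12)
    (h2 : |s.2 - (ro (p k)).2| ≤ B + 12) {y : ℤ × ℤ} (hy : Cor y s) :
    nm (y - ro (p k)) ≤ B + 14 := by
  obtain ⟨g1, g2⟩ := H.key h1 h2 hy
  rw [H632.nm_le]
  rw [abs_le] at g1 g2
  simp only [Prod.fst_sub, Prod.snd_sub]
  omega

/-- **The two domains are the same.** -/
theorem dom_eq {s : ℤ × ℤ} (h1 : |s.1 - (ro (p k)).1| ≤ B + 12)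
    (h2 : |s.2 - (ro (p k)).2| ≤ B + 12) {y : ℤ × ℤ} (hy : Cor y s) : y ∈ P ↔ y ∈ Dq S p k := by
  obtain ⟨g1, g2⟩ := H.key h1 h2 hy
  rw [H.P_iff y g1 g2, H.dq g1 g2]

theorem out_eq {s : ℤ × ℤ} (h1 : |s.1 - (ro (p k)).1| ≤ B + 12)
    (h2 : |s.2 - (ro (p k)).2| ≤ B + 12) {y : ℤ × ℤ} (hy : Cor y s) (h : y ∉ P) :
    ζ y = om p k A y := by
  obtain ⟨g1, g2⟩ := H.key h1 h2 hy
  rw [H.P_iff y g1 g2, not_le] at h
  have e1 := H.ζ_iff y g1 g2 h
  have e2 := H.om_iff g1 g2 h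
  rw [Bool.eq_iff_iff, e1, e2]

/-- **The two domains are the same.** -/
theorem com {s : ℤ × ℤ} (h1 : |s.1 - (ro (p k)).1| ≤ B + 12) (h2 : |s.2 - (ro (p k)).2| ≤ B + 12) :
    ComW p k S A j Bd P ζ s := by
  refine ⟨⟨fun y hy h => ?_, fun y hy h => ?_, fun y hy h => (H.dom_eq h1 h2 hy).1 h⟩,
    fun y hy h _ hz => by rw [← H.out_eq h1 h2 hy h]; exact hz⟩
  · have := H.rd y h
    have := H.nm_key h1 h2 hy
    omega
  · have := H.bad y h
    have := H.nm_key h1 h2 hy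
    omega

/-- The outer faces next to squares of `Dq` in the box. -/
theorem outer {s x : ℤ × ℤ} (h1 : |s.1 - (ro (p k)).1| ≤ B + 12)
    (h2 : |s.2 - (ro (p k)).2| ≤ B + 12) (hs : (s.1 + s.2) % 2 = 1) (hx : x ∈ Dq S p k)
    (hxs : Cor x s) (ho : rf' s ∉ S) : s.2 = (ro (p k)).2 ∧ s.1 < (ro (p k)).1 := by
  have hR := H.hR
  have hx1 : |x.1 - (ro (p k)).1| ≤ B + 14 := by
    obtain ⟨g1, g2⟩ := hxs
    rw [abs_le] at h1 ⊢
    omega
  have hx2 : |x.2 - (ro (p k)).2| ≤ B + 14 := by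
    obtain ⟨g1, g2⟩ := hxs
    rw [abs_le] at h2 ⊢
    omega
  have hx3 := (H.dq hx1 hx2).1 hx
  obtain ⟨g1, g2⟩ := hxs
  rw [H.loc.face_iff (by rw [Int.even_iff]; omega) (by omega) (by omega)] at ho
  split_ifs at ho with h4
  · omega
  · omega

theorem flo {s x x' : ℤ × ℤ} (h1 : |s.1 - (ro (p k)).1| ≤ B + 12)
    (h2 : |s.2 - (ro (p k)).2| ≤ B + 12) (hs : (s.1 + s.2) % 2 = 1) (ho : rf' s ∉ S)
    (hx : x ∈ Dq S p k) (hx' : x' ∈ Dq S p k) (hxs : Cor x s) (hxs' : Cor x' s) :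
    ∃ s' : ℤ × ℤ, (s'.1 + s'.2) % 2 = 0 ∧ Cor x s' ∧ Cor x' s' := by
  obtain ⟨g1, g2⟩ := H.outer h1 h2 hs hx hxs ho
  have key : ∀ y : ℤ × ℤ, y ∈ Dq S p k → Cor y s → y.2 = s.2 ∧ (y.1 = s.1 ∨ y.1 = s.1 - 1) := by
    rintro y hy ⟨c1, c2⟩
    have := (H.dq (v := y) (by rw [abs_le] at h1 ⊢; omega) (by rw [abs_le] at h2 ⊢; omega)).1 hy
    omega
  have k1 := key x hx hxs
  have k2 := key x' hx' hxs'
  refine ⟨(s.1, s.2 + 1), by dsimp only; omega, ⟨?_, ?_⟩, ⟨?_, ?_⟩⟩ <;> dsimp only <;> omega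

/-- **The target arcs are the same.** -/
theorem fw {s x : ℤ × ℤ} (h1 : |s.1 - (ro (p k)).1| ≤ B + 12)
    (h2 : |s.2 - (ro (p k)).2| ≤ B + 12) (hs : (s.1 + s.2) % 2 = 1) (hx : x ∈ Dq S p k)
    (hxs : Cor x s) : s ∈ Wf p S (k - (mc + 1)) ↔ s ∈ arcP := by
  have hb := even_b (p k)
  have hR := H.hR
  have hmc := H.hmc
  have hmB := H.hmB
  have hk1 := H.loc.hk1
  have hRM := H.loc.hR
  have := H.loc.neZero
  rw [H.arc_iff s (by omega) (by omega)]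
  constructor
  · intro hW
    have ho : rf' s ∉ S := by
      obtain ⟨i, r, -, i2, i3⟩ := hW
      rwa [← i3, H192.rf'_rf]
    obtain ⟨g1, g2⟩ := H.outer h1 h2 hs hx hxs ho
    refine ⟨g1, ?_⟩
    obtain ⟨i, r, i1, i2, i3⟩ := hW
    have hf := rf_face (p (i : ZMod n)) r
    rw [i3] at hf
    have hn1 : |(ro (p (i : ZMod n))).1 - (ro (p k)).1| ≤ B + 13 := by
      rw [abs_le] at h1 ⊢
      rcases hf with hf | hf | hf | hf <;> rw [Prod.ext_iff] at hf <;> dsimp only at hf <;> omega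
    have hn2 : |(ro (p (i : ZMod n))).2 - (ro (p k)).2| ≤ B + 13 := by
      rw [abs_le] at h2 ⊢
      rcases hf with hf | hf | hf | hf <;> rw [Prod.ext_iff] at hf <;> dsimp only at hf <;> omega
    obtain ⟨i4, i5⟩ := H.loc.near i (by have := H.loc.hk2; omega) (by omega) (by omega)
    obtain ⟨m, hm⟩ : ∃ m : ℕ, k = i + m := ⟨k - i, by omega⟩
    have e : (i : ZMod n) = (k : ZMod n) - m := by
      rw [hm]; push_cast; ring
    have h5 := H.loc.pos_bw m (by omega)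
    rw [← e] at h5
    rw [h5] at hf
    by_cases hev : Even m
    · rw [if_pos hev] at hf
      rw [Nat.even_iff] at hev
      rcases hf with hf | hf | hf | hf <;> rw [Prod.ext_iff] at hf <;> dsimp only at hf <;> omega
    · rw [if_neg hev] at hf
      rw [Nat.even_iff] at hev
      rcases hf with hf | hf | hf | hf <;> rw [Prod.ext_iff] at hf <;> dsimp only at hf <;> omega
  · rintro ⟨g1, g2⟩
    obtain ⟨m, hm⟩ : ∃ m : ℕ, (m : ℤ) = (ro (p k)).1 - s.1 :=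
      ⟨((ro (p k)).1 - s.1).toNat, by omega⟩
    rw [abs_le] at h1
    have hodd : ¬ Even m := by
      rw [Nat.even_iff]
      omega
    have h5 := H.loc.pos_bw m (by omega)
    rw [if_neg hodd] at h5
    rw [Nat.even_iff] at hodd
    have e : ((k - m : ℕ) : ZMod n) = (k : ZMod n) - m := by
      rw [Nat.cast_sub (by omega)]
    have h6 : rf (face (p ((k - m : ℕ) : ZMod n)) 2) = s := by
      rw [rf_face2, e, h5]
      refine Prod.ext ?_ ?_
      · dsimp only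
        omega
      · dsimp only
        omega
    refine ⟨k - m, 2, by omega, ?_, h6⟩
    intro hS
    have h7 : rf' s ∈ S := by rw [← h6, H192.rf'_rf]; exact hS
    rw [H.loc.face_iff (by rw [Int.even_iff]; omega) (by rw [← le_sub_iff_add_le, abs_le]; omega)
      (by omega)] at h7
    rw [if_neg (by omega)] at h7
    omega

/-- Points above the line are in the continuum domain. -/
theorem mem_dn {t : ℤ × ℤ} (ht : (t.1 + t.2) % 2 = 1) (h1 : |t.1 - (ro (p k)).1| ≤ B + 12)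
    (h2 : (ro (p k)).2 < t.2) (h3 : t.2 ≤ (ro (p k)).2 + B + 12) : zp δ t ∈ Dn p k S A j δ := by
  have hδ := H.hδ
  have hR := H.hR
  have hB : 0 ≤ B := by have := H.hmB; omega
  have hf : rf' t ∈ S := by
    rw [H.loc.face_iff (by rw [Int.even_iff]; omega) (by omega) (by
      rw [← le_sub_iff_add_le, abs_le]; omega)]
    split_ifs <;> omega
  constructor
  · refine ⟨zp δ t, ?_, by simpa using by positivity, by simpa using by positivity⟩
    refine ⟨rf' t, hf, ?_⟩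
    have e1 : (t.1 + t.2 - 1) / 2 * 2 = t.1 + t.2 - 1 := by omega
    have e2 : (t.2 - t.1 - 1) / 2 * 2 = t.2 - t.1 - 1 := by omega
    have r1 : (((t.1 + t.2 - 1) / 2 : ℤ) : ℝ) * 2 = (t.1 + t.2 - 1 : ℝ) := by exact_mod_cast e1
    have r2 : (((t.2 - t.1 - 1) / 2 : ℤ) : ℝ) * 2 = (t.2 - t.1 - 1 : ℝ) := by exact_mod_cast e2
    simp only [zp, rf']
    push_cast
    refine ⟨?_, ?_, ?_, ?_⟩ <;> nlinarith
  · rintro ⟨τ, hτ, h⟩
    have h4 := H.path τ hτ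
    rw [h, ← H161.zp_ro, dist_eq_norm] at h4
    have h5 := zp_le (δ := δ) hδ (s := ro (p k)) (t := t) (m := B + 12) h1 (by rw [abs_le]; omega)
    push_cast at h5
    nlinarith

theorem far {y : ℂ} (hy : y ∈ oR δ (ro (p k)) B) {o : ℤ × ℤ}
    (ho : o ∈ LB p k A j ∨ o ∈ RB p k A j) : 6 * δ < dist y (zp δ o) := by
  by_contra hc
  push Not at hc
  obtain ⟨h1, h2⟩ := near_site H.hδ hy hc
  have h3 := H.lr o ho
  have h4 : nm (o - ro (p k)) ≤ B + 12 := by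
    rw [H632.nm_le]
    rw [abs_le] at h1 h2
    simp only [Prod.fst_sub, Prod.snd_sub]
    omega
  omega

theorem flp {s x' : ℤ × ℤ} (h1 : |s.1 - (ro (p k)).1| ≤ B + 12)
    (h2 : |s.2 - (ro (p k)).2| ≤ B + 12) (hx' : x' ∈ Dq S p k) (hxs' : Cor x' s) : x' ∈ P :=
  (H.dom_eq h1 h2 hxs').2 hx'

theorem wpf {s v : ℤ × ℤ} (h1 : |s.1 - (ro (p k)).1| ≤ B + 12)
    (h2 : |s.2 - (ro (p k)).2| ≤ B + 12) (hs : (s.1 + s.2) % 2 = 0) (hv : v ∉ Dq S p k)
    (ho : om p k A v = true) (hvs : Cor v s) : s ∈ Wr P ζ := by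
  have h3 : v ∉ P := fun h => hv ((H.dom_eq h1 h2 hvs).1 h)
  exact ⟨Int.even_iff.2 hs, v, h3, by rw [H.out_eq h1 h2 hvs h3]; exact ho, hvs⟩

/-- **The outer faces are in the target or near the flat part.** -/
theorem wfl {s x : ℤ × ℤ} (hx : x ∈ Dq S p k) (hs : (s.1 + s.2) % 2 = 1) (hxs : Cor x s)
    (ho : rf' s ∉ S) : s ∈ Wf p S (k - (mc + 1)) ∨
      ∃ y ∈ Dn p k S A j δ ∩ oR δ (ro (p k)) B, dist y (zp δ s) ≤ 6 * δ := by
  have hb := even_b (p k)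
  have hδ := H.hδ
  have hR := H.hR
  have hmc := H.hmc
  have hmB := H.hmB
  have hk1 := H.loc.hk1
  have hRM := H.loc.hR
  have := H.loc.neZero
  obtain ⟨i, -, h1, r, h2, h3⟩ := out_edge' H.loc.poly H.loc.enc hs hx hxs ho
  rcases h1 with h1 | h1
  · by_cases h4 : i.val + 1 ≤ k - (mc + 1)
    · left
      refine ⟨i.val + 1, r, h4, ?_, ?_⟩
      · push_cast
        rw [ZMod.natCast_zmod_val]
        exact h2
      · push_cast
        rw [ZMod.natCast_zmod_val]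
        exact h3
    · right
      obtain ⟨m, hm⟩ : ∃ m : ℕ, k = i.val + 1 + m := ⟨k - (i.val + 1), by omega⟩
      have e : i + 1 = (k : ZMod n) - m := by
        rw [hm]
        push_cast
        rw [ZMod.natCast_zmod_val]
        ring
      have h5 := H.loc.pos_bw m (by omega)
      rw [← e] at h5
      have hf := rf_face (p (i + 1)) r
      rw [h3, h5] at hf
      have hf1 : |s.1 - (ro (p k)).1| ≤ mc + 2 := by
        rw [abs_le]
        by_cases hev : Even m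
        · rw [if_pos hev] at hf
          rcases hf with hf | hf | hf | hf <;> rw [Prod.ext_iff] at hf <;> dsimp only at hf <;> omega
        · rw [if_neg hev] at hf
          rcases hf with hf | hf | hf | hf <;> rw [Prod.ext_iff] at hf <;> dsimp only at hf <;> omega
      have hf2 : |s.2 - (ro (p k)).2| ≤ 3 := by
        rw [abs_le]
        by_cases hev : Even m
        · rw [if_pos hev] at hf
          rcases hf with hf | hf | hf | hf <;> rw [Prod.ext_iff] at hf <;> dsimp only at hf <;> omega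
        · rw [if_neg hev] at hf
          rcases hf with hf | hf | hf | hf <;> rw [Prod.ext_iff] at hf <;> dsimp only at hf <;> omega
      obtain ⟨g1, g2⟩ := H.outer (s := s) (x := x) (by omega) (by omega) hs hx hxs ho
      refine ⟨zp δ (s.1, s.2 + 2), ⟨H.mem_dn ?_ ?_ ?_ ?_, ?_, ?_⟩, ?_⟩
      · dsimp only
        omega
      · dsimp only
        omega
      · dsimp only
        omega
      · dsimp only
        omega
      · have e1 : (zp δ (s.1, s.2 + 2)).re - (zp δ (s.1, s.2 + 2)).im = δ * (s.1 : ℝ) := by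
          simp only [zp]
          push_cast
          ring
        rw [e1, ← mul_sub, abs_mul, abs_of_pos hδ]
        refine mul_lt_mul_of_pos_left ?_ hδ
        have : |s.1 - (ro (p k)).1| < B := by omega
        exact_mod_cast this
      · have e1 : (zp δ (s.1, s.2 + 2)).re + (zp δ (s.1, s.2 + 2)).im = δ * ((s.2 + 2 : ℤ) : ℝ) := by
          simp only [zp]
          push_cast
          ring
        rw [e1, ← mul_sub, abs_mul, abs_of_pos hδ]
        refine mul_lt_mul_of_pos_left ?_ hδ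
        have : |s.2 + 2 - (ro (p k)).2| < B := by
          rw [abs_lt]
          omega
        exact_mod_cast this
      · rw [dist_eq_norm]
        have := zp_le (s := s) (t := (s.1, s.2 + 2)) (m := 2) hδ (by simp) (by simp)
        push_cast at this
        nlinarith
  · left
    refine ⟨0, r, Nat.zero_le _, ?_, ?_⟩
    · have e : i + 1 = ((0 : ℕ) : ZMod n) := by
        have : ((i.val + 1 : ℕ) : ZMod n) = ((n : ℕ) : ZMod n) := by rw [h1]
        push_cast at this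
        rw [ZMod.natCast_zmod_val, ZMod.natCast_self] at this
        rw [this, Nat.cast_zero]
      rw [← e]
      exact h2
    · have e : i + 1 = ((0 : ℕ) : ZMod n) := by
        have : ((i.val + 1 : ℕ) : ZMod n) = ((n : ℕ) : ZMod n) := by rw [h1]
        push_cast at this
        rw [ZMod.natCast_zmod_val, ZMod.natCast_self] at this
        rw [this, Nat.cast_zero]
      rw [← e]
      exact h3

omit H in
theorem wout {K : ℕ} {s : ℤ × ℤ} (hs : s ∈ Wf p S K) : rf' s ∉ S := by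
  obtain ⟨i, r, -, h1, h2⟩ := hs
  rwa [← h2, H192.rf'_rf]

end Dt

end Vale.Agent.P167.H469.Fl
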