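import Vale.Agent.P167.H704.Shp.Cx
import Vale.Agent.P167.H506.SHP.Dom
import Vale.Agent.P167.H469.Flb4

/-!
# P167, general `q`, [FLB]: the shape near the target

* `top_off` : the top of the crosscut is not in the box of radius `rf`;
* `e'_off` : the mark is not in the box of radius `3 rf / 4`;
* `dom_flat` : the squares of the shape near the target;
* `box` : the shape has a flat box around the target.
-/

set_option autoImplicit false

namespace Vale.Agent.P167.H469.Fl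

open Set Filter Topology Metric
open Vale.Agent.P153.R2.R1 (Conf dinv)
open Vale.Agent.P153.R2.L1 (HH)
open Vale.Agent.P164 (loewnerDomain)
open Vale.Agent.P167.E6 (pt dir)
open Vale.Agent.P167.QT
open Vale.Agent.P167.H192 (ro)
open Vale.Agent.P167.H411 (exn Set6)
open Vale.Agent.P167.H756 (FD)
open Vale.Agent.P167.H446.G
open Vale.Agent.P167.SG (Bf Sat Ug re_of_far bf_mono)
open Vale.Agent.P167.H450.Out (Pm bf_dist)
open Vale.Agent.P167.H632G (ShD tau)
open Vale.Agent.P167.H704.Shp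
open Vale.Agent.P167.H713.Q (Io)
open Vale.Agent.P167.H506.SHP (PmU rot_re rot_im p1 p2)

section

variable {ι : Type} {T R x3 xB τ κ x' xc ε η e ν X1 X3 : ℝ} {ψ : ℂ → ℂ} {W : ℝ → ℝ}
    {t σ xb rf cg δ r₀ ρ r' ℓ s₂ : ℝ} {Gt IN : Set ℂ} {x₁ tp : ℂ} {K : ι → Set ℂ}

/-- **The top of the crosscut is not in the box of radius `rf`.** -/
theorem top_off (H : Sat T R x3 xB τ κ x' xc ε η e ν X1 X3 ψ W t σ xb rf cg δ r₀ ρ r' ℓ s₂ Gt IN x₁ tp K)
    (hX1 : 2 ≤ X1) {s : ℝ} (hs0 : 0 < s) (hs1 : s < 1) :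
    FD ψ W t ((-1 + s : ℝ) : ℂ) ∉ Bf xb rf := by
  intro hcon
  have htopb : (((-1 + s : ℝ)) : ℂ) ∈ ball (0 : ℂ) 1 := by
    rw [mem_ball_zero_iff, Complex.norm_real, Real.norm_eq_abs, abs_of_neg (by linarith)]
    linarith
  have h2 : FD ψ W t ((-1 + s : ℝ) : ℂ) ∈ ψ '' loewnerDomain W t := by
    rw [← H.img]
    exact ⟨_, htopb, rfl⟩
  obtain ⟨z, hz, hze⟩ := h2
  have hzH := Vale.Agent.P164.im_pos_of_dom H.drv.nn hz
  have h3 := re_of_far H.drv H.flt.hX1 H.h4 H.h16 le_rfl hX1 hzH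
    (H.flt.far z hzH (by rw [hze]; exact hcon))
  rw [← H.dinv_ψ hz, hze, H.conf.dinv_apply htopb, Complex.ofReal_re] at h3
  have h4 : 0 ≤ (X1 / 2 - 1) / (X1 / 2 + 1) := div_nonneg (by linarith) (by linarith)
  linarith

end

section

variable {C : Cst} {K : Kst} {δ : ℕ → ℝ} {N k : ℕ → ℕ} {p : ∀ n, ZMod (N n) → ℤ × ℤ}
  {S : ℕ → Finset (ℤ × ℤ)} {ψn : ℕ → ℂ → ℂ} {s : ℝ} {n : ℕ} {A : Finset (Sym2 (ℤ × ℤ))} {j : ℕ}
  {c : Bool} {O : Obj}

theorem two_le (hK : K.Ok C) : 2 ≤ K.X1 := by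
  have := hK.X1R
  have := hK.R0
  linarith

theorem _root_.Vale.Agent.P167.H704.Shp.Cx0.δ_pos (h : Cx0 C K δ N k p S ψn s n A j c O) :
    0 < δ n := by
  have h1 := h.sat.flt.hδ
  have h2 : (0 : ℝ) < √2 := by positivity
  unfold H446.G.dl at h1
  have h3 : 0 < δ n / √2 := by linarith
  have h4 := mul_pos h3 h2
  rwa [div_mul_cancel₀ _ h2.ne'] at h4

/-- **The mark is far from the target.** -/
theorem e'_off (hK : K.Ok C) (h : Cx C K δ N k p S ψn s n A j c O) :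
    O.e' ∉ Bf (lb s (δ n) / 2) (3 * K.rf / 4) := by
  intro hcon
  have h1 : O.sm < 1 := by
    have := h.sm2
    have := hK.b02
    linarith
  have h0 : 0 < O.sm := hK.a00.trans h.sm1
  have h2 := top_off h.sat (two_le hK) h0 h1
  have h3 := bf_dist hcon h2
  have h4 := mem_closedBall.1 (h.isMk.small h.isMk.e_mem)
  have a1 := hK.h1c
  have a2 := hK.rrc
  have a3 := hK.rcf
  have a4 := h.lb1
  have a5 := h.s2
  have a6 := hK.rc0
  linarith

/-- **The flat box of the polygon**, radius `3 rc / 4`. -/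
theorem pm_flat' (hK : K.Ok C) (h : Cx C K δ N k p S ψn s n A j c O) {z : ℂ}
    (hz : z ∈ Bf (lb s (δ n) / 2) (7 * K.rc / 8)) :
    z ∈ P1 C K δ N k p S ψn s n A j c O.Th ↔ 0 < z.im := by
  have := h.fin
  have a4 := h.lb1
  have a5 := h.s2
  have a6 := hK.rc0
  have := H397.K.finite_idx (p := p n) (k := k n) (S := S n) (A := A) (j := j) (c := c)
    (ρ := rS s (δ n)) (R := rR K.r (δ n)) h.δ_pos
  refine h.sat.pm_flat (X2 := K.X2) (rc := K.rc) ?_ ?_ hK.κ3 ?_ hK.X12 ?_ hK.xB3 h.far2 ?_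
  · have := hK.X1R
    have := hK.X13
    linarith
  · have h1 := hK.X1T
    have h2 := hK.X13
    have h3 := two_le hK
    nlinarith
  · have := hK.rcf
    linarith
  · have := hK.X12
    have := two_le hK
    linarith
  · exact bf_mono (by linarith) hz

theorem dl_lb : H446.G.dl (δ n) * H446.G.Nn s (δ n) = lb s (δ n) / 5 := by
  unfold lb
  ring

theorem bb_vd (L : ℝ) : bb (H446.G.Nn s (δ n)) (Ku L s) (vd (p n) (k n) L s (δ n)) = ro (p n (k n)) := by
  unfold bb vd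
  refine Prod.ext ?_ ?_
  · simp only [Prod.fst_sub]
    ring
  · simp only [Prod.snd_sub]
    ring

/-- The coordinates in the frame of the polygon. -/
theorem frame_re (hδ : 0 < δ n) (w : ℂ) (L : ℝ) :
    (rt * w + -((H446.G.dl (δ n) : ℂ) * pt (vd (p n) (k n) L s (δ n))) -
      tau (lb s (δ n)) (Ku L s)).re - lb s (δ n) / 2 =
      H446.G.dl (δ n) * ((w.re - w.im) / δ n - (ro (p n (k n))).1) := by
  rw [Complex.sub_re, rot_re hδ]
  have h4 : (H446.G.Nn s (δ n) / 2 : ℕ) * 2 = H446.G.Nn s (δ n) := by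
    have := Nn_dvd s (δ n)
    omega
  have h5 : (((H446.G.Nn s (δ n) / 2 : ℕ) : ℝ)) * 2 = H446.G.Nn s (δ n) := by exact_mod_cast h4
  have h6 : ((vd (p n) (k n) L s (δ n)).1 : ℝ) = (ro (p n (k n))).1 -
      ((Ku L s : ℝ) * H446.G.Nn s (δ n) + ((H446.G.Nn s (δ n) / 2 : ℕ) : ℝ)) := by
    unfold vd
    simp only [Prod.fst_sub]
    rw [Int.cast_sub, Int.cast_natCast, Nat.cast_add, Nat.cast_mul]
  have h7 : (tau (lb s (δ n)) (Ku L s)).re = ((Ku L s : ℝ) - 2) * (lb s (δ n) / 5) := by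
    unfold tau
    exact Complex.ofReal_re _
  rw [h6, h7]
  unfold lb
  rw [← h5]
  ring

theorem frame_im (hδ : 0 < δ n) (w : ℂ) (L : ℝ) :
    (rt * w + -((H446.G.dl (δ n) : ℂ) * pt (vd (p n) (k n) L s (δ n))) -
      tau (lb s (δ n)) (Ku L s)).im =
      H446.G.dl (δ n) * ((w.re + w.im) / δ n - (ro (p n (k n))).2) := by
  rw [Complex.sub_im, rot_im hδ]
  have h6 : (vd (p n) (k n) L s (δ n)).2 = (ro (p n (k n))).2 := by
    unfold vd
    simp only [Prod.snd_sub]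
    ring
  have h7 : (tau (lb s (δ n)) (Ku L s)).im = 0 := by
    unfold tau
    exact Complex.ofReal_im _
  rw [h6, h7]
  ring

/-- **The squares of the shape near the target.** -/
theorem dom_flat (hK : K.Ok C) (h : Cx C K δ N k p S ψn s n A j c O) {v : ℤ × ℤ}
    (h1 : H446.G.dl (δ n) * (|((v.1 : ℝ)) - (ro (p n (k n))).1| + 1) < 7 * K.rc / 8)
    (h2 : H446.G.dl (δ n) * (|((v.2 : ℝ)) - (ro (p n (k n))).2| + 1) < 7 * K.rc / 8) :
    v ∈ dom (H446.G.Nn s (δ n)) (vd (p n) (k n) C.Ld s (δ n)) O.P ↔ (ro (p n (k n))).2 ≤ v.2 := by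
  have hδ : 0 < δ n := h.δ_pos
  have hd := dl_pos hδ
  set v₀ := vd (p n) (k n) C.Ld s (δ n) with hv₀
  set w : ℂ := ⟨δ n * (v.1 + v.2 + 1) / 2, δ n * (v.2 - v.1) / 2⟩ with hw
  have hw1 : (w.re - w.im) / δ n = v.1 + 1 / 2 := by
    rw [hw]
    field_simp
    ring
  have hw2 : (w.re + w.im) / δ n = v.2 + 1 / 2 := by
    rw [hw]
    field_simp
    ring
  have hwI : w ∈ Io (δ n) v := by
    rw [div_eq_iff hδ.ne'] at hw1 hw2
    refine ⟨⟨?_, ?_⟩, ?_, ?_⟩ <;> nlinarith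
  have e1 : v ∈ dom (H446.G.Nn s (δ n)) v₀ O.P ↔ w ∈ PmU (δ n) v₀ (H446.G.Nn s (δ n)) O.P := by
    constructor
    · intro hv
      exact p1 hδ v hv hwI
    · intro hv
      by_contra hcon
      exact Set.disjoint_left.1 (p2 hδ v hcon) hwI hv
  set z : ℂ := rt * w + -((H446.G.dl (δ n) : ℂ) * pt v₀) - tau (lb s (δ n)) (Ku C.Ld s) with hz
  have hre := frame_re (p := p) (k := k) (s := s) hδ w C.Ld
  have him := frame_im (p := p) (k := k) (s := s) hδ w C.Ld
  rw [← hv₀, ← hz, hw1] at hre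
  rw [← hv₀, ← hz, hw2] at him
  have hzB : z ∈ Bf (lb s (δ n) / 2) (7 * K.rc / 8) := by
    constructor
    · rw [hre, abs_mul, abs_of_pos hd]
      refine lt_of_le_of_lt (mul_le_mul_of_nonneg_left ?_ hd.le) h1
      have := abs_add_le ((v.1 : ℝ) - (ro (p n (k n))).1) (1 / 2)
      rw [abs_of_pos (show (0 : ℝ) < 1 / 2 by norm_num)] at this
      have e : (v.1 : ℝ) + 1 / 2 - (ro (p n (k n))).1 = (v.1 : ℝ) - (ro (p n (k n))).1 + 1 / 2 := by
        ring
      rw [e]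
      linarith
    · rw [him, abs_mul, abs_of_pos hd]
      refine lt_of_le_of_lt (mul_le_mul_of_nonneg_left ?_ hd.le) h2
      have := abs_add_le ((v.2 : ℝ) - (ro (p n (k n))).2) (1 / 2)
      rw [abs_of_pos (show (0 : ℝ) < 1 / 2 by norm_num)] at this
      have e : (v.2 : ℝ) + 1 / 2 - (ro (p n (k n))).2 = (v.2 : ℝ) - (ro (p n (k n))).2 + 1 / 2 := by
        ring
      rw [e]
      linarith
  have e2 : w ∈ PmU (δ n) v₀ (H446.G.Nn s (δ n)) O.P ↔
      z ∈ P1 C K δ N k p S ψn s n A j c O.Th := by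
    have e3 : w ∈ PmU (δ n) v₀ (H446.G.Nn s (δ n)) O.P ↔
        z + tau (lb s (δ n)) (Ku C.Ld s) ∈ emb (lb s (δ n) / 5) O.P := by
      rw [hz, sub_add_cancel]
      unfold PmU
      rw [mem_ofPred_eq, dl_lb]
    rw [e3]
    constructor
    · intro h3
      rcases h.shd.sup' h3 with h4 | h4
      · exact h4
      · exfalso
        have h5 := h.shd.gf h4
        have h6 := bf_dist hzB (e'_off hK h)
        have a4 := h.lb1
        have a5 := h.s2
        have a3 := hK.rcf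
        have a6 := hK.rc0
        linarith
    · exact h.shd.sub
  rw [e1, e2, pm_flat' hK h hzB, him]
  constructor
  · intro h3
    have h4 := (mul_pos_iff_of_pos_left hd).1 h3
    by_contra hcon
    push Not at hcon
    have h5 : (v.2 : ℝ) + 1 ≤ (ro (p n (k n))).2 := by exact_mod_cast hcon
    linarith
  · intro h3
    have h5 : ((ro (p n (k n))).2 : ℝ) ≤ v.2 := by exact_mod_cast h3
    exact mul_pos hd (by linarith)

end

end Vale.Agent.P167.H469.Fl
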