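import Vale.Agent.P167.H469.Flb5
import Vale.Agent.P167.H825.B4.Main
import Vale.Agent.P167.H446.G.Lit

/-!
# P167, general `q`, [FLB]: the small box, final form
-/

set_option autoImplicit false

namespace Vale.Agent.P167.H469.Fl

open Set Filter Topology Metric
open Vale.Agent.P153.R2.R1 (Conf dinv)
open Vale.Agent.P153.R2.L1 (HH)
open Vale.Agent.P164 (loewnerDomain)
open Vale.Agent.P167.E6 (pt dir edges)
open Vale.Agent.P167.E2 (run pl)
open Vale.Agent.P167.QT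
open Vale.Agent.P167.H192 (ro rf')
open Vale.Agent.P167.H411 (exn Set6)
open Vale.Agent.P167.H756 (FD)
open Vale.Agent.P167.H446.G
open Vale.Agent.P167.SG (Bf Sat Ug re_of_far bf_mono)
open Vale.Agent.P167.H450.Out (Pm bf_dist)
open Vale.Agent.P167.H632G (ShD tau)
open Vale.Agent.P167.H704.Shp
open Vale.Agent.P167.H713.Q (Io oR Dn)
open Vale.Agent.P167.H506.SHP (PmU rot_re rot_im p1 p2 zp_sub zp_add)
open Vale.Agent.P167.H161 (zp Rd)
open Vale.Agent.P167.H72.SD (LB RB Wr Wf)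
open Vale.Agent.P167.FKA (Cor)
open Vale.Agent.P167.H718 (Dq)
open Vale.Agent.P167.H918 (Loc)

section

variable {C : Cst} {K : Kst} {δ : ℕ → ℝ} {N k : ℕ → ℕ} {p : ∀ n, ZMod (N n) → ℤ × ℤ}
  {S : ℕ → Finset (ℤ × ℤ)} {ψn : ℕ → ℂ → ℂ} {s : ℝ} {n : ℕ} {A : Finset (Sym2 (ℤ × ℤ))} {j : ℕ}
  {c : Bool} {O : Obj}

theorem Nn_pos (hδ : 0 < δ n) (h : 40 * δ n < s) : 0 < H446.G.Nn s (δ n) := by
  have hd := dl_pos hδ
  have h1 := lt_Nn (s := s) hδ
  have h2 : H446.G.dl (δ n) ≤ δ n := by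
    unfold H446.G.dl
    refine div_le_self hδ.le ?_
    rw [Real.one_le_sqrt]
    norm_num
  by_contra hcon
  have h3 : H446.G.Nn s (δ n) = 0 := by omega
  rw [h3] at h1
  simp only [Nat.cast_zero, mul_zero] at h1
  linarith

/-- The tip of the shape. -/
theorem tip_eq (h : Cx C K δ N k p S ψn s n A j c O) :
    rt * zp (δ n) (Enl.PN O.P.q (H446.G.Nn s (δ n)) (O.P.k * H446.G.Nn s (δ n) + H446.G.Nn s (δ n) / 2) +
      vd (p n) (k n) C.Ld s (δ n)) + -((H446.G.dl (δ n) : ℂ) * pt (vd (p n) (k n) C.Ld s (δ n))) =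
      ea (lb s (δ n) / 5) O.P := by
  have hδ := h.δ_pos
  have hN := Nn_pos hδ h.δ1
  have h4 : (H446.G.Nn s (δ n) / 2 : ℕ) * 2 = H446.G.Nn s (δ n) := by
    have := Nn_dvd s (δ n)
    omega
  have h5 : (((H446.G.Nn s (δ n) / 2 : ℕ) : ℝ)) * 2 = H446.G.Nn s (δ n) := by exact_mod_cast h4
  have hdir : dir (H825.pdir O.P.q O.P.k) = (1, 0) := by
    have h1 := Enl.pdir_step h.shd.polyP O.P.k
    rw [h.shd.tipP] at h1
    exact (add_left_cancel h1).symm
  rw [Enl.PN_lin hN (by omega), hdir]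
  set v₀ := vd (p n) (k n) C.Ld s (δ n)
  set T : ℤ × ℤ := ((H446.G.Nn s (δ n) : ℕ) : ℤ) • O.P.q O.P.k +
    ((H446.G.Nn s (δ n) / 2 : ℕ) : ℤ) • ((1 : ℤ), (0 : ℤ)) + v₀ with hT
  have hT1 : (T.1 : ℝ) = (H446.G.Nn s (δ n) : ℝ) * (O.P.q O.P.k).1 +
      ((H446.G.Nn s (δ n) / 2 : ℕ) : ℝ) + v₀.1 := by
    rw [hT]
    simp only [Prod.fst_add, Prod.smul_fst, smul_eq_mul, mul_one]
    rw [Int.cast_add, Int.cast_add, Int.cast_mul, Int.cast_natCast, Int.cast_natCast]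
  have hT2 : (T.2 : ℝ) = (H446.G.Nn s (δ n) : ℝ) * (O.P.q O.P.k).2 + v₀.2 := by
    rw [hT]
    simp only [Prod.snd_add, Prod.smul_snd, smul_eq_mul, mul_zero, add_zero]
    rw [Int.cast_add, Int.cast_mul, Int.cast_natCast]
  rw [h.shd.ea_eq]
  apply Complex.ext
  · rw [rot_re hδ, zp_sub, mul_div_cancel_left₀ _ hδ.ne', hT1, Complex.re_ofReal_mul]
    simp only [pt, Complex.add_re]
    unfold lb
    norm_num
    rw [← h5]
    ring
  · rw [rot_im hδ, zp_add, mul_div_cancel_left₀ _ hδ.ne', hT2, Complex.im_ofReal_mul]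
    simp only [pt, Complex.add_im]
    unfold lb
    norm_num
    ring

/-- **The shape has a flat box around the target.** -/
theorem box (hK : K.Ok C) (h : Cx C K δ N k p S ψn s n A j c O) {B : ℤ} (hB : 1 ≤ B)
    (hB2 : H446.G.dl (δ n) * (B + 1) < 7 * K.rc / 8) :
    Box O.P (Ku C.m s) (H446.G.Nn s (δ n)) (Ku C.Ld s) (Ku C.Lc s)
      (vd (p n) (k n) C.Ld s (δ n)) B where
  ok := h.fam.1
  hN := Nn_dvd _ _
  hN0 := Nn_pos h.δ_pos h.δ1
  hl := h.fam.2.1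
  hj := h.fam.2.2.1
  pos := hB
  flat := by
    rw [bb_vd]
    intro v h1 h2
    have hd := dl_pos h.δ_pos
    have g1 : |(v.1 : ℝ) - (ro (p n (k n))).1| ≤ B := by exact_mod_cast h1
    have g2 : |(v.2 : ℝ) - (ro (p n (k n))).2| ≤ B := by exact_mod_cast h2
    refine dom_flat hK h (lt_of_le_of_lt ?_ hB2) (lt_of_le_of_lt ?_ hB2)
    · exact mul_le_mul_of_nonneg_left (by linarith) hd.le
    · exact mul_le_mul_of_nonneg_left (by linarith) hd.le
  tip := by
    rw [bb_vd]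
    rintro ⟨h1, h2⟩
    have hδ := h.δ_pos
    have hd := dl_pos hδ
    have he := tip_eq h
    set T := Enl.PN O.P.q (H446.G.Nn s (δ n)) (O.P.k * H446.G.Nn s (δ n) + H446.G.Nn s (δ n) / 2) +
      vd (p n) (k n) C.Ld s (δ n)
    have hre := frame_re (p := p) (k := k) (s := s) hδ (zp (δ n) T) C.Ld
    have him := frame_im (p := p) (k := k) (s := s) hδ (zp (δ n) T) C.Ld
    rw [he, zp_sub, mul_div_cancel_left₀ _ hδ.ne'] at hre
    rw [he, zp_add, mul_div_cancel_left₀ _ hδ.ne'] at him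
    have g1 : |(T.1 : ℝ) - (ro (p n (k n))).1| ≤ B := by exact_mod_cast h1
    have g2 : |(T.2 : ℝ) - (ro (p n (k n))).2| ≤ B := by exact_mod_cast h2
    have hzB : ea (lb s (δ n) / 5) O.P - tau (lb s (δ n)) (Ku C.Ld s) ∈
        Bf (lb s (δ n) / 2) (7 * K.rc / 8) := by
      constructor
      · rw [hre, abs_mul, abs_of_pos hd]
        exact lt_of_le_of_lt (mul_le_mul_of_nonneg_left (by linarith) hd.le) hB2
      · rw [him, abs_mul, abs_of_pos hd]
        exact lt_of_le_of_lt (mul_le_mul_of_nonneg_left (by linarith) hd.le) hB2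
    have h6 := bf_dist hzB (e'_off hK h)
    have h7 := h.shd.ea_near
    have h8 : dist (ea (lb s (δ n) / 5) O.P - tau (lb s (δ n)) (Ku C.Ld s)) O.e' ≤
        3 * lb s (δ n) := by
      rw [← dist_add_right _ _ (tau (lb s (δ n)) (Ku C.Ld s)), sub_add_cancel]
      exact h7
    have a4 := h.lb1
    have a5 := h.s2
    have a3 := hK.rcf
    have a6 := hK.rc0
    linarith

end

end Vale.Agent.P167.H469.Fl
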