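import Vale.Agent.P167.H469.Flb6

/-!
# P167, general `q`, [FLB]: the small box, all histories
-/

set_option autoImplicit false

namespace Vale.Agent.P167.H469.Fl

open Set Filter Topology Metric
open Vale.Agent.P153.R2.R1 (Conf dinv)
open Vale.Agent.P153.R2.L1 (HH)
open Vale.Agent.P164 (loewnerDomain)
open Vale.Agent.P167.E6 (pt dir edges)
open Vale.Agent.P167.E2 (run pl)
open Vale.Agent.P167.QT
open Vale.Agent.P167.H192 (ro rf')
open Vale.Agent.P167.H411 (exn Set6 mem_Qc)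
open Vale.Agent.P167.H756 (FD)
open Vale.Agent.P167.H446.G
open Vale.Agent.P167.SG (Bf Sat Ug re_of_far bf_mono)
open Vale.Agent.P167.H450.Out (Pm bf_dist)
open Vale.Agent.P167.H632G (ShD tau)
open Vale.Agent.P167.H704.Shp
open Vale.Agent.P167.H713.Q (Io oR Dn)
open Vale.Agent.P167.H506.SHP (PmU rot_re rot_im p1 p2 zp_sub zp_add)
open Vale.Agent.P167.H161 (zp Rd)
open Vale.Agent.P167.H72.SD (LB RB Wr Wf)
open Vale.Agent.P167.FKA (Cor)
open Vale.Agent.P167.H718 (Dq)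
open Vale.Agent.P167.H918 (Loc)

/-- The sites of the banks are near the vertices of the path. -/
theorem ls_near (c : E6.Medial) : nm (ls (H192.me c) - ro c.1) ≤ 1 ∧
    nm (rs (H192.me c) - ro c.1) ≤ 1 := by
  obtain ⟨v, r⟩ := c
  have hev := even_b v
  have key : ∀ e : Ed, (∃ a b : ℤ, (e = Sum.inl (a, b) ∨ e = Sum.inr (a, b)) ∧
      (ro v).1 - 1 ≤ a ∧ a ≤ (ro v).1 ∧ (ro v).2 - 1 ≤ b ∧ b ≤ (ro v).2 ∧
      (e = Sum.inl (a, b) → a = (ro v).1 - 1) ∧ (e = Sum.inr (a, b) → b = (ro v).2 - 1)) →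
      nm (ls e - ro v) ≤ 1 ∧ nm (rs e - ro v) ≤ 1 := by
    rintro e ⟨a, b, h | h, h1, h2, h3, h4, h5, h6⟩
    · have h5' := h5 h
      subst h
      simp only [ls, rs]
      split_ifs <;> rw [H632.nm_le, H632.nm_le] <;> simp only [Prod.fst_sub, Prod.snd_sub] <;> omega
    · have h6' := h6 h
      subst h
      simp only [ls, rs]
      split_ifs <;> rw [H632.nm_le, H632.nm_le] <;> simp only [Prod.fst_sub, Prod.snd_sub] <;> omega
  refine key _ ?_
  unfold H192.me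
  fin_cases r
  · exact ⟨(ro v).1 - 1, (ro v).2, Or.inl (by simp), by omega, by omega, by omega, by omega,
      fun _ => rfl, fun h => by simp at h⟩
  · exact ⟨(ro v).1 - 1, (ro v).2 - 1, Or.inr (by simp), by omega, by omega, by omega, by omega,
      fun h => by simp at h, fun _ => rfl⟩
  · exact ⟨(ro v).1 - 1, (ro v).2 - 1, Or.inl (by simp), by omega, by omega, by omega, by omega,
      fun _ => rfl, fun h => by simp at h⟩
  · exact ⟨(ro v).1, (ro v).2 - 1, Or.inr (by simp), by omega, by omega, by omega, by omega,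
      fun h => by simp at h, fun _ => rfl⟩

section

variable {C : Cst} {K : Kst} {δ : ℕ → ℝ} {N k : ℕ → ℕ} {p : ∀ n, ZMod (N n) → ℤ × ℤ}
  {S : ℕ → Finset (ℤ × ℤ)} {ψn : ℕ → ℂ → ℂ} {s : ℝ} {n : ℕ} {A : Finset (Sym2 (ℤ × ℤ))} {j : ℕ}
  {c : Bool} {O : Obj}

/-- `δ = √2 dl`. -/
theorem del_le {d : ℝ} (hδ : 0 < d) : d ≤ 2 * H446.G.dl d ∧ H446.G.dl d ≤ d := by
  have e : d = √2 * H446.G.dl d := by
    unfold H446.G.dl
    field_simp
  have h2 : √2 ≤ 2 := by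
    rw [Real.sqrt_le_left (by norm_num)]
    norm_num
  have h1 : (1 : ℝ) ≤ √2 := by
    rw [Real.one_le_sqrt]
    norm_num
  have hd := dl_pos hδ
  constructor
  · rw [e]
    have : H446.G.dl (√2 * H446.G.dl d) = H446.G.dl d := by rw [← e]
    rw [this]
    exact mul_le_mul_of_nonneg_right h2 hd.le
  · have := mul_le_mul_of_nonneg_right h1 hd.le
    linarith

theorem Bs_le {rc d : ℝ} (hδ : 0 < d) : H446.G.dl d * (Bs rc d : ℝ) ≤ rc / 2 + 13 * H446.G.dl d := by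
  have hd := dl_pos hδ
  have h := (Int.ceil_lt_add_one (rc / (2 * H446.G.dl d))).le
  unfold Bs
  push_cast
  have h2 : H446.G.dl d * (rc / (2 * H446.G.dl d)) = rc / 2 := by field_simp
  nlinarith

theorem le_Bs {rc d : ℝ} (hδ : 0 < d) : rc / 2 + 12 * H446.G.dl d ≤ H446.G.dl d * (Bs rc d : ℝ) := by
  have hd := dl_pos hδ
  have h := Int.le_ceil (rc / (2 * H446.G.dl d))
  unfold Bs
  push_cast
  have h2 : H446.G.dl d * (rc / (2 * H446.G.dl d)) = rc / 2 := by field_simp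
  nlinarith

theorem mq_le {L d : ℝ} (hL : 0 ≤ L) (hs : 0 < s) (hδ : 0 < d) :
    H446.G.dl d * (mq L s d : ℝ) ≤ L + s := by
  have hdl := H446.G.dl_pos hδ
  have hN1 : H446.G.dl d * (H446.G.Nn s d : ℝ) ≤ s := H446.G.Nn_le hs hδ
  have h2 : ((H446.G.Nn s d / 2 : ℕ) : ℝ) ≤ H446.G.Nn s d := by
    exact_mod_cast Nat.div_le_self _ _
  have h3 := Ku_le hL hs
  unfold mq
  push_cast
  have h4 : (0 : ℝ) ≤ Ku L s := Nat.cast_nonneg _
  nlinarith

/-- The data of the small box. -/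
theorem dt_of (hK : K.Ok C) (h : Cx C K δ N k p S ψn s n A j c O) (hs : 0 < s) {ρb ρ m : ℝ}
    {M : ℕ} (hA : A ⊆ edges (S n)) (hρb : K.rf ≤ ρb) (hρ : K.rf ≤ ρ) (hm : K.rf ≤ m)
    (hsr : 2000 * s ≤ K.r) (hL : Loc (p n) (S n) (k n) M (⌊ρb / δ n⌋ + 2))
    (h1 : ∀ t ∈ Icc (0 : ℝ) j, ρ ≤ dist (pl (p n) (k n) (δ n) A t) ((δ n : ℂ) * pt (p n (k n))))
    (h2 : ∀ i ≤ j - 1, ρ ≤ dist ((δ n : ℂ) * pt (run (p n) (k n) A i).1)
        ((δ n : ℂ) * pt (p n (k n))))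
    (h3 : ∀ q ∈ Rd (p n) (k n) (S n) A j, ρ / δ n ≤ ((nm (q - ro (p n (k n))) : ℤ) : ℝ))
    (h4 : ∀ (a b : ℕ), (a : ℝ) / 2 + 5 ≤ b → a ≤ b → ∀ (c : Bool),
        ∀ x ∈ H713.Q.Bad (p n) (k n) (S n) A j (δ n) c a b,
          m < δ n * (((nm (x - ro (p n (k n))) : ℤ) : ℝ) + 2 * b + 1)) :
    Dt (p n) (k n) (S n) A j (δ n) (bad (p n) (k n) (S n) (δ n) K.r s A j c)
      (dom (H446.G.Nn s (δ n)) (vd (p n) (k n) C.Ld s (δ n)) O.P)
      (QT.ext (H446.G.Nn s (δ n)) (vd (p n) (k n) C.Ld s (δ n)) O.P)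
      (arcc (H446.G.Nn s (δ n)) (vd (p n) (k n) C.Ld s (δ n)) O.P) M (⌊ρb / δ n⌋ + 2)
      (Bs K.rc (δ n)) (mq C.Lc s (δ n)) := by
  have hδ := h.δ_pos
  have hd := dl_pos hδ
  obtain ⟨e1, e2⟩ := del_le hδ
  have b1 := Bs_le (rc := K.rc) hδ
  have b2 := le_Bs (rc := K.rc) hδ
  have a1 := h.δ1
  have a2 := h.s2
  have a3 := hK.rcf
  have a4 := hK.rc0
  have a5 := hK.rrc
  have a6 := hK.sm.Lc_le
  have a7 := hK.sm.m_pos
  have a8 := hK.sm.Ld_Lc
  have a9 := hK.sm.m_Ld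
  have b3 : δ n * ((Bs K.rc (δ n) : ℝ) + 18) ≤ 2 * K.rc := by
    have hB0 : 0 ≤ (Bs K.rc (δ n) : ℝ) := by
      have : 0 ≤ H446.G.dl (δ n) * (Bs K.rc (δ n) : ℝ) := by linarith
      exact (mul_nonneg_iff_of_pos_left hd).1 this
    nlinarith
  have hB1 : 1 ≤ Bs K.rc (δ n) + 16 := by
    have h5 : 0 < H446.G.dl (δ n) * (Bs K.rc (δ n) : ℝ) := by linarith
    have h6 : (0 : ℝ) < Bs K.rc (δ n) := (mul_pos_iff_of_pos_left hd).1 h5
    have h7 : 0 < Bs K.rc (δ n) := by exact_mod_cast h6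
    omega
  have hbx := box hK h (B := Bs K.rc (δ n) + 16) hB1 (by push_cast; nlinarith)
  have hbb := bb_vd (p := p) (k := k) (n := n) (s := s) (δ := δ) C.Ld
  refine
    { loc := hL
      hA := hA
      hδ := hδ
      hR := ?_
      hmc := ?_
      hmB := ?_
      P_iff := ?_
      ζ_iff := ?_
      arc_iff := ?_
      rd := ?_
      bad := ?_
      lr := ?_
      path := ?_ }
  · have : ((Bs K.rc (δ n) + 16 : ℤ) : ℝ) ≤ ρb / δ n := by
      rw [le_div_iff₀ hδ]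
      push_cast
      nlinarith
    have := Int.le_floor.2 this
    omega
  · have := Nn_dvd s (δ n)
    unfold mq
    obtain ⟨a, ha⟩ := this
    rw [ha]
    have e : 4 * a / 2 = 2 * a := by omega
    rw [e]
    have : Ku C.Lc s * (4 * a) + 2 * a = 2 * (Ku C.Lc s * (2 * a) + a) := by ring
    omega
  · have h5 := mq_le (L := C.Lc) (by linarith) hs hδ
    have h6 : H446.G.dl (δ n) * ((mq C.Lc s (δ n) : ℝ) + 4) ≤ H446.G.dl (δ n) * (Bs K.rc (δ n) : ℝ) := by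
      nlinarith
    have h7 := le_of_mul_le_mul_left h6 hd
    exact_mod_cast h7
  · intro v g1 g2
    have := hbx.flat v (by rw [hbb]; omega) (by rw [hbb]; omega)
    rwa [hbb] at this
  · intro v g1 g2 g3
    have := hbx.ext_iff (v := v) (by rw [hbb]; omega) (by rw [hbb]; omega) (by rwa [hbb])
    rwa [hbb] at this
  · intro v g1 g2
    have := hbx.arcc_iff (s := v) (by rw [hbb]; omega) (by rw [hbb]; omega)
    rwa [hbb] at this
  · intro y hy
    have h5 := h3 y hy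
    rw [div_le_iff₀ hδ] at h5
    have h6 : ((Bs K.rc (δ n) : ℝ) + 14) * δ n < ((nm (y - ro (p n (k n))) : ℤ) : ℝ) * δ n := by
      nlinarith
    have h7 := lt_of_mul_lt_mul_right h6 hδ.le
    exact_mod_cast h7
  · intro y hy
    have g1 : ((rS s (δ n) : ℕ) : ℝ) ≤ 800 * s / δ n + 8 := by
      unfold rS
      push_cast
      have := (Nat.ceil_lt_add_one (show 0 ≤ 100 * s / δ n by positivity)).le
      have e : 800 * s / δ n = 8 * (100 * s / δ n) := by ring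
      linarith
    have g2 : K.r / δ n - 1 < ((rR K.r (δ n) : ℕ) : ℝ) := by
      have := Nat.lt_floor_add_one (K.r / δ n)
      unfold rR
      linarith
    have g3 : ((rR K.r (δ n) : ℕ) : ℝ) * δ n ≤ K.r := by
      have := Nat.floor_le (show 0 ≤ K.r / δ n by have := hK.r0; positivity)
      rwa [le_div_iff₀ hδ] at this
    have g4 : 800 * s / δ n + 11 ≤ K.r / δ n := by
      rw [← sub_nonneg]
      have e : K.r / δ n - (800 * s / δ n + 11) = (K.r - 800 * s - 11 * δ n) / δ n := by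
        field_simp
        ring
      rw [e]
      exact div_nonneg (by linarith) hδ.le
    have g5 := h4 (rS s (δ n)) (rR K.r (δ n)) (by
      have : (0 : ℝ) ≤ 800 * s / δ n := by positivity
      linarith) (by
      have : ((rS s (δ n) : ℕ) : ℝ) < ((rR K.r (δ n) : ℕ) : ℝ) := by linarith
      have : rS s (δ n) < rR K.r (δ n) := by exact_mod_cast this
      omega) c y hy
    have h6 : ((Bs K.rc (δ n) : ℝ) + 14) * δ n < ((nm (y - ro (p n (k n))) : ℤ) : ℝ) * δ n := by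
      nlinarith
    have h7 := lt_of_mul_lt_mul_right h6 hδ.le
    exact_mod_cast h7
  · intro o ho
    have key : ∃ i ≤ j - 1, nm (o - ro (run (p n) (k n) A i).1) ≤ 1 := by
      rcases ho with ⟨i, hi, rfl⟩ | ⟨i, hi, rfl⟩
      · exact ⟨i, hi, (ls_near _).1⟩
      · exact ⟨i, hi, (ls_near _).2⟩
    obtain ⟨i, hi, ho'⟩ := key
    have h5 := h2 i hi
    rw [dist_eq_norm, ← mul_sub, norm_mul, Complex.norm_real, Real.norm_of_nonneg hδ.le,
      ← dist_eq_norm] at h5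
    have h6 := H825.G.dist_pt_le (run (p n) (k n) A i).1 (p n (k n))
    have h7 := Enl.nm_tri (ro (run (p n) (k n) A i).1) o (ro (p n (k n)))
    have h8 := Enl.nm_sub_comm o (ro (run (p n) (k n) A i).1)
    have h9 : ((nm (ro (run (p n) (k n) A i).1 - ro (p n (k n))) : ℤ) : ℝ) ≤
        1 + ((nm (o - ro (p n (k n))) : ℤ) : ℝ) := by
      have : nm (ro (run (p n) (k n) A i).1 - ro (p n (k n))) ≤ 1 + nm (o - ro (p n (k n))) := by
        omega
      exact_mod_cast this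
    have h10 : ((Bs K.rc (δ n) : ℝ) + 14) * δ n < ((nm (o - ro (p n (k n))) : ℤ) : ℝ) * δ n := by
      nlinarith
    have h11 := lt_of_mul_lt_mul_right h10 hδ.le
    exact_mod_cast h11
  · intro t ht
    have := h1 t ht
    nlinarith

end

/-- **[FLB]**: the small box: the fields of the seam, for all histories. -/
theorem fl1_all {Φ : (ℝ × ℝ) ≃ₜ (ℝ × ℝ)} {ψ : ℂ → ℂ} {δ : ℕ → ℝ} {N k : ℕ → ℕ}
    {p : ∀ n, ZMod (N n) → ℤ × ℤ} {S : ℕ → Finset (ℤ × ℤ)} {ψn : ℕ → ℂ → ℂ}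
    (H : Set6 Φ ψ δ N k p S ψn) (hS : QE.Stair 3 Φ δ N k p S) : ∀ T R : ℝ, 0 ≤ T → 0 < R →
    ∃ ρI : ℝ, 0 < ρI ∧ ∀ (C : Cst) (K : Kst), C.T = T → C.R = R → K.Ok C → K.rf ≤ ρI →
    ∃ s₀ : ℝ, 0 < s₀ ∧ ∀ s : ℝ, 0 < s → s ≤ s₀ → ∀ᶠ n in atTop,
      ∀ (A : Hst) (j : ℕ), Bef (exn δ N k p S ψn n) C.T C.R A j → ∀ (c : Bool) (O : Obj),
        Cx C K δ N k p S ψn s n A j c O →
        FF c (p n) (k n) (S n) A j (δ n) (bad (p n) (k n) (S n) (δ n) K.r s A j c)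
          (dom (H446.G.Nn s (δ n)) (vd (p n) (k n) C.Ld s (δ n)) O.P)
          (QT.ext (H446.G.Nn s (δ n)) (vd (p n) (k n) C.Ld s (δ n)) O.P)
          (H446.G.wf C (p n) (k n) (S n) (δ n) s)
          (Wr (dom (H446.G.Nn s (δ n)) (vd (p n) (k n) C.Ld s (δ n)) O.P)
            (QT.ext (H446.G.Nn s (δ n)) (vd (p n) (k n) C.Ld s (δ n)) O.P))
          (arcc (H446.G.Nn s (δ n)) (vd (p n) (k n) C.Ld s (δ n)) O.P)
          (Fl1 (p n) (k n) (S n) A j (δ n) K.rc) ∧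
        (∀ x ∈ Dq (S n) (p n) (k n), ∀ t : ℤ × ℤ, (t.1 + t.2) % 2 = 1 → Cor x t →
          rf' t ∉ S n → t ∈ H446.G.wf C (p n) (k n) (S n) (δ n) s ∨
            ∃ y ∈ Fl1 (p n) (k n) (S n) A j (δ n) K.rc, dist y (zp (δ n) t) ≤ 6 * δ n) ∧
        (∀ t ∈ H446.G.wf C (p n) (k n) (S n) (δ n) s, (t.1 + t.2) % 2 = 1 → rf' t ∉ S n) := by
  intro T R hT hR
  obtain ⟨r, hr, hst⟩ := hS
  obtain ⟨ρb, hρb, hloc⟩ := H918.loc_of H.appr hr (by
    filter_upwards [hst] with n hn m hm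
    have := hn m hm
    exact this)
  obtain ⟨ρf, hρf, hfar⟩ := H825.G.far_bef H hT hR.le
  obtain ⟨m, hm, hb4⟩ := H825.B4.b4 H ⟨r, hr, hst⟩ hT hR.le
  refine ⟨min ρb (min ρf m), by positivity, fun C K hCT hCR hK hKρ => ?_⟩
  refine ⟨K.r / 2000, by have := hK.r0; positivity, fun s hs hss => ?_⟩
  filter_upwards [hloc, hfar, hb4] with n h1 h2 h3 A j hB c O hcx
  obtain ⟨M, hL⟩ := h1
  obtain ⟨hA, hj, hbb⟩ := hB
  rw [hCT, hCR] at hbb
  obtain ⟨g1, g2, g3⟩ := h2 A hA j hj hbb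
  obtain ⟨-, -, -, g4⟩ := h3 A hA j hj hbb
  have hA' : A ⊆ edges (S n) := (mem_Qc (p := p n) (k := k n) (δ := δ n)).1 hA
  have hD := dt_of hK hcx hs hA' (hKρ.trans (min_le_left _ _))
    (hKρ.trans ((min_le_right _ _).trans (min_le_left _ _)))
    (hKρ.trans ((min_le_right _ _).trans (min_le_right _ _))) (by linarith) hL g1 g2 g3 g4
  exact ⟨hD.ff, fun x hx t ht hxt ho => hD.wfl hx ht hxt ho, fun t ht _ => Dt.wout ht⟩

end Vale.Agent.P167.H469.Fl
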