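import Vale.Agent.P167.QM.Rel
import Vale.Agent.P167.H704.Q.Rs

/-!
# P167, general `q`, lemma LX: corners between a flat side and a rough wall, statements

`Side d x v`: the square `v` is on the side `d` of the horizontal (`d = 0` above, `d = 1` below) or
vertical (`d = 2` right, `d = 3` left) line through the point `x`.
`CornF c d A η x R`: in the box `Bq x R` the domain `A` lies on the side `d` of the line through `x`
and all the squares on this side outside of `A` have the colour `c` (the rough wall). Nothing is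
assumed on the other side of the line.
-/

namespace Vale.Agent.P167.H469

open Finset Relation Vale.Agent.P167.FK Vale.Agent.P167.FKA Vale.Agent.P167.QM
open Vale.Agent.P145.FB (PStep PConn)
open Vale.Agent.P167.H632 (pr)

/-- The side `d` of the line through `x`. -/
def Side (d : Fin 4) (x v : ℤ × ℤ) : Prop :=
  (d = 0 ∧ x.2 ≤ v.2) ∨ (d = 1 ∧ v.2 < x.2) ∨ (d = 2 ∧ x.1 ≤ v.1) ∨ (d = 3 ∧ v.1 < x.1)

/-- A flat side next to a rough wall of colour `c`. -/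
structure CornF (c : Bool) (d : Fin 4) (A : Finset (ℤ × ℤ)) (η : Cfg) (x : ℤ × ℤ) (R : ℤ) :
    Prop where
  flat : ∀ v ∈ A, v ∈ Bq x R → Side d x v
  wall : ∀ v ∈ Bq x R, Side d x v → v ∉ A → η v = c

/-- A path of colour `e` in the squares of `A` from distance `r` to distance `R` of `x`. -/
def CP (e : Bool) (A : Finset (ℤ × ℤ)) (x : ℤ × ℤ) (r R : ℤ) : Set Cfg :=
  {ω | ∃ u v : ℤ × ℤ, (u.1 + u.2) % 2 = pr e ∧ nm (u - x) ≤ r ∧ R ≤ nm (v - x) ∧
    ReflTransGen (PStep {w | ω w = e ∧ w ∈ A}) u v}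

/-- The squares of the annulus. -/
noncomputable def Aq (x : ℤ × ℤ) (r R : ℤ) : Finset (ℤ × ℤ) := Bq x R \ Bq x r

/-- **Corner arms.** Next to a wall of the other colour the arm of colour `e` is small, whatever
happens elsewhere. -/
def LXarm (Q : ℝ) : Prop := ∃ α C : ℝ, 0 < α ∧ 1 ≤ C ∧ ∀ (e : Bool) (d : Fin 4)
  (A : Finset (ℤ × ℤ)) (η : Cfg) (x : ℤ × ℤ) (r R : ℤ) (G : Cfg → ℝ), 1 ≤ r → r ≤ R → Good η →
    CornF (!e) d A η x R → (∀ ω, 0 ≤ G ω) → Ind (A ∩ Aq x r R) G →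
    Ex Q A η (fun ω => G ω * (CP e A x r R).indicator 1 ω) ≤ C * ((r : ℝ) / R) ^ α * Ex Q A η G

/-- The dual form of `QM.Adm`: the boundary conditions `ξ ≤ ξ'` differ only on squares whose odd
corners are in `T`; the other closed outer squares are joined. -/
structure AdmD (A : Finset (ℤ × ℤ)) (ξ ξ' : Cfg) (W T : Set (ℤ × ℤ)) : Prop where
  le : ∀ v, v ∉ A → ξ v = true → ξ' v = true
  out : ∀ v, v ∉ A → ξ v = false → v ∈ W ∨ ∀ u : ℤ × ℤ, Odd (u.1 + u.2) → Cor v u → u ∈ T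
  odd : ∀ u ∈ T, Odd (u.1 + u.2)
  cls : ∀ v ∈ W, v ∉ A ∧ ξ' v = false
  con : ∀ v ∈ W, ∀ v' ∈ W, ∀ u u' : ℤ × ℤ, Odd (u.1 + u.2) → Cor v u → Odd (u'.1 + u'.2) →
    Cor v' u' → ReflTransGen (PStep {v | v ∉ A ∧ ξ' v = false}) u u'

/-- **Free corner**: opening a short piece of the outside of a wired flat side next to a free rough
wall changes nonnegative decreasing functions of far squares by a factor close to one. -/
def LXfree (Q : ℝ) : Prop := ∃ α C : ℝ, 0 < α ∧ 1 ≤ C ∧ ∀ (d : Fin 4) (A V : Finset (ℤ × ℤ))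
  (ξ ξ' : Cfg) (W T : Set (ℤ × ℤ)) (x : ℤ × ℤ) (r R : ℤ) (F : Cfg → ℝ), 1 ≤ r → r ≤ R →
    Good ξ → Good ξ' → Adm A ξ ξ' W T → (∀ u ∈ T, nm (u - x) ≤ r) → CornF false d A ξ' x R →
    V ⊆ A → (∀ v ∈ V, v ∉ Bq x R) → (∀ ω, 0 ≤ F ω) → (IncF fun ω => - F ω) → Loc V F →
    (1 - C * ((r : ℝ) / R) ^ α) * Ex Q A ξ F ≤ Ex Q A ξ' F

/-- **Wired corner**: opening a short piece of the outside of a free flat side next to a wired rough
wall, the same. -/
def LXwired (Q : ℝ) : Prop := ∃ α C : ℝ, 0 < α ∧ 1 ≤ C ∧ ∀ (d : Fin 4) (A V : Finset (ℤ × ℤ))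
  (ξ ξ' : Cfg) (W T : Set (ℤ × ℤ)) (x : ℤ × ℤ) (r R : ℤ) (F : Cfg → ℝ), 1 ≤ r → r ≤ R →
    Good ξ → Good ξ' → AdmD A ξ ξ' W T → (∀ u ∈ T, nm (u - x) ≤ r) → CornF true d A ξ x R →
    V ⊆ A → (∀ v ∈ V, v ∉ Bq x R) → (∀ ω, 0 ≤ F ω) → (IncF fun ω => - F ω) → Loc V F →
    (1 - C * ((r : ℝ) / R) ^ α) * Ex Q A ξ F ≤ Ex Q A ξ' F

end Vale.Agent.P167.H469
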