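import Vale.Agent.P167.H469.Pld
import Vale.Agent.P167.H640.Nb

/-!
# P167, general `q`, block BETA (2), (3): the sum over the scales
-/

namespace Vale.Agent.P167.H469

open Finset Vale.Agent.P167.FK Vale.Agent.P167.FKA Vale.Agent.P167.QM
open Vale.Agent.P167.BR (Flt)
open Vale.Agent.P167.H436.ND (Win)
open Vale.Agent.P167.H192.TA (Xc)
open Vale.Agent.P167.H192.Q (SRSW)
open Vale.Agent.P167.H452.BE (Fav S_NB S_PLD S_PLP S_PL SS)

variable {Q : ℝ} {D : Finset (ℤ × ℤ)} {η : Cfg} {b : ℤ × ℤ}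

theorem r3_mono {a₀ a₀' K K' R : ℤ} {a : Fin 3 → ℤ} (h : H452.BE.R3 a₀ K R a) (h0 : 1 ≤ a₀)
    (hK0 : 1 ≤ K) (h1 : a₀' ≤ a₀) (h2 : K' ≤ K) : H452.BE.R3 a₀' K' R a := by
  obtain ⟨p1, p2, p3, p4⟩ := h
  have q0 : 1 ≤ a 0 := by omega
  have q1 : 1 ≤ a 1 := by nlinarith
  have q2 : 1 ≤ a 2 := by nlinarith
  refine ⟨h1.trans p1, le_trans (mul_le_mul_of_nonneg_right h2 (by omega)) p2,
    le_trans (mul_le_mul_of_nonneg_right h2 (by omega)) p3,
    le_trans (mul_le_mul_of_nonneg_right h2 (by omega)) p4⟩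

theorem sum_ind_le {T : Finset ℕ} {E : ℕ → Set Cfg} {F : Set Cfg} (hE : ∀ t ∈ T, E t ⊆ F)
    (hd : ∀ t ∈ T, ∀ t' ∈ T, t < t' → Disjoint (E t) (E t')) (ω : Cfg) :
    ∑ t ∈ T, (E t).indicator (1 : Cfg → ℝ) ω ≤ F.indicator (1 : Cfg → ℝ) ω := by
  by_cases h : ∃ t ∈ T, ω ∈ E t
  · obtain ⟨t, ht, hω⟩ := h
    rw [Finset.sum_eq_single t, Set.indicator_of_mem hω, Set.indicator_of_mem (hE t ht hω)]
    · intro t' ht' hne
      refine Set.indicator_of_notMem (fun hω' => ?_) _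
      rcases lt_or_gt_of_ne hne with hlt | hlt
      · exact (Set.disjoint_left.1 (hd t' ht' t ht hlt)) hω' hω
      · exact (Set.disjoint_left.1 (hd t ht t' ht' hlt)) hω hω'
    · exact fun h => absurd ht h
  · rw [Finset.sum_eq_zero]
    · exact ind_nonneg _ _
    · intro t ht
      exact Set.indicator_of_notMem (fun hω => h ⟨t, ht, hω⟩) _

theorem sum_pr_le (hQ : 0 < Q) {T : Finset ℕ} {E : ℕ → Set Cfg} {F : Set Cfg}
    (hE : ∀ t ∈ T, E t ⊆ F) (hd : ∀ t ∈ T, ∀ t' ∈ T, t < t' → Disjoint (E t) (E t')) :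
    ∑ t ∈ T, Pr Q D η (E t) ≤ Pr Q D η F := by
  unfold Pr
  rw [← Ex_sum]
  exact Ex_mono hQ fun S _ => sum_ind_le hE hd _

theorem sum_ins {f : ℕ → ℝ} (hf : ∀ t, 0 ≤ f t) (i : ℕ) (s : Finset ℕ) :
    ∑ t ∈ insert i s, f t ≤ f i + ∑ t ∈ s, f t := by
  by_cases h : i ∈ s
  · rw [Finset.insert_eq_of_mem h]
    linarith [hf i]
  · rw [Finset.sum_insert h]

theorem sum_un {f : ℕ → ℝ} (hf : ∀ t, 0 ≤ f t) (s s' : Finset ℕ) :
    ∑ t ∈ s ∪ s', f t ≤ ∑ t ∈ s, f t + ∑ t ∈ s', f t := by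
  rw [← Finset.sum_union_inter]
  linarith [Finset.sum_nonneg fun t (_ : t ∈ s ∩ s') => hf t]

/-- The last scale. -/
theorem Ks.last_le (C : Ks Q) {M : ℤ} (hM : 1 ≤ M) : ∃ (Cl : ℝ) (K s0 : ℤ), 1 ≤ Cl ∧ 1 ≤ K ∧
    1 ≤ s0 ∧ ∀ (b : ℤ × ℤ) (r s R N : ℤ), s0 ≤ r → r ≤ s → s ≤ R → R ≤ M * s → K * R ≤ N →
      hx Q true b r s N * hx Q false b s R N ≤ Cl * hx Q false b r R N := by
  have hQ0 := C.hQ0
  obtain ⟨C4, K4, s4, hC4, hK4, hs4, h4⟩ := C.a4
  obtain ⟨cE, sE, hcE, hsE, hE⟩ := C.ext_out hM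
  refine ⟨max 1 (C4 / cE), max 2 K4, max s4 sE, le_max_left _ _, by omega, by omega,
    fun b r s R N hr hrs hsR hRM hN => ?_⟩
  have hR0 : 0 ≤ R := by omega
  have e2 : 2 * R ≤ max 2 K4 * R := mul_le_mul_of_nonneg_right (le_max_left _ _) hR0
  have e4 : K4 * s ≤ K4 * R := mul_le_mul_of_nonneg_left hsR (by omega)
  have e5 : K4 * R ≤ max 2 K4 * R := mul_le_mul_of_nonneg_right (le_max_right _ _) hR0
  have k1 := h4 b r s N (by omega) hrs (by omega)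
  have k2 : cE * hx Q false b r s N ≤ hx Q false b r R N :=
    hE false b r s R (HB b N) eta0 (by omega) hrs hsR hRM f_good.2.1 (cn_HB (by omega))
  have k3 : hx Q false b s R N ≤ 1 := Pr_le_one hQ0 _
  have k4 : 0 ≤ hx Q true b r s N := Pr_nonneg hQ0 _
  have k5 : 0 ≤ hx Q false b r R N := Pr_nonneg hQ0 _
  have k6 : hx Q true b r s N * hx Q false b s R N ≤ hx Q true b r s N * 1 :=
    mul_le_mul_of_nonneg_left k3 k4
  have k7 : hx Q false b r s N ≤ hx Q false b r R N / cE := by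
    rw [le_div_iff₀ hcE]
    linarith
  have k8 : hx Q true b r s N * hx Q false b s R N ≤ C4 / cE * hx Q false b r R N := by
    have k9 := mul_le_mul_of_nonneg_left k7 hC4.le
    have e : C4 * (hx Q false b r R N / cE) = C4 / cE * hx Q false b r R N := by ring
    linarith
  exact k8.trans (mul_le_mul_of_nonneg_right (le_max_right _ _) k5)

/-- The sum over all scales against the sum over the good scales. -/
theorem Ks.SS_le (C : Ks Q) {M K0 : ℤ} (hK0 : 1 ≤ K0) (hM : 2 ≤ M) (hMK : K0 ≤ M) :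
    ∃ (Cl : ℝ) (K s0 : ℤ), 1 ≤ Cl ∧ 1 ≤ K ∧ 1 ≤ s0 ∧ ∀ (b : ℤ × ℤ) (r R N : ℤ), s0 ≤ r → r ≤ R →
      K * R ≤ N → SS Q b r R N M ≤ Cl * hx Q false b r R N +
        ∑ t ∈ (Ts r R M).filter (fun t => 1 ≤ t ∧ K0 * (M ^ t * r) ≤ R),
          hx Q true b r (M ^ t * r) N * hx Q false b (M ^ t * r) R N := by
  classical
  have hQ0 := C.hQ0
  obtain ⟨Cl, K, s0, hCl, hK, hs0, h⟩ := C.last_le hK0
  refine ⟨2 + Cl, K, s0, by linarith, hK, hs0, fun b r R N hr hrR hN => ?_⟩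
  have hpos : ∀ t : ℕ, (1 : ℤ) ≤ M ^ t := fun t => one_le_pow₀ (by omega)
  have k0 : 0 ≤ hx Q false b r R N := Pr_nonneg hQ0 _
  set f : ℕ → ℝ := fun t => hx Q true b r (M ^ t * r) N * hx Q false b (M ^ t * r) R N with hf
  have hf0 : ∀ t, 0 ≤ f t := fun t => mul_nonneg (Pr_nonneg hQ0 _) (Pr_nonneg hQ0 _)
  set B := (Ts r R M).filter (fun t => R < K0 * (M ^ t * r)) with hB
  have e1 : SS Q b r R N M = hx Q false b r R N + ∑ t ∈ Ts r R M, f t := rfl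
  have e2 : Ts r R M ⊆ insert 0 (B ∪ (Ts r R M).filter (fun t => 1 ≤ t ∧ K0 * (M ^ t * r) ≤ R)) := by
    intro t ht
    rw [Finset.mem_insert, Finset.mem_union, hB, Finset.mem_filter, Finset.mem_filter]
    by_cases h0 : t = 0
    · exact Or.inl h0
    · rcases lt_or_ge R (K0 * (M ^ t * r)) with h1 | h1
      · exact Or.inr (Or.inl ⟨ht, h1⟩)
      · exact Or.inr (Or.inr ⟨ht, by omega, h1⟩)
  have e3 : ∑ t ∈ Ts r R M, f t ≤ f 0 + (∑ t ∈ B, f t +
      ∑ t ∈ (Ts r R M).filter (fun t => 1 ≤ t ∧ K0 * (M ^ t * r) ≤ R), f t) := by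
    refine (Finset.sum_le_sum_of_subset_of_nonneg e2 fun t _ _ => hf0 t).trans ?_
    refine (sum_ins hf0 _ _).trans ?_
    exact add_le_add le_rfl (sum_un hf0 _ _)
  have e4 : f 0 ≤ hx Q false b r R N := by
    rw [hf]
    dsimp only
    rw [pow_zero, one_mul]
    have : hx Q true b r r N ≤ 1 := Pr_le_one hQ0 _
    nlinarith
  have e5 : B.card ≤ 1 := by
    rw [Finset.card_le_one]
    have key : ∀ t ∈ B, ∀ t' ∈ B, ¬ t < t' := by
      intro t ht t' ht' hlt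
      rw [hB, Finset.mem_filter] at ht ht'
      have h1 := (mem_Ts hM (by omega)).1 ht'.1
      have h2 : M ^ (t + 1) ≤ M ^ t' := pow_le_pow_right₀ (by omega) hlt
      rw [pow_succ] at h2
      have h3 : M ^ t * M * r ≤ M ^ t' * r := mul_le_mul_of_nonneg_right h2 (by omega)
      have h4 : K0 * (M ^ t * r) ≤ M * (M ^ t * r) :=
        mul_le_mul_of_nonneg_right hMK (mul_nonneg (by have := hpos t; omega) (by omega))
      have h5 := ht.2
      nlinarith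
    intro t ht t' ht'
    by_contra hne
    rcases lt_or_gt_of_ne hne with hlt | hlt
    · exact key t ht t' ht' hlt
    · exact key t' ht' t ht hlt
  have e6 : ∑ t ∈ B, f t ≤ Cl * hx Q false b r R N := by
    have h1 : ∑ t ∈ B, f t ≤ B.card • (Cl * hx Q false b r R N) := by
      refine Finset.sum_le_card_nsmul _ _ _ fun t ht => ?_
      rw [hB, Finset.mem_filter] at ht
      have h2 := (mem_Ts hM (by omega)).1 ht.1
      have h3 : r ≤ M ^ t * r := by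
        have := hpos t
        nlinarith
      exact h b r (M ^ t * r) R N hr h3 h2 ht.2.le hN
    refine h1.trans ?_
    rw [nsmul_eq_mul]
    have h2 : (B.card : ℝ) ≤ 1 := by exact_mod_cast e5
    have h3 : 0 ≤ Cl * hx Q false b r R N := by positivity
    nlinarith
  rw [e1]
  linarith

/-- **The assembly of the lower bound.** -/
theorem s_pl_of (hQ : 1 ≤ Q) (hR : RSW Q) (hS : SRSW Q) (hD : S_PLD Q) (hP : S_PLP Q) :
    S_PL Q := by
  classical
  obtain ⟨C⟩ := exists_Ks hQ hR hS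
  have hQ0 := C.hQ0
  obtain ⟨LD, hLD, hD⟩ := hD
  obtain ⟨LP, hLP, hP⟩ := hP
  obtain ⟨L1, hL1⟩ : ∃ L1, L1 = max LD LP := ⟨_, rfl⟩
  obtain ⟨cD, KD, aD, hcD, hKD, haD, hD⟩ := hD L1 (by omega)
  obtain ⟨cP, KP, aP, hcP, hKP, haP, hP⟩ := hP L1 (by omega)
  refine ⟨KP, by omega, fun M hM => ?_⟩
  obtain ⟨Cl, Kl, sl, hCl, hKl, hsl, hSS⟩ := C.SS_le (M := M) (K0 := KP) (by omega) (by omega) hM
  refine ⟨(Cl / cD + 1 / cP)⁻¹, max (max KD KP) (max Kl 4), L1, max (max aD aP) sl, by positivity,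
    by omega, by omega, by omega, fun n q D l R N hW a ha hKN hLR => ?_⟩
  have r1 : H452.BE.R3 aD KD R a := r3_mono ha (by omega) (by omega) (by omega) (by omega)
  have r2 : H452.BE.R3 aP KP R a := r3_mono ha (by omega) (by omega) (by omega) (by omega)
  obtain ⟨p1, p2, p3, p4⟩ := ha
  have q0 : 1 ≤ a 0 := by omega
  have q1' : 4 * a 0 ≤ a 1 := le_trans (mul_le_mul_of_nonneg_right (by omega) (by omega)) p2
  have q1 : a 0 ≤ a 1 := by omega
  have q2' : 4 * a 1 ≤ a 2 := le_trans (mul_le_mul_of_nonneg_right (by omega) (by omega)) p3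
  have q2 : a 1 ≤ a 2 := by omega
  have n1 : KD * a 2 ≤ N := le_trans (mul_le_mul_of_nonneg_right (by omega) (by omega)) hKN
  have n2 : KP * a 2 ≤ N := le_trans (mul_le_mul_of_nonneg_right (by omega) (by omega)) hKN
  have n3 : Kl * a 2 ≤ N := le_trans (mul_le_mul_of_nonneg_right (by omega) (by omega)) hKN
  have k1 := hD n q D l R N hW a r1 n1 hLR
  obtain ⟨E, hE1, hE2⟩ := hP n q D l R N hW a r2 n2 hLR
  have k2 := hSS (q l) (a 1) (a 2) N (by omega) q2 n3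
  set T := (Ts (a 1) (a 2) M).filter (fun t => 1 ≤ t ∧ KP * (M ^ t * a 1) ≤ a 2) with hT
  have hM1 : ∀ t : ℕ, (1 : ℤ) ≤ M ^ t := fun t => one_le_pow₀ (by omega)
  have m1 : ∀ t ∈ T, KP * a 1 ≤ M ^ t * a 1 := by
    intro t ht
    rw [hT, Finset.mem_filter] at ht
    have h1 : M ^ 1 ≤ M ^ t := pow_le_pow_right₀ (by omega) ht.2.1
    rw [pow_one] at h1
    exact mul_le_mul_of_nonneg_right (hM.trans h1) (by omega)
  have m2 : ∀ t ∈ T, KP * (M ^ t * a 1) ≤ a 2 := by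
    intro t ht
    rw [hT, Finset.mem_filter] at ht
    exact ht.2.2
  have k3 : ∑ t ∈ T, Pr Q D eta0 (E (M ^ t * a 1)) ≤ Pr Q D eta0 (Fav q D l a L1) := by
    refine sum_pr_le hQ0 (fun t ht => (hE1 _ (m1 t ht) (m2 t ht)).1) fun t ht t' ht' hlt => ?_
    refine hE2 _ _ (m1 t ht) ?_
    have h2 : M ^ (t + 1) ≤ M ^ t' := pow_le_pow_right₀ (by omega) hlt
    rw [pow_succ] at h2
    have h3 : M ^ t * M * a 1 ≤ M ^ t' * a 1 := mul_le_mul_of_nonneg_right h2 (by omega)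
    have h4 : KP * (M ^ t * a 1) ≤ M * (M ^ t * a 1) :=
      mul_le_mul_of_nonneg_right hM (mul_nonneg (by have := hM1 t; omega) (by omega))
    linarith
  set H0 := hx Q false (q l) (2 * a 0) (a 1) N with hH0
  have h00 : 0 ≤ H0 := Pr_nonneg hQ0 _
  have k4 : cP * (H0 * ∑ t ∈ T, hx Q true (q l) (a 1) (M ^ t * a 1) N *
      hx Q false (q l) (M ^ t * a 1) (a 2) N) ≤ Pr Q D eta0 (Fav q D l a L1) := by
    refine le_trans ?_ k3
    rw [Finset.mul_sum, Finset.mul_sum]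
    exact Finset.sum_le_sum fun t ht => (hE1 _ (m1 t ht) (m2 t ht)).2
  have k5 := mul_le_mul_of_nonneg_left k2 h00
  rw [mul_add] at k5
  have P0 : 0 ≤ Pr Q D eta0 (Fav q D l a L1) := Pr_nonneg hQ0 _
  have k6 : H0 * (Cl * hx Q false (q l) (a 1) (a 2) N) ≤ Cl / cD * Pr Q D eta0 (Fav q D l a L1) := by
    have : Cl / cD * (cD * (H0 * hx Q false (q l) (a 1) (a 2) N)) ≤
        Cl / cD * Pr Q D eta0 (Fav q D l a L1) := mul_le_mul_of_nonneg_left k1 (by positivity)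
    refine le_trans (le_of_eq ?_) this
    field_simp
  have k7 : H0 * ∑ t ∈ T, hx Q true (q l) (a 1) (M ^ t * a 1) N *
      hx Q false (q l) (M ^ t * a 1) (a 2) N ≤ 1 / cP * Pr Q D eta0 (Fav q D l a L1) := by
    rw [one_div, ← div_eq_inv_mul, le_div_iff₀ hcP]
    linarith
  rw [inv_mul_le_iff₀ (by positivity)]
  linarith

/-- **(PL)** from the primal link. -/
theorem s_pl (hQ : 1 ≤ Q) (hR : RSW Q) (hS : SRSW Q) (hP : S_PLP Q) : S_PL Q :=
  s_pl_of hQ hR hS (s_pld hQ hR hS (H640.Nb.s_NB hQ hR)) hP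

end Vale.Agent.P167.H469
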