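import Vale.Agent.P167.H947.Q.Defs
import Vale.Agent.P167.QM.Defs
import Vale.Agent.P167.H192.Q.RatB
import Vale.Agent.P167.H704.Q.Rs

/-!
# P167, general `q`, block Q-SRSW, part REG: statements

From the parafermionic identity (`H947.Q.PFI`) to the regularity of the one-arm probability of a
flat free side.
-/

namespace Vale.Agent.P167.H469

open Finset Vale.Agent.P167.FK Vale.Agent.P167.H947.Q Vale.Agent.P167.QM
open Vale.Agent.P145.FB (PStep PConn)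
open Vale.Agent.P167.H632 (bl)

/-- Probability that the primal site `s` is joined to the wired arc. -/
noncomputable def Pa (Q : ℝ) (x0 x1 H n : ℤ) (s : ℤ × ℤ) : ℝ :=
  Pr Q (Rt x0 x1 H) (ea n) {ω | PC ω s (0, 0)}

/-- Probability that the dual site `s` is joined to the free part of the boundary. -/
noncomputable def Pb (Q : ℝ) (x0 x1 H n : ℤ) (s : ℤ × ℤ) : ℝ :=
  Pr Q (Rt x0 x1 H) (ea n) {ω | DC ω s (1, 0)}

/-- Open path from `x` to distance `d`, above the level of `x`. -/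
def Ar (x : ℤ × ℤ) (d : ℤ) : Set Cfg :=
  {ω | ∃ v, d ≤ nm (v - x) ∧ PConn (op ω) (bl x d ∩ {w | x.2 ≤ w.2}) x v}

/-- The one-arm probability of a flat free side. -/
noncomputable def ah (Q : ℝ) (L d : ℤ) : ℝ := Pr Q (HB 0 (L * (L * d))) eta0 (Ar 0 d)

/-- R1: comparison of the two sides of a junction. -/
def R1 (Q : ℝ) : Prop := ∀ x0 x1 H n k : ℤ, Even n → 0 ≤ n → Even k → 0 < k →
  Pa Q x0 x1 H n (k, 0) ≤ Pb Q x0 x1 H n (1 - k, 0) ∧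
  Pa Q x0 x1 H n (-n - k, 0) ≤ Pb Q x0 x1 H n (-n - 1 + k, 0)

/-- R2: lower bound near the junction. -/
def R2 (Q : ℝ) (L : ℤ) : Prop := ∃ (c : ℝ) (K s0 : ℤ), 0 < c ∧ 1 ≤ K ∧ 1 ≤ s0 ∧
  ∀ x0 x1 H n k : ℤ, Even k → s0 ≤ k → K * k ≤ n → x0 ≤ -(K * k) → K * k ≤ x1 → K * k ≤ H →
    c * ah Q L (4 * k) ≤ Pa Q x0 x1 H n (k, 0)

/-- `s` is on the boundary of the rectangle. -/
def OnB (x0 x1 H : ℤ) (s : ℤ × ℤ) : Prop := Even (s.1 + s.2) ∧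
  ((x0 ≤ s.1 ∧ s.1 ≤ x1 ∧ (s.2 = 0 ∨ s.2 = H)) ∨ (0 ≤ s.2 ∧ s.2 ≤ H ∧ (s.1 = x0 ∨ s.1 = x1)))

/-- R3: upper bound far from the arc. -/
def R3 (Q : ℝ) (L : ℤ) : Prop := ∃ C : ℝ, 0 < C ∧ ∀ (x0 x1 H n d : ℤ) (s : ℤ × ℤ), 1 ≤ d →
  0 ≤ n → OnB x0 x1 H s → (∀ x : ℤ, -n ≤ x → x ≤ 0 → L * (L * d) < nm (s - (x, 0))) →
    Pa Q x0 x1 H n s ≤ C * ah Q L d

/-- The regularity of the one-arm probability. -/
def REG (Q : ℝ) (L : ℤ) : Prop := ∃ (c : ℝ) (n0 : ℤ), 0 < c ∧ ∀ n : ℤ, n0 ≤ n → 1 ≤ n →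
  c * (1 + ∑ d ∈ Finset.Icc 1 n, ah Q L d) ≤ n * ah Q L n

end Vale.Agent.P167.H469
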