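import Vale.Agent.P167.QC.RetLat

/-!
# P167, general `q`: no return to the start `a` (deterministic part)
-/

namespace Vale.Agent.P167.H469

open Finset
open Vale.Agent.P145.FB (PStep)
open Vale.Agent.P167.E6 Vale.Agent.P167.E2
open Vale.Agent.P167.H166 Vale.Agent.P167.H161 Vale.Agent.P167.QC
open Vale.Agent.P167.FKA (Cor rest mem_rest)
open Vale.Agent.P167.H718 (Dq wE etaQ mem_Dq' mem_wE mem_wiredOpen good_etaQ)
open Relation

/-- **A return to the start gives a fresh crossing cluster.** -/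
theorem retA_kf {x : ℤ × ℤ} {r R' R : ℤ} (hR : R' < R) (hr : r < R') {ω : Cfg}
    {D : Finset (ℤ × ℤ)} (P : Finset (ℤ × ℤ)) (hP : P.card ≤ 2)
    (H2 : ∀ (b : Bool) (s v v' : ℤ × ℤ), v' ∉ D → nm (v' - x) ≤ R' → ω v' = b → Cor v' s →
      (s.1 + s.2) % 2 = par b → v ∈ D → Cor v s → ∃ q ∈ P, Conn x R ω s q)
    {e0 : Ed} {T t0 t1 : ℕ}
    (hinj : Set.InjOn (fun i : ℕ => (nx ω)^[i] e0) (Set.Iic T))
    (h0 : nm (hdv e0 - x) ≤ r) (ht : t0 ≤ t1) (hT : t1 ≤ T)
    (ha : R < nm (hdv ((nx ω)^[t0] e0) - x)) (hb : nm (hdv ((nx ω)^[t1] e0) - x) ≤ r)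
    (hc : R < nm (hdv ((nx ω)^[T] e0) - x))
    (H1 : ∀ i ≤ T, hdv ((nx ω)^[i] e0) ∉ D → nm (hdv ((nx ω)^[i] e0) - x) ≤ R' →
      ∃ q ∈ P, Conn x R ω (H161.cor (ω (hdv ((nx ω)^[i] e0))) (hdv ((nx ω)^[i] e0))) q) :
    1 ≤ kf x r R' (D ∩ bxx x R') ω true 0 + kf x r R' (D ∩ bxx x R') ω false 1 := by
  classical
  have hB : ∀ {v : ℤ × ℤ}, nm (v - x) < R' → v ∈ FK.Bq x R := fun h => mem_Bq_of_nm hR.le h
  have hout : ∀ {v : ℤ × ℤ}, R < nm (v - x) → v ∉ FK.Bq x R := by
    intro v hv hm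
    rw [mem_Bq] at hm
    simp only [nm, Prod.fst_sub, Prod.snd_sub, lt_max_iff, lt_abs] at hv
    omega
  have ht0 : t0 < t1 := by
    rcases ht.lt_or_eq with h | h
    · exact h
    · rw [h] at ha; omega
  have ht1T : t1 < T := by
    rcases hT.lt_or_eq with h | h
    · exact h
    · rw [h] at hb; omega
  set e2 : Ed := (nx ω)^[t1] e0 with he2
  -- different arcs
  have hdif : e2 ∉ Arc (FK.Bq x R) ω e0 := by
    rintro (⟨m, g1, g2⟩ | ⟨m, g1, g2⟩)
    · have hm : m ≤ T := by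
        by_contra hm
        exact hout hc (g2 T (by omega))
      have h3 : m = t1 :=
        hinj (by rw [Set.mem_Iic]; omega) (by rw [Set.mem_Iic]; omega) (g1.trans he2)
      exact hout ha (g2 t0 (by omega))
    · rw [he2, ← Function.iterate_add_apply] at g1
      by_cases hm : m + t1 ≤ T
      · have h3 : m + t1 = 0 :=
          hinj (by rw [Set.mem_Iic]; omega) (by rw [Set.mem_Iic]; omega) g1
        omega
      · have h4 := g2 (T - t1) (by omega)
        rw [he2, ← Function.iterate_add_apply, Nat.sub_add_cancel hT] at h4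
        exact hout hc h4
  have hdif' : e0 ∉ Arc (FK.Bq x R) ω e2 := fun h => hdif (Arc.symm h)
  have hB1 : hdv e0 ∈ FK.Bq x R := hB (lt_of_le_of_lt h0 hr)
  have hB2 : hdv e2 ∈ FK.Bq x R := hB (lt_of_le_of_lt hb hr)
  have hinv : ∀ e : Ed, Inv (FK.Bq x R : Set (ℤ × ℤ)) ω (Arc (FK.Bq x R) ω e) :=
    fun e => Arc.inv _ _ _
  obtain ⟨w1, hw1⟩ := exists_PotX (hinv e0)
  obtain ⟨w2, hw2⟩ := exists_PotX (hinv e2)
  let lab : ℤ × ℤ → ℤ × ℤ := fun s => (w1 s, w2 s)
  have hconn : ∀ {s t : ℤ × ℤ}, Conn x R ω s t → lab s = lab t := by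
    intro s t h
    simp only [lab, Prod.mk.injEq]
    exact ⟨hw1.conn (hinv e0) h, hw2.conn (hinv e2) h⟩
  have d11 : w1 (ls e0) - w1 (rs e0) = 1 := by
    have := (hw1 e0 (Or.inl hB1)).1 (self_mem_Arc _ _ _)
    omega
  have d12 : w2 (ls e0) - w2 (rs e0) = 0 := by
    have := (hw2 e0 (Or.inl hB1)).2 hdif'
    omega
  have d21 : w1 (ls e2) - w1 (rs e2) = 0 := by
    have := (hw1 e2 (Or.inl hB2)).2 hdif
    omega
  have d22 : w2 (ls e2) - w2 (rs e2) = 1 := by
    have := (hw2 e2 (Or.inl hB2)).1 (self_mem_Arc _ _ _)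
    omega
  set Bd : Finset (ℤ × ℤ) := P.image lab with hBd
  have hbad : ∀ {s : ℤ × ℤ}, (∃ q ∈ P, Conn x R ω s q) → lab s ∈ Bd := by
    rintro s ⟨q, hq, hc⟩
    rw [hBd, mem_image]
    exact ⟨q, hq, (hconn hc).symm⟩
  -- the first exits of the segments
  obtain ⟨N1, hN1, hN1T, hN1'⟩ : ∃ N1, R' ≤ nm (hdv ((nx ω)^[N1] e0) - x) ∧ N1 ≤ T ∧
      ∀ m < N1, nm (hdv ((nx ω)^[m] e0) - x) < R' := by
    have h3 : ∃ N1, R' ≤ nm (hdv ((nx ω)^[N1] e0) - x) := ⟨t0, by omega⟩
    refine ⟨Nat.find h3, Nat.find_spec h3, ?_, fun m hm => by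
      have := Nat.find_min h3 hm
      omega⟩
    have h4 := Nat.find_min' h3 (show R' ≤ nm (hdv ((nx ω)^[t0] e0) - x) by omega)
    omega
  obtain ⟨N2, hN2, hN2T, hN2'⟩ : ∃ N2, R' ≤ nm (hdv ((nx ω)^[N2] e2) - x) ∧ N2 + t1 ≤ T ∧
      ∀ m < N2, nm (hdv ((nx ω)^[m] e2) - x) < R' := by
    have h2 : R' ≤ nm (hdv ((nx ω)^[T - t1] e2) - x) := by
      rw [he2, ← Function.iterate_add_apply, Nat.sub_add_cancel hT]
      omega
    have h3 : ∃ N1, R' ≤ nm (hdv ((nx ω)^[N1] e2) - x) := ⟨_, h2⟩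
    refine ⟨Nat.find h3, Nat.find_spec h3, ?_, fun m hm => by
      have := Nat.find_min h3 hm
      omega⟩
    have h4 := Nat.find_min' h3 h2
    omega
  let e : Bool → Ed := fun i => if i then e0 else e2
  let N : Bool → ℕ := fun i => if i then N1 else N2
  let τ : Bool → ℕ := fun i => if i then 0 else t1
  have hit : ∀ i m, (nx ω)^[m] (e i) = (nx ω)^[m + τ i] e0 := by
    intro i m
    cases i
    · simp only [e, τ, he2, Bool.false_eq_true, if_false]
      rw [← Function.iterate_add_apply]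
    · simp only [e, τ, if_true, Nat.add_zero]
  have hNT : ∀ i, N i + τ i ≤ T := by
    intro i
    cases i
    · simp only [N, τ, Bool.false_eq_true, if_false]
      omega
    · simp only [N, τ, if_true]
      omega
  have hNN : ∀ i, ∀ m < N i, nm (hdv ((nx ω)^[m] (e i)) - x) < R' := by
    intro i m hm
    cases i
    · exact hN2' m hm
    · exact hN1' m hm
  have hends : ∀ (b : Bool) (i : Bool),
      (nm (sd b (e i) - x) ≤ r + 1 ∧ R' - 1 ≤ nm (sd b ((nx ω)^[N i] (e i)) - x)) ∨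
      (R' - 1 ≤ nm (sd b (e i) - x) ∧ nm (sd b ((nx ω)^[N i] (e i)) - x) ≤ r + 1) := by
    intro b i
    left
    cases i
    · exact ⟨(cor_far (R' := R') (sd_cor b _)).1 hb, (cor_far (r := r) (sd_cor b _)).2 hN2⟩
    · exact ⟨(cor_far (R' := R') (sd_cor b _)).1 h0, (cor_far (r := r) (sd_cor b _)).2 hN1⟩
  have hH1 : ∀ b : Bool, ∀ i, ∀ m < N i, hdv ((nx ω)^[m] (e i)) ∉ D →
      ω (hdv ((nx ω)^[m] (e i))) = b → lab (H161.cor b (hdv ((nx ω)^[m] (e i)))) ∈ Bd := by
    intro b i m hm hnD hb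
    have h3 := hNT i
    have h4 := hNN i m hm
    rw [hit] at hnD hb h4 ⊢
    have h5 := hbad (H1 (m + τ i) (by omega) hnD h4.le)
    rw [hb] at h5
    exact h5
  have k1 := labels_le2 true hR e N (hends true) hNN lab hconn Bd (hH1 true)
    (fun s v v' a1 a2 a3 a4 a5 a6 a7 => hbad (H2 true s v v' a1 a2 a3 a4 a5 a6 a7))
  have k2 := labels_le2 false hR e N (hends false) hNN lab hconn Bd (hH1 false)
    (fun s v v' a1 a2 a3 a4 a5 a6 a7 => hbad (H2 false s v v' a1 a2 a3 a4 a5 a6 a7))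
  rw [par_true] at k1
  rw [par_false] at k2
  have c1 : (univ.image (fun i => lab (sd true (e i)))) = {lab (ls e0), lab (ls e2)} := by
    ext l
    simp [e, sd]
  have c2 : (univ.image (fun i => lab (sd false (e i)))) = {lab (rs e0), lab (rs e2)} := by
    ext l
    simp [e, sd]
  rw [c1] at k1
  rw [c2] at k2
  have h3 := three_labels (A := lab (ls e0)) (B := lab (rs e0)) (C := lab (ls e2))
    (D := lab (rs e2)) d11 d12 d21 d22
  set V1 : Finset (ℤ × ℤ) := {lab (ls e0), lab (ls e2)} with hV1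
  set V2 : Finset (ℤ × ℤ) := {lab (rs e0), lab (rs e2)} with hV2
  have h4 : V1 ∪ V2 ⊆ (V1 \ Bd) ∪ (V2 \ Bd) ∪ Bd := by
    intro l hl
    rw [mem_union] at hl
    rw [mem_union, mem_union, mem_sdiff, mem_sdiff]
    tauto
  have h5 : (V1 ∪ V2).card ≤ (V1 \ Bd).card + (V2 \ Bd).card + 2 :=
    calc (V1 ∪ V2).card ≤ ((V1 \ Bd) ∪ (V2 \ Bd) ∪ Bd).card := card_le_card h4
      _ ≤ ((V1 \ Bd) ∪ (V2 \ Bd)).card + Bd.card := card_union_le _ _
      _ ≤ (V1 \ Bd).card + (V2 \ Bd).card + 2 :=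
          add_le_add (card_union_le _ _) (card_image_le.trans hP)
  omega

variable {n : ℕ} {p : ZMod n → ℤ × ℤ} {S : Finset (ℤ × ℤ)} {k : ℕ}

/-- **The frozen squares near `a` form two connected pieces.** -/
theorem frz3A (hp : IsPolygon p) (hS : Encloses p S) (h0 : 0 < k) (hk : k < n) {x : ℤ × ℤ}
    {r R : ℤ} (hR : r + 4 ≤ R)
    (hw : ∀ i, k ≤ i → i < n → nm (H192.ro (p i) - x) ≤ r + 2 → ∀ l, i ≤ l → l < n →
      nm (H192.ro (p l) - x) < R)
    (hf : ∀ i < k, nm (H192.ro (p i) - x) ≤ r + 2 → ∀ l, l ≤ i →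
      nm (H192.ro (p l) - x) < R) :
    ∃ P : Finset (ℤ × ℤ), P.card ≤ 2 ∧
      ∀ w : Cfg, (∀ v ∈ Fq p k S, nm (v - x) < r →
        ∃ q ∈ P, Conn x R (ovq p k S w) (H161.cor (ovq p k S w v) v) q) ∧
      ∀ i < k, nm (H192.ro (p i) - x) ≤ r + 2 → ∀ d, face (p i) d ∉ S →
        ∃ q ∈ P, Conn x R (ovq p k S w) (H192.rf (face (p i) d)) q := by
  classical
  refine ⟨{H192.ro (p ((n - 1 : ℕ) : ZMod n)),
    H192.rf (face (p ((0 : ℕ) : ZMod n)) (ri p ((0 : ℕ) : ZMod n)))},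
    Finset.card_le_two, fun w => ⟨?_, ?_⟩⟩
  · intro v hv hnm
    rw [nm_sub_lt] at hnm
    rcases hv with hv | hv
    · -- wired
      obtain ⟨i, hi1, hi2, hi3⟩ := hv
      rw [show ovq p k S w v = true from ovq_FW ⟨i, hi1, hi2, hi3⟩]
      obtain ⟨d, hd⟩ := hp.2.2 (i : ZMod n)
      have hv1 : v = H192.sq s(p i, p i + dir d) := by
        rw [← hd, ← hi3, H192.sq_ed]
      obtain ⟨h3, h4⟩ := sq_near (p i) d
      rw [← hv1] at h3 h4
      have hnear := hw i hi1 (by omega) (by rw [nm_sub_le]; omega)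
      refine ⟨H192.ro (p ((n - 1 : ℕ) : ZMod n)), by simp, ?_⟩
      have hch : Conn x R (ovq p k S w) (H192.ro (p i)) (H192.ro (p ((n - 1 : ℕ) : ZMod n))) :=
        wchain hp hi1 (by omega) (by omega) fun l h1 h2 => hnear l h1 (by omega)
      have hch' : Conn x R (ovq p k S w) (H192.ro (p ((i + 1 : ℕ) : ZMod n)))
          (H192.ro (p ((n - 1 : ℕ) : ZMod n))) :=
        wchain hp (by omega) (by omega) (by omega) fun l h1 h2 => hnear l (by omega) (by omega)
      obtain ⟨h5, h6⟩ := H192.ro_dir (p i) d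
      have h7 := pa_mem h5 h6 (H192.even_ro _)
      rw [← H192.sq_dir, ← hv1] at h7
      simp only [H161.cor, if_true]
      rcases h7 with h7 | h7
      · rw [h7]
        exact hch
      · rw [h7]
        have e1 : p ((i + 1 : ℕ) : ZMod n) = p i + dir d := by
          rw [← hd]
          push_cast
          rfl
        rw [← e1]
        exact hch'
    · -- free
      rw [ovq_FO hp hS hv]
      obtain ⟨i, d, hi1, hi2, hi3, hv1⟩ := hv
      obtain ⟨h3, h4⟩ := sq_near (p i) (d + 1)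
      rw [← hv1] at h3 h4
      have hnear := hf i hi1 (by rw [nm_sub_le]; omega)
      refine ⟨H192.rf (face (p ((0 : ℕ) : ZMod n)) (ri p ((0 : ℕ) : ZMod n))),
        by simp, ?_⟩
      have hch : Conn x R (ovq p k S w) (H192.rf (face (p i) (ri p i)))
          (H192.rf (face (p ((0 : ℕ) : ZMod n)) (ri p ((0 : ℕ) : ZMod n)))) :=
        (fchain hp hS (Nat.zero_le i) hi1 fun l _ h2 => hnear l h2).symm
      obtain ⟨⟨h5, h6⟩, h8⟩ := face_key (p i) d
      have h7 := da_mem h5 h6 (H192.odd_rf _)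
      rw [h8, ← hv1] at h7
      simp only [H161.cor, Bool.false_eq_true, if_false]
      rcases h7 with h7 | h7
      · rw [h7]
        exact (floc hp hS hi1 (hnear i le_rfl) hi2).symm.trans hch
      · rw [h7]
        exact (floc hp hS hi1 (hnear i le_rfl) hi3).symm.trans hch
  · intro i hi1 hnm d hi2
    have hnear := hf i hi1 hnm
    refine ⟨H192.rf (face (p ((0 : ℕ) : ZMod n)) (ri p ((0 : ℕ) : ZMod n))),
      by simp, ?_⟩
    have hch : Conn x R (ovq p k S w) (H192.rf (face (p i) (ri p i)))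
        (H192.rf (face (p ((0 : ℕ) : ZMod n)) (ri p ((0 : ℕ) : ZMod n)))) :=
      (fchain hp hS (Nat.zero_le i) hi1 fun l _ h2 => hnear l h2).symm
    exact (floc hp hS hi1 (hnear i le_rfl) hi2).symm.trans hch

/-- **A return to `a` gives a fresh crossing cluster.** -/
theorem retA_lat (hp : IsPolygon p) (hS : Encloses p S) (h0 : 0 < k) (hk : k < n)
    {x : ℤ × ℤ} {r R' R : ℤ} (hr : r < R') (hR : R' + 5 ≤ R)
    (hw : ∀ i, k ≤ i → i < n → nm (H192.ro (p i) - x) ≤ R' + 3 → ∀ l, i ≤ l → l < n →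
      nm (H192.ro (p l) - x) < R)
    (hf : ∀ i < k, nm (H192.ro (p i) - x) ≤ R' + 3 → ∀ l, l ≤ i →
      nm (H192.ro (p l) - x) < R)
    (ha : nm (H192.ro (p 0) - x) + 1 ≤ r) (hb : R + 1 < nm (H192.ro (p (k : ZMod n)) - x))
    {A : Finset (Sym2 (ℤ × ℤ))} (hA : A ⊆ edges S) {t0 t1 : ℕ} (ht : t0 ≤ t1)
    (ht1 : t1 < len p k A) (h1 : R < nm (hdv (H192.me (run p k A t0)) - x))
    (h2 : nm (hdv (H192.me (run p k A t1)) - x) ≤ r) :
    1 ≤ kf x r R' (Dq S p k ∩ bxx x R') (om p k A) true 0 +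
      kf x r R' (Dq S p k ∩ bxx x R') (om p k A) false 1 := by
  obtain ⟨P, hP, hPP⟩ := frz3A hp hS h0 hk (x := x) (r := R' + 1) (R := R) (by omega)
    (fun i a b c => hw i a b (by omega)) (fun i a b => hf i a (by omega))
  obtain ⟨g1, g2⟩ := hPP (om p k A)
  rw [ovq_om hp hS hA] at g1 g2
  have hpos := len_pos hp hS hk hA
  have hinj : Set.InjOn (fun i : ℕ => (nx (om p k A))^[i] (H192.me (cs p)))
      (Set.Iic (len p k A - 1)) := by
    intro i hi j hj hij
    rw [Set.mem_Iic] at hi hj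
    simp only at hij
    rw [run_om, run_om] at hij
    exact run_inj hp hS hk hA (by omega) (by omega) (H192.me_inj hij)
  -- frozen open squares
  have hW : ∀ v : ℤ × ℤ, v ∉ Dq S p k → om p k A v = true → v ∈ FW p k := by
    intro v hv h1
    rw [mem_Dq'] at hv
    rcases om_true.1 h1 with h2 | h2
    · by_contra h3
      exact hv ⟨hA h2, fun h4 => h3 (mem_FW.2 h4)⟩
    · exact mem_FW.2 h2
  refine retA_kf (x := x) (r := r) (R' := R') (R := R) (by omega) hr (ω := om p k A)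
    (D := Dq S p k) P hP ?_ (e0 := H192.me (cs p)) (T := len p k A - 1) (t0 := t0) (t1 := t1)
    hinj ?_ ht (by omega) ?_ ?_ ?_ ?_
  · -- corners
    intro b s v v' a1 a2 a3 a4 a5 a6 a7
    cases b
    · have h1 : H192.ed v' ∉ edges S := by
        intro h1
        have h2 : H192.ed v' ∈ wE p k := by
          by_contra h2
          exact a1 (mem_Dq'.2 ⟨h1, h2⟩)
        have h3 : om p k A v' = true := om_true.2 (Or.inr h2)
        rw [a3] at h3
        exact absurd h3 (by simp)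
      obtain ⟨u, d, hud⟩ := exists_form v'
      have hvs : v' = H192.sq s(u, u + dir (d + 1)) := by rw [← hud, H192.sq_ed]
      rw [hud, mem_edges, fin4_back, not_or] at h1
      have a4' := a4
      rw [hvs] at a4'
      obtain ⟨f, hf, hfS⟩ : ∃ f, s = H192.rf f ∧ f ∉ S := by
        rcases odd_corner a4' a5 with h2 | h2
        · exact ⟨_, h2, h1.2⟩
        · exact ⟨_, h2, h1.1⟩
      obtain ⟨i, hi, d', hd'⟩ := ext_face hp hS h0 hk a6 a7 a5 hf hfS
      have h2 := g2 i hi ?_ d' (by rw [hd']; exact hfS)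
      · rw [hd', ← hf] at h2
        exact h2
      · rw [nm_sub_le] at a2 ⊢
        simp only [Cor] at a4
        rw [hf, ← hd'] at a4
        obtain ⟨y1, y2⟩ := v'
        have h3 : ((H192.rf (face (p i) d')).1 = (H192.ro (p i)).1 ∨
            (H192.rf (face (p i) d')).1 = (H192.ro (p i)).1 + 1 ∨
            (H192.rf (face (p i) d')).1 = (H192.ro (p i)).1 - 1) ∧
            ((H192.rf (face (p i) d')).2 = (H192.ro (p i)).2 ∨
            (H192.rf (face (p i) d')).2 = (H192.ro (p i)).2 + 1 ∨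
            (H192.rf (face (p i) d')).2 = (H192.ro (p i)).2 - 1) := by
          clear * -
          obtain ⟨a, b⟩ := p (i : ZMod n)
          rcases H192.fin4_cases d' with rfl | rfl | rfl | rfl <;>
            simp only [face, H192.rf, H192.ro] <;> refine ⟨?_, ?_⟩ <;> simp <;> omega
        simp only at a2 a4
        omega
    · have h1 := g1 v' (Or.inl (hW v' a1 a3)) (by omega)
      obtain ⟨q, hq, h2⟩ := h1
      rw [a3] at h2
      exact ⟨q, hq, (conn_cor (b := true) (mem_Bq_of_le (by omega) a2) a3 a4 a5).trans h2⟩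
  · have h3 := first_near hp
    rw [nm_sub_le] at h3 ⊢
    have h4 : nm (H192.ro (p 0) - x) ≤ r - 1 := by omega
    rw [nm_sub_le] at h4
    omega
  · rw [run_om]
    exact h1
  · rw [run_om]
    exact h2
  · rw [run_om]
    have h3 := last_near hp hS hk hA
    by_contra hcon
    rw [not_lt, nm_sub_le] at hcon
    rw [nm_sub_le] at h3
    have h4 : nm (H192.ro (p (k : ZMod n)) - x) ≤ R + 1 := by
      rw [nm_sub_le]
      omega
    omega
  · intro i hi hnD hnm
    rw [run_om] at hnD hnm ⊢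
    refine g1 _ ?_ (by omega)
    by_cases hb : om p k A (hdv (H192.me (run p k A i))) = true
    · exact Or.inl (hW _ hnD hb)
    · right
      rcases ahead_cases hp hS h0 hk hA (j := i) (by omega) with h3 | ⟨i', hi', h4, h5, h6⟩
      · exfalso
        apply hnD
        rw [mem_Dq', H192.ed_hdv_me]
        refine ⟨h3, fun h4 => hb ?_⟩
        rw [om_true, H192.ed_hdv_me]
        exact Or.inr h4
      · refine ⟨i', (run p k A i).2, hi', h5, h6, ?_⟩
        rw [H192.hdv_me]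
        unfold ahead
        rw [← h4]

end Vale.Agent.P167.H469
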