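import Vale.Agent.P167.H469.Near

/-!
# P167, general `q`, block Q-SRSW: regularity of the one-arm probability of a flat free side

The parafermionic identity and the three comparisons `R1`, `R2`, `R3` give `REG`.
-/

namespace Vale.Agent.P167.H469

open Finset Relation Vale.Agent.P167.FK Vale.Agent.P167.FKA Vale.Agent.P167.H947.Q
  Vale.Agent.P167.QM
open Vale.Agent.P145.FB (PStep PConn)
open Vale.Agent.P167.H632 (bl first_exit)
open Vale.Agent.P167.H519 (Rat)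

variable {Q : ℝ}

/-! ### Monotonicity -/

theorem congr_reg {F G : Set (ℤ × ℤ)} {Rg : Set (ℤ × ℤ)} {u v : ℤ × ℤ}
    (h : ∀ a b : ℤ × ℤ, a ∈ Rg → b ∈ Rg → PStep F a b → PStep G a b)
    (huv : PConn F Rg u v) : PConn G Rg u v := by
  obtain ⟨h0, h1⟩ := huv
  induction h1 with
  | refl => exact PConn.refl h0
  | @tail x y hx hxy ih => exact ih.tail (h x y ih.right_mem hxy.2 hxy.1) hxy.2

theorem loc_Ar (x : ℤ × ℤ) (d : ℤ) : Loc (HB x d) ((Ar x d).indicator 1) := by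
  have key : ∀ ω ω' : Cfg, (∀ v ∈ HB x d, ω v = ω' v) → ω ∈ Ar x d → ω' ∈ Ar x d := by
    rintro ω ω' h ⟨v, h1, h2⟩
    refine ⟨v, h1, congr_reg (fun a b ha hb hab => ?_) h2⟩
    obtain ⟨s1, s2, s3⟩ := hab
    refine ⟨s1, s2, ?_⟩
    have ha1 : nm (a - x) ≤ d := ha.1
    have hb1 : nm (b - x) ≤ d := hb.1
    have ha2 : x.2 ≤ a.2 := ha.2
    have hb2 : x.2 ≤ b.2 := hb.2
    unfold nm at ha1 hb1
    simp only [Prod.fst_sub, Prod.snd_sub, max_le_iff, abs_le] at ha1 hb1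
    show ω' _ = true
    rw [← h _ ?_]
    · exact s3
    · rw [mem_HB]
      dsimp only
      omega
  intro ω ω' h1
  by_cases h2 : ω ∈ Ar x d
  · rw [Set.indicator_of_mem h2, Set.indicator_of_mem (key ω ω' h1 h2)]
    rfl
  · have h3 : ω' ∉ Ar x d := fun h3 => h2 (key ω' ω (fun v hv => (h1 v hv).symm) h3)
    rw [Set.indicator_of_notMem h2, Set.indicator_of_notMem h3]

theorem Ar_anti (x : ℤ × ℤ) {d d' : ℤ} (h0 : 0 ≤ d') (h : d' ≤ d) : Ar x d ⊆ Ar x d' := by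
  rintro ω ⟨v, h1, h2⟩
  obtain ⟨z, z1, z2, -⟩ := first_exit (b := x) (R := d') h2 (by simpa [nm] using h0) (h.trans h1)
  refine ⟨z, z1.ge, z2.mono subset_rfl ?_⟩
  rintro w ⟨⟨h3, h4⟩, h5⟩
  exact ⟨h5, h4⟩

theorem ah_nonneg (hQ : 0 < Q) (L d : ℤ) : 0 ≤ ah Q L d := Pr_nonneg hQ _

theorem ah_le_one (hQ : 0 < Q) (L d : ℤ) : ah Q L d ≤ 1 := Pr_le_one hQ _

/-- **Quasi-monotonicity** of the one-arm probability. -/
theorem ah_anti (hQ : 1 ≤ Q) {L : ℤ} (hL : Rat Q L) {d d' : ℤ} (h0 : 1 ≤ d') (h : d' ≤ d) :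
    ah Q L d ≤ 2 * ah Q L d' := by
  have hQ0 : 0 < Q := by linarith
  have hL2 := hL.1
  have hLL : 1 ≤ L * L := by nlinarith
  have e0 : ∀ t : ℤ, L * (L * t) = (L * L) * t := fun t => by ring
  have hR : L * (L * d') ≤ L * (L * d) := by
    rw [e0, e0]
    exact mul_le_mul_of_nonneg_left h (by omega)
  have hR' : d' ≤ L * (L * d') := by
    rw [e0]
    nlinarith
  have h1 : ah Q L d ≤ Pr Q (HB 0 (L * (L * d))) eta0 (Ar 0 d') :=
    Pr_mono hQ0 (Ar_anti 0 (by omega) h)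
  have h2 := (H192.Q.dom_le (Q := Q) (x := 0) (r := d') (R := L * (L * d')) (V := HB 0 d')
    (D := HB 0 (L * (L * d))) (η := eta0) (F := (Ar 0 d').indicator 1) hQ hL h0 le_rfl
    (fun v hv => by
      rw [mem_HB] at hv ⊢
      simp only [Prod.fst_zero, Prod.snd_zero] at hv ⊢
      omega)
    (fun v hv => by
      rw [mem_HB] at hv
      rw [mem_Bq']
      simp only [Prod.fst_zero, Prod.snd_zero] at hv ⊢
      omega) (fun _ => ind_nonneg _ _) (loc_Ar 0 d') f_good.2.1 H192.Q.fr_eta0).1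
  have e1 : HB 0 (L * (L * d)) ∩ Bq 0 (L * (L * d')) = HB 0 (L * (L * d')) := by
    ext v
    rw [Finset.mem_inter, mem_HB, mem_HB, mem_Bq']
    simp only [Prod.fst_zero, Prod.snd_zero]
    omega
  rw [e1] at h2
  exact h1.trans h2

/-! ### Sums -/

/-- The near sites. -/
noncomputable def En (n : ℤ) : Finset ℤ := (Finset.Icc 1 n).filter (fun k => Even k ∧ 2 * k ≤ n)

theorem mem_En {n k : ℤ} : k ∈ En n ↔ 1 ≤ k ∧ Even k ∧ 2 * k ≤ n := by
  rw [En, Finset.mem_filter, Finset.mem_Icc]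
  constructor
  · rintro ⟨⟨h1, h2⟩, h3, h4⟩
    exact ⟨h1, h3, h4⟩
  · rintro ⟨h1, h3, h4⟩
    exact ⟨⟨h1, by omega⟩, h3, h4⟩

theorem sum_arc {n : ℤ} (hn : Even n) (f : ℤ → ℝ) (hf : ∀ y, 0 ≤ f y) :
    ∑ k ∈ En n, (f (1 - k) + f (-n - 1 + k)) ≤
      ∑ y ∈ (Finset.Ioo (-n) 0).filter (fun y => Odd y), f y := by
  have e1 : ∑ k ∈ En n, f (1 - k) = ∑ y ∈ (En n).image (fun k => 1 - k), f y :=
    (Finset.sum_image (fun a _ b _ h => by omega)).symm
  have e2 : ∑ k ∈ En n, f (-n - 1 + k) = ∑ y ∈ (En n).image (fun k => -n - 1 + k), f y :=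
    (Finset.sum_image (fun a _ b _ h => by omega)).symm
  rw [Finset.sum_add_distrib, e1, e2, ← Finset.sum_union ?_]
  · refine Finset.sum_le_sum_of_subset_of_nonneg (fun y hy => ?_) fun _ _ _ => hf _
    rw [Finset.mem_filter, Finset.mem_Ioo, Int.odd_iff]
    rw [Int.even_iff] at hn
    rw [Finset.mem_union, Finset.mem_image, Finset.mem_image] at hy
    rcases hy with ⟨k, hk, rfl⟩ | ⟨k, hk, rfl⟩ <;> rw [mem_En, Int.even_iff] at hk <;> omega
  · rw [Finset.disjoint_left]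
    intro y hy hy'
    rw [Finset.mem_image] at hy hy'
    obtain ⟨k, hk, rfl⟩ := hy
    obtain ⟨k', hk', h⟩ := hy'
    rw [mem_En, Int.even_iff] at hk hk'
    omega

theorem sum_bot {n : ℤ} (hn : Even n) (f : ℤ → ℝ) :
    ∑ x ∈ ((Finset.Ioo (-(2 * n) - 1) (-n)) ∪ (Finset.Ioo 0 (n + 1))).filter (fun x => Even x), f x =
      ∑ k ∈ (Finset.Icc 1 n).filter (fun k => Even k), (f k + f (-n - k)) := by
  rw [Finset.filter_union, Finset.sum_union ?_, Finset.sum_add_distrib, add_comm]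
  · congr 1
    · refine Finset.sum_congr ?_ fun _ _ => rfl
      ext k
      rw [Finset.mem_filter, Finset.mem_filter, Finset.mem_Ioo, Finset.mem_Icc]
      constructor
      · rintro ⟨h1, h2⟩; exact ⟨by omega, h2⟩
      · rintro ⟨h1, h2⟩; exact ⟨by omega, h2⟩
    · have e2 : ∑ k ∈ (Finset.Icc 1 n).filter (fun k => Even k), f (-n - k) =
          ∑ y ∈ ((Finset.Icc 1 n).filter (fun k => Even k)).image (fun k => -n - k), f y :=
        (Finset.sum_image (fun a _ b _ h => by omega)).symm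
      rw [e2]
      refine Finset.sum_congr ?_ fun _ _ => rfl
      ext y
      rw [Finset.mem_filter, Finset.mem_Ioo, Finset.mem_image]
      rw [Int.even_iff] at hn
      constructor
      · rintro ⟨h1, h2⟩
        rw [Int.even_iff] at h2
        refine ⟨-n - y, ?_, by omega⟩
        rw [Finset.mem_filter, Finset.mem_Icc, Int.even_iff]
        omega
      · rintro ⟨k, hk, rfl⟩
        rw [Finset.mem_filter, Finset.mem_Icc, Int.even_iff] at hk
        rw [Int.even_iff]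
        omega
  · rw [Finset.disjoint_left]
    intro y hy hy'
    rw [Finset.mem_filter, Finset.mem_Ioo] at hy hy'
    omega

/-- Sum over all distances against the sum over the near sites. -/
theorem sum_ah {N s0 n : ℤ} (hs0 : 1 ≤ s0) (a g : ℤ → ℝ) (ha : ∀ d, a d ≤ 1)
    (hg : ∀ k, 0 ≤ g k) {B : ℝ} (hB : 0 ≤ B) (hN : N ≤ n)
    (h : ∀ d k : ℤ, Even k → s0 ≤ k → 4 * k ≤ d → d < 4 * k + 8 → d ≤ N → a d ≤ B * g k) :
    ∑ d ∈ Finset.Icc 1 N, a d ≤ (4 * s0 + 8) + 8 * B * ∑ k ∈ En n, g k := by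
  rw [← Finset.sum_filter_add_sum_filter_not (Finset.Icc 1 N) (fun d => 4 * s0 ≤ 8 * (d / 8))]
  have h1 : ∑ d ∈ (Finset.Icc 1 N).filter (fun d => 4 * s0 ≤ 8 * (d / 8)), a d ≤
      8 * B * ∑ k ∈ En n, g k := by
    have hmaps : ∀ d ∈ (Finset.Icc 1 N).filter (fun d => 4 * s0 ≤ 8 * (d / 8)),
        2 * (d / 8) ∈ En n := by
      intro d hd
      rw [Finset.mem_filter, Finset.mem_Icc] at hd
      rw [mem_En, Int.even_iff]
      omega
    rw [← Finset.sum_fiberwise_of_maps_to hmaps, Finset.mul_sum]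
    refine Finset.sum_le_sum fun k hk => ?_
    have hcard : ((((Finset.Icc 1 N).filter (fun d => 4 * s0 ≤ 8 * (d / 8))).filter
        (fun d => 2 * (d / 8) = k)).card : ℝ) ≤ 8 := by
      have h2 : ((Finset.Icc 1 N).filter (fun d => 4 * s0 ≤ 8 * (d / 8))).filter
          (fun d => 2 * (d / 8) = k) ⊆ Finset.Ico (4 * k) (4 * k + 8) := by
        intro d hd
        rw [Finset.mem_filter] at hd
        rw [Finset.mem_Ico]
        omega
      have h3 := Finset.card_le_card h2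
      rw [Int.card_Ico] at h3
      have h4 : (4 * k + 8 - 4 * k).toNat = 8 := by omega
      rw [h4] at h3
      exact_mod_cast h3
    have h5 := Finset.sum_le_card_nsmul (((Finset.Icc 1 N).filter
      (fun d => 4 * s0 ≤ 8 * (d / 8))).filter (fun d => 2 * (d / 8) = k)) a (B * g k)
      fun d hd => by
        rw [Finset.mem_filter, Finset.mem_filter, Finset.mem_Icc] at hd
        exact h d k (by rw [Int.even_iff]; omega) (by omega) (by omega) (by omega) (by omega)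
    refine h5.trans ?_
    rw [nsmul_eq_mul, mul_assoc]
    exact mul_le_mul_of_nonneg_right hcard (mul_nonneg hB (hg k))
  have h2 : ∑ d ∈ (Finset.Icc 1 N).filter (fun d => ¬ 4 * s0 ≤ 8 * (d / 8)), a d ≤
      4 * s0 + 8 := by
    have h3 := Finset.sum_le_card_nsmul ((Finset.Icc 1 N).filter
      (fun d => ¬ 4 * s0 ≤ 8 * (d / 8))) a 1 fun d _ => ha d
    have h4 : (Finset.Icc 1 N).filter (fun d => ¬ 4 * s0 ≤ 8 * (d / 8)) ⊆
        Finset.Ico 1 (4 * s0 + 8) := by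
      intro d hd
      rw [Finset.mem_filter, Finset.mem_Icc] at hd
      rw [Finset.mem_Ico]
      omega
    have h5 := Finset.card_le_card h4
    rw [Int.card_Ico] at h5
    have h6 : (((Finset.Icc 1 N).filter (fun d => ¬ 4 * s0 ≤ 8 * (d / 8))).card : ℝ) ≤
        4 * s0 + 8 := by
      have h7 : (((4 * s0 + 8 - 1).toNat : ℕ) : ℤ) ≤ 4 * s0 + 8 := by
        rw [Int.toNat_of_nonneg (by omega)]
        omega
      have h8 : (((Finset.Icc 1 N).filter (fun d => ¬ 4 * s0 ≤ 8 * (d / 8))).card : ℤ) ≤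
          4 * s0 + 8 := le_trans (by exact_mod_cast h5) h7
      exact_mod_cast h8
    rw [nsmul_eq_mul, mul_one] at h3
    exact h3.trans h6
  linarith

/-! ### Assembly -/

/-- **Regularity.** -/
theorem reg_of (hP : PFI) {μ : ℝ} (h0 : 0 < μ) (h1 : μ < Real.pi / 2)
    (hQ : 1 ≤ 2 * Real.cos μ) {L : ℤ} (hL : Rat (2 * Real.cos μ) L) (hR1 : R1 (2 * Real.cos μ))
    (hR2 : R2 (2 * Real.cos μ) L) (hR3 : R3 (2 * Real.cos μ) L) : REG (2 * Real.cos μ) L := by
  obtain ⟨c, K, s0, hc, hK, hs0, r2⟩ := hR2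
  obtain ⟨C, hC, r3⟩ := hR3
  obtain ⟨Q, hQe⟩ : ∃ Q, Q = 2 * Real.cos μ := ⟨_, rfl⟩
  rw [← hQe] at hQ hL hR1 r2 r3 ⊢
  have hQ0 : 0 < Q := by linarith
  have hL2 := hL.1
  have hLL : 1 ≤ L * L := by nlinarith
  -- the constants
  have hδ : 0 < 1 - Real.cos (2 * μ) := by
    rw [Real.cos_two_mul]
    have h2 : 0 < Real.sin μ := Real.sin_pos_of_pos_of_lt_pi h0 (by linarith [Real.pi_pos])
    have h3 := Real.sin_sq_add_cos_sq μ
    nlinarith [pow_pos h2 2]
  set δ := 1 - Real.cos (2 * μ) with hδdef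
  obtain ⟨M, hM⟩ : ∃ M : ℤ, M = 2 * (L * L) + 2 * K + 2 := ⟨_, rfl⟩
  obtain ⟨B, hB⟩ : ∃ B : ℝ, B = 2 / c := ⟨_, rfl⟩
  have hB0 : 0 < B := by rw [hB]; positivity
  obtain ⟨C2, hC2⟩ : ∃ C2 : ℝ, C2 = (4 * s0 + 9) + 8 * B / δ := ⟨_, rfl⟩
  have hs0' : (1 : ℝ) ≤ s0 := by exact_mod_cast hs0
  have hC20 : 0 < C2 := by rw [hC2]; positivity
  have hM0 : 1 ≤ M := by omega
  have hM0' : (1 : ℝ) ≤ M := by exact_mod_cast hM0
  refine ⟨1 / (C2 * (16 * M * C)), 1, by positivity, fun N _ hN => ?_⟩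
  have hN' : (1 : ℝ) ≤ N := by exact_mod_cast hN
  obtain ⟨n, hn⟩ : ∃ n, n = 2 * (M * N) := ⟨_, rfl⟩
  have hMN : N ≤ M * N := by nlinarith
  have hn1 : N ≤ n := by omega
  have hne : Even n := ⟨M * N, by omega⟩
  have hLN : L * (L * N) < M * N := by
    have e1 : M * N = L * (L * N) + (L * L + 2 * K + 2) * N := by rw [hM]; ring
    have e2 : 0 < (L * L + 2 * K + 2) * N := by positivity
    omega
  have hKN : K * N ≤ n := by
    have e1 : n = K * N + (4 * (L * L) + 3 * K + 4) * N := by rw [hn, hM]; ring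
    have e2 : 0 ≤ (4 * (L * L) + 3 * K + 4) * N := by positivity
    omega
  obtain ⟨x0, hx0⟩ : ∃ x0, x0 = -(2 * n) - 1 := ⟨_, rfl⟩
  obtain ⟨x1, hx1⟩ : ∃ x1, x1 = n + 1 := ⟨_, rfl⟩
  have hPa0 : ∀ s, 0 ≤ Pa Q x0 x1 n n s := fun s => Pr_nonneg hQ0 _
  have hPb0 : ∀ s, 0 ≤ Pb Q x0 x1 n n s := fun s => Pr_nonneg hQ0 _
  have id : 1 + ∑ y ∈ (Finset.Ioo (-n) 0).filter (fun y => Odd y), Pb Q x0 x1 n n (y, 0) =
      ∑ x ∈ (Finset.Ioo x0 x1).filter (fun x => Even x), Pa Q x0 x1 n n (x, n) +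
      Real.cos μ * ∑ y ∈ (Finset.Ioo 0 n).filter (fun y => Odd y),
        (Pa Q x0 x1 n n (x0, y) + Pa Q x0 x1 n n (x1, y)) +
      Real.cos (2 * μ) * ∑ x ∈ ((Finset.Ioo x0 (-n)) ∪ (Finset.Ioo 0 x1)).filter
        (fun x => Even x), Pa Q x0 x1 n n (x, 0) := by
    rw [hQe]
    refine hP μ x0 x1 n n h0 h1 ?_ ?_ hne hne (by omega) (by omega) (by omega) (by omega)
    · rw [Int.odd_iff]; omega
    · rw [Int.odd_iff]; rw [Int.even_iff] at hne; omega
  obtain ⟨g, hg⟩ : ∃ g : ℤ → ℝ, g = fun k => Pa Q x0 x1 n n (k, 0) +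
    Pa Q x0 x1 n n (-n - k, 0) := ⟨_, rfl⟩
  have hg0 : ∀ k, 0 ≤ g k := fun k => by rw [hg]; exact add_nonneg (hPa0 _) (hPa0 _)
  have hbot : ∑ x ∈ ((Finset.Ioo x0 (-n)) ∪ (Finset.Ioo 0 x1)).filter
        (fun x => Even x), Pa Q x0 x1 n n (x, 0) = ∑ k ∈ En n, g k +
      ∑ k ∈ (Finset.Icc 1 n).filter (fun k => Even k ∧ ¬ 2 * k ≤ n), g k := by
    rw [hx0, hx1, sum_bot hne (fun x => Pa Q (-(2 * n) - 1) (n + 1) n n (x, 0)),
      ← Finset.sum_filter_add_sum_filter_not _ (fun k => 2 * k ≤ n), Finset.filter_filter,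
      Finset.filter_filter, ← hx0, ← hx1, hg]
    rfl
  have harc : ∑ k ∈ En n, g k ≤
      ∑ y ∈ (Finset.Ioo (-n) 0).filter (fun y => Odd y), Pb Q x0 x1 n n (y, 0) := by
    refine le_trans (Finset.sum_le_sum fun k hk => ?_)
      (sum_arc hne (fun y => Pb Q x0 x1 n n (y, 0)) fun y => hPb0 _)
    rw [mem_En] at hk
    have := hR1 x0 x1 n n k hne (by omega) hk.2.1 (by omega)
    rw [hg]
    exact add_le_add this.1 this.2
  have far : ∀ s : ℤ × ℤ, OnB x0 x1 n s →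
      (∀ x : ℤ, -n ≤ x → x ≤ 0 → M * N ≤ |s.1 - x| ∨ M * N ≤ |s.2|) →
      Pa Q x0 x1 n n s ≤ C * ah Q L N := by
    intro s hs hd
    refine r3 x0 x1 n n N s hN (by omega) hs fun x hx hx' => ?_
    unfold nm
    simp only [Prod.fst_sub, Prod.snd_sub, sub_zero, lt_max_iff]
    rcases hd x hx hx' with h | h
    · left; omega
    · right; omega
  obtain ⟨a, ha⟩ : ∃ a, a = C * ah Q L N := ⟨_, rfl⟩
  have ha0 : 0 ≤ a := by rw [ha]; exact mul_nonneg hC.le (ah_nonneg hQ0 L N)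
  rw [← ha] at far
  have hnR : (0 : ℝ) ≤ n := by exact_mod_cast (by omega : (0 : ℤ) ≤ n)
  -- upper bounds
  have bound : ∀ (S : Finset ℤ) (f : ℤ → ℝ) (b : ℝ) (m : ℤ), 0 ≤ b → (S.card : ℤ) ≤ m →
      (∀ x ∈ S, f x ≤ b) → ∑ x ∈ S, f x ≤ m * b := by
    intro S f b m hb hS hf
    have h2 := Finset.sum_le_card_nsmul S f b hf
    rw [nsmul_eq_mul] at h2
    exact h2.trans (mul_le_mul_of_nonneg_right (by exact_mod_cast hS) hb)
  have htop : ∑ x ∈ (Finset.Ioo x0 x1).filter (fun x => Even x), Pa Q x0 x1 n n (x, n) ≤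
      (4 * n : ℤ) * a := by
    refine bound _ _ _ _ ha0 ?_ fun x hx => far _ ?_ fun x' _ _ => Or.inr ?_
    · have h2 := Finset.card_filter_le (Finset.Ioo x0 x1) (fun x => Even x)
      rw [Int.card_Ioo] at h2
      omega
    · rw [Finset.mem_filter, Finset.mem_Ioo] at hx
      refine ⟨hx.2.add hne, Or.inl ⟨by dsimp only; omega, by dsimp only; omega, Or.inr rfl⟩⟩
    · dsimp only
      rw [le_abs]
      omega
  have hlat : ∑ y ∈ (Finset.Ioo 0 n).filter (fun y => Odd y),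
      (Pa Q x0 x1 n n (x0, y) + Pa Q x0 x1 n n (x1, y)) ≤ (n : ℤ) * (2 * a) := by
    refine bound _ _ _ _ (by positivity) ?_ fun y hy => ?_
    · have h2 := Finset.card_filter_le (Finset.Ioo 0 n) (fun y => Odd y)
      rw [Int.card_Ioo] at h2
      omega
    · rw [Finset.mem_filter, Finset.mem_Ioo, Int.odd_iff] at hy
      rw [Int.even_iff] at hne
      have h2 := far (x0, y) ⟨by rw [Int.even_iff]; dsimp only; omega, Or.inr
        ⟨by dsimp only; omega, by dsimp only; omega, Or.inl rfl⟩⟩ fun x' _ _ => Or.inl (by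
          dsimp only; rw [le_abs]; omega)
      have h3 := far (x1, y) ⟨by rw [Int.even_iff]; dsimp only; omega, Or.inr
        ⟨by dsimp only; omega, by dsimp only; omega, Or.inr rfl⟩⟩ fun x' _ _ => Or.inl (by
          dsimp only; rw [le_abs]; omega)
      linarith
  have hfar : ∑ k ∈ (Finset.Icc 1 n).filter (fun k => Even k ∧ ¬ 2 * k ≤ n), g k ≤
      (n : ℤ) * (2 * a) := by
    refine bound _ _ _ _ (by positivity) ?_ fun k hk => ?_
    · have h2 := Finset.card_filter_le (Finset.Icc 1 n) (fun k => Even k ∧ ¬ 2 * k ≤ n)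
      rw [Int.card_Icc] at h2
      omega
    · rw [Finset.mem_filter, Finset.mem_Icc, Int.even_iff] at hk
      rw [Int.even_iff] at hne
      have h2 := far (k, 0) ⟨by rw [Int.even_iff]; dsimp only; omega, Or.inl
        ⟨by dsimp only; omega, by dsimp only; omega, Or.inl rfl⟩⟩ fun x' _ _ => Or.inl (by
          dsimp only; rw [le_abs]; omega)
      have h3 := far (-n - k, 0) ⟨by rw [Int.even_iff]; dsimp only; omega, Or.inl
        ⟨by dsimp only; omega, by dsimp only; omega, Or.inl rfl⟩⟩ fun x' _ _ => Or.inl (by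
          dsimp only; rw [le_abs]; omega)
      rw [hg]
      dsimp only
      linarith
  -- the near sum
  have hnear := sum_ah (N := N) (s0 := s0) (n := n) hs0 (ah Q L) g (ah_le_one hQ0 L) hg0
    hB0.le hn1 fun d k hk hk0 hkd _ hdN => by
      have h2 := ah_anti hQ hL (d := d) (d' := 4 * k) (by omega) hkd
      have hKk : K * k ≤ n := le_trans (mul_le_mul_of_nonneg_left (by omega) (by omega)) hKN
      have h3 := r2 x0 x1 n n k hk hk0 hKk (by omega) (by omega) hKk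
      have h4 : c * ah Q L (4 * k) ≤ g k := by
        rw [hg]
        exact h3.trans (le_add_of_nonneg_right (hPa0 _))
      have h5 : ah Q L (4 * k) ≤ g k / c := by
        rw [le_div_iff₀ hc]
        linarith
      have h6 : B * g k = 2 * (g k / c) := by rw [hB]; ring
      rw [h6]
      linarith
  -- conclusion
  obtain ⟨S, hS⟩ : ∃ S, S = ∑ k ∈ En n, g k := ⟨_, rfl⟩
  have hS0 : 0 ≤ S := by rw [hS]; exact Finset.sum_nonneg fun k _ => hg0 k
  rw [← hS] at hnear harc hbot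
  rw [hbot] at id
  obtain ⟨T1, hT1⟩ : ∃ T1, T1 = ∑ y ∈ (Finset.Ioo 0 n).filter (fun y => Odd y),
      (Pa Q x0 x1 n n (x0, y) + Pa Q x0 x1 n n (x1, y)) := ⟨_, rfl⟩
  obtain ⟨T2, hT2⟩ : ∃ T2, T2 = ∑ k ∈ (Finset.Icc 1 n).filter
    (fun k => Even k ∧ ¬ 2 * k ≤ n), g k := ⟨_, rfl⟩
  rw [← hT1] at hlat id
  rw [← hT2] at hfar id
  have hT10 : 0 ≤ T1 := by
    rw [hT1]; exact Finset.sum_nonneg fun k _ => add_nonneg (hPa0 _) (hPa0 _)
  have hT20 : 0 ≤ T2 := by rw [hT2]; exact Finset.sum_nonneg fun k _ => hg0 k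
  have c1 : Real.cos μ * T1 ≤ T1 := mul_le_of_le_one_left hT10 (Real.cos_le_one _)
  have c2 : Real.cos (2 * μ) * T2 ≤ T2 := mul_le_of_le_one_left hT20 (Real.cos_le_one _)
  have c3 : 1 + δ * S ≤ 8 * n * a := by
    have e1 : δ * S = S - Real.cos (2 * μ) * S := by rw [hδdef]; ring
    rw [mul_add] at id
    push_cast at htop
    nlinarith
  have c4 : 1 + ∑ d ∈ Finset.Icc 1 N, ah Q L d ≤ C2 * (1 + δ * S) := by
    have e1 : C2 * (1 + δ * S) = (4 * s0 + 9) + (4 * s0 + 9) * (δ * S) + 8 * B / δ +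
        8 * B * S := by
      rw [hC2]
      field_simp
      ring
    rw [e1]
    have e2 : 0 ≤ (4 * (s0 : ℝ) + 9) * (δ * S) := by positivity
    have e3 : 0 ≤ 8 * B / δ := by positivity
    linarith
  have c5 : C2 * (1 + δ * S) ≤ C2 * (8 * n * a) := mul_le_mul_of_nonneg_left c3 hC20.le
  have c6 : C2 * (8 * n * a) = (N * ah Q L N) * (C2 * (16 * M * C)) := by
    rw [ha, hn]
    push_cast
    ring
  have hpos : 0 < C2 * (16 * M * C) := by positivity
  rw [div_mul_eq_mul_div, one_mul, div_le_iff₀ hpos]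
  linarith

end Vale.Agent.P167.H469
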