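import Vale.Agent.P167.QT.OnE
import Vale.Agent.P167.H192.Dict2

/-!
# P167, general `q`: rotation of the lattice by a right angle
-/

set_option autoImplicit false

namespace Vale.Agent.P167.H469.R4

open MeasureTheory ProbabilityTheory Filter Topology Set
open Vale.Agent.P167.E6 Vale.Agent.P167.E2

/-! ### The lattice -/

/-- Rotation of the vertices. -/
def T (v : ℤ × ℤ) : ℤ × ℤ := (-v.2, v.1)

/-- The inverse rotation. -/
def Ti (v : ℤ × ℤ) : ℤ × ℤ := (v.2, -v.1)

/-- Rotation of the faces. -/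
def Tf (f : ℤ × ℤ) : ℤ × ℤ := (-f.2 - 1, f.1)

/-- Rotation of the medial edges. -/
def TM (c : Medial) : Medial := (T c.1, c.2 + 1)

theorem T_Ti (v : ℤ × ℤ) : T (Ti v) = v := by simp [T, Ti]

theorem Ti_T (v : ℤ × ℤ) : Ti (T v) = v := by simp [T, Ti]

theorem T_inj : Function.Injective T := Function.LeftInverse.injective Ti_T

theorem Tf_inj : Function.Injective Tf := by
  intro f g h
  simp only [Tf, Prod.mk.injEq] at h
  exact Prod.ext h.2 (by omega)

theorem T_add (v w : ℤ × ℤ) : T (v + w) = T v + T w := by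
  simp only [T, Prod.fst_add, Prod.snd_add, Prod.mk_add_mk]
  refine Prod.ext ?_ rfl
  dsimp only
  ring

theorem T_dir (r : Fin 4) : T (dir r) = dir (r + 1) := by
  fin_cases r <;> rfl

theorem face_T (v : ℤ × ℤ) (r : Fin 4) : face (T v) (r + 1) = Tf (face v r) := by
  obtain ⟨x, y⟩ := v
  fin_cases r <;> apply Prod.ext <;> simp [T, Tf, face] <;> ring

theorem face_T' (v : ℤ × ℤ) (r : Fin 4) : face (T v) r = Tf (face v (r - 1)) := by
  rw [← face_T, sub_add_cancel]

theorem pt_T (v : ℤ × ℤ) : pt (T v) = Complex.I * pt v := by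
  apply Complex.ext <;> simp [pt, T]

variable {n : ℕ} {p : ZMod n → ℤ × ℤ} {S : Finset (ℤ × ℤ)} {k : ℕ}

theorem isPolygon_T (h : IsPolygon p) : IsPolygon fun i => T (p i) := by
  obtain ⟨h1, h2, h3⟩ := h
  refine ⟨h1, T_inj.comp h2, fun i => ?_⟩
  obtain ⟨r, hr⟩ := h3 i
  refine ⟨r + 1, ?_⟩
  show T (p (i + 1)) = T (p i) + dir (r + 1)
  rw [hr, T_add, T_dir]

/-- The rotated set of faces. -/
def fS (S : Finset (ℤ × ℤ)) : Finset (ℤ × ℤ) := S.image Tf

theorem mem_fS {f : ℤ × ℤ} : Tf f ∈ fS S ↔ f ∈ S := by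
  unfold fS
  rw [Finset.mem_image]
  constructor
  · rintro ⟨g, hg, h⟩
    rwa [← Tf_inj h]
  · exact fun h => ⟨f, h, rfl⟩

theorem encloses_T (h : Encloses p S) : Encloses (fun i => T (p i)) (fS S) := by
  intro v r
  rw [← T_Ti v, face_T', face_T', mem_fS, mem_fS, ← h]
  constructor
  · rintro ⟨i, h1, h2⟩
    refine ⟨i, T_inj h1, T_inj ?_⟩
    rw [T_add, T_dir, sub_add_cancel]
    exact h2
  · rintro ⟨i, h1, h2⟩
    refine ⟨i, congrArg T h1, ?_⟩
    show T (p (i + 1)) = _
    rw [h2, T_add, T_dir, sub_add_cancel]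

/-! ### Edges -/

/-- Rotation of the edges. -/
def TE (e : Sym2 (ℤ × ℤ)) : Sym2 (ℤ × ℤ) := e.map T

theorem TE_inj : Function.Injective TE := Sym2.map.injective T_inj

theorem TE_mk (v w : ℤ × ℤ) : TE s(v, w) = s(T v, T w) := rfl

theorem TE_dir (v : ℤ × ℤ) (r : Fin 4) : TE s(v, v + dir r) = s(T v, T v + dir (r + 1)) := by
  rw [TE_mk, T_add, T_dir]

theorem edges_T : edges (fS S) = (edges S).image TE := by
  ext e
  rw [Finset.mem_image]
  constructor
  · intro he
    obtain ⟨v, r, rfl⟩ := H192.isEdge_edges he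
    refine ⟨s(Ti v, Ti v + dir (r - 1)), ?_, ?_⟩
    · rw [mem_edges] at he ⊢
      rw [← T_Ti v, face_T', face_T', mem_fS, mem_fS] at he
      exact he
    · rw [TE_dir, T_Ti, sub_add_cancel]
  · rintro ⟨e, he, rfl⟩
    obtain ⟨v, r, rfl⟩ := H192.isEdge_edges he
    rw [TE_dir, mem_edges, face_T, add_sub_right_comm, face_T', mem_fS, mem_fS, sub_add_cancel]
    rwa [mem_edges] at he

/-- Rotated sets of edges. -/
def TA (A : Finset (Sym2 (ℤ × ℤ))) : Finset (Sym2 (ℤ × ℤ)) := A.image TE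

theorem mem_TA {A : Finset (Sym2 (ℤ × ℤ))} {e : Sym2 (ℤ × ℤ)} : TE e ∈ TA A ↔ e ∈ A := by
  unfold TA
  rw [Finset.mem_image]
  constructor
  · rintro ⟨g, hg, h⟩
    rwa [← TE_inj h]
  · exact fun h => ⟨e, h, rfl⟩

theorem TA_inj : Function.Injective TA := Finset.image_injective TE_inj

theorem wired_T {A : Finset (Sym2 (ℤ × ℤ))} {e : Sym2 (ℤ × ℤ)} :
    TE e ∈ wiredOpen (fun i => T (p i)) k (TA A) ↔ e ∈ wiredOpen p k A := by
  unfold wiredOpen
  rw [Set.mem_ofPred_eq, Set.mem_ofPred_eq, mem_TA]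
  refine or_congr Iff.rfl (exists_congr fun i => and_congr Iff.rfl (and_congr Iff.rfl ?_))
  rw [← TE_mk]
  exact TE_inj.eq_iff

theorem ahead_T (c : Medial) : ahead (TM c) = TE (ahead c) := by
  unfold ahead TM
  rw [TE_dir]

theorem next_T {A : Finset (Sym2 (ℤ × ℤ))} (c : Medial) :
    next (wiredOpen (fun i => T (p i)) k (TA A)) (TM c) = TM (next (wiredOpen p k A) c) := by
  classical
  unfold next
  rw [ahead_T]
  by_cases h : ahead c ∈ wiredOpen p k A
  · rw [if_pos (wired_T.2 h), if_pos h]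
    simp only [TM]
    rw [T_add, T_dir]
    refine Prod.ext rfl ?_
    show c.2 + 1 - 1 = c.2 - 1 + 1
    rw [add_sub_right_comm]
  · rw [if_neg (fun h' => h (wired_T.1 h')), if_neg h]
    rfl

theorem mid_T (δ : ℝ) (c : Medial) : mid δ (TM c) = Complex.I * mid δ c := by
  unfold mid TM
  simp only
  rw [show T c.1 + dir (c.2 + 1 + 1) = T (c.1 + dir (c.2 + 1)) by rw [T_add, T_dir], pt_T, pt_T]
  ring

theorem poly_T (x : ℕ → ℂ) (m : ℕ) (t : ℝ) :
    poly (fun j => Complex.I * x j) m t = Complex.I * poly x m t := by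
  unfold poly
  ring

/-- Rotated curves. -/
noncomputable def mI (γ : C(unitInterval, ℂ)) : C(unitInterval, ℂ) :=
  ⟨fun t => Complex.I * γ t, continuous_const.mul γ.continuous⟩

/-- Curves rotated back. -/
noncomputable def mJ (γ : C(unitInterval, ℂ)) : C(unitInterval, ℂ) :=
  ⟨fun t => -Complex.I * γ t, continuous_const.mul γ.continuous⟩

theorem mJ_mI (γ : C(unitInterval, ℂ)) : mJ (mI γ) = γ := by
  ext t
  simp only [mJ, mI, ContinuousMap.coe_mk]
  rw [← mul_assoc, neg_mul, Complex.I_mul_I]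
  ring

theorem mI_mJ (γ : C(unitInterval, ℂ)) : mI (mJ γ) = γ := by
  ext t
  simp only [mJ, mI, ContinuousMap.coe_mk]
  rw [← mul_assoc, mul_neg, Complex.I_mul_I]
  ring

theorem continuous_mI : Continuous mI := by
  have h : ∀ x y : C(unitInterval, ℂ), dist (mI x) (mI y) ≤ dist x y := by
    intro x y
    rw [ContinuousMap.dist_le dist_nonneg]
    intro t
    simp only [mI, ContinuousMap.coe_mk]
    rw [dist_eq_norm, ← mul_sub, norm_mul, Complex.norm_I, one_mul, ← dist_eq_norm]
    exact ContinuousMap.dist_apply_le_dist t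
  exact (LipschitzWith.of_dist_le_mul (K := 1) fun x y => by simpa using h x y).continuous

theorem continuous_mJ : Continuous mJ := by
  have h : ∀ x y : C(unitInterval, ℂ), dist (mJ x) (mJ y) ≤ dist x y := by
    intro x y
    rw [ContinuousMap.dist_le dist_nonneg]
    intro t
    simp only [mJ, ContinuousMap.coe_mk]
    rw [dist_eq_norm, ← mul_sub, norm_mul, norm_neg, Complex.norm_I, one_mul, ← dist_eq_norm]
    exact ContinuousMap.dist_apply_le_dist t
  exact (LipschitzWith.of_dist_le_mul (K := 1) fun x y => by simpa using h x y).continuous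

/-- **Rotated interfaces.** -/
theorem isInterface_T {δ : ℝ} {A : Finset (Sym2 (ℤ × ℤ))} {γ : C(unitInterval, ℂ)}
    (h : IsInterface p k δ A γ) : IsInterface (fun i => T (p i)) k δ (TA A) (mI γ) := by
  obtain ⟨m, c, h1, h2, h3, h4, h5, h6, h7, h8⟩ := h
  refine ⟨m, fun j => TM (c j), h1, ?_, ?_, ?_, ?_, ?_, ?_, ?_⟩
  · simp only [TM]
    rw [h2]
  · simp only [TM]
    rw [← h3, T_add, T_dir]
  · intro j
    show TM (c (j + 1)) = next _ (TM (c j))
    rw [h4, next_T]
  · rintro j hj ⟨g1, g2⟩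
    refine h5 j hj ⟨T_inj g1, T_inj ?_⟩
    simp only [TM] at g2
    rw [T_add, T_dir]
    exact g2
  · simp only [TM]
    rw [h6]
  · simp only [TM]
    rw [← h7, T_add, T_dir]
  · intro t
    simp only [mI, ContinuousMap.coe_mk]
    rw [h8, ← poly_T]
    congr 1
    funext j
    exact (mid_T δ (c j)).symm

/-! ### The weights -/

theorem mem_verts {v : ℤ × ℤ} : v ∈ Final.verts S ↔ ∃ r, face v r ∈ S := by
  unfold Final.verts
  rw [Finset.mem_biUnion]
  constructor
  · rintro ⟨f, hf, h⟩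
    simp only [Finset.mem_insert, Finset.mem_singleton] at h
    obtain ⟨x, y⟩ := f
    rcases h with rfl | rfl | rfl | rfl
    · exact ⟨0, by simpa [face] using hf⟩
    · exact ⟨1, by simpa [face] using hf⟩
    · exact ⟨3, by simpa [face] using hf⟩
    · exact ⟨2, by simpa [face] using hf⟩
  · rintro ⟨r, hr⟩
    refine ⟨face v r, hr, ?_⟩
    simp only [Finset.mem_insert, Finset.mem_singleton]
    obtain ⟨x, y⟩ := v
    fin_cases r <;> simp [face]

theorem verts_T {v : ℤ × ℤ} : T v ∈ Final.verts (fS S) ↔ v ∈ Final.verts S := by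
  rw [mem_verts, mem_verts]
  constructor
  · rintro ⟨r, hr⟩
    rw [face_T', mem_fS] at hr
    exact ⟨_, hr⟩
  · rintro ⟨r, hr⟩
    exact ⟨r + 1, by rwa [face_T, mem_fS]⟩

theorem clusters_T (A : Finset (Sym2 (ℤ × ℤ))) :
    Final.clusters (fun i => T (p i)) k (fS S) (TA A) = Final.clusters p k S A := by
  unfold Final.clusters
  symm
  refine Nat.card_congr (SimpleGraph.Iso.connectedComponentEquiv ?_)
  refine ⟨⟨fun v => ⟨T v.1, verts_T.2 v.2⟩, fun v => ⟨Ti v.1, ?_⟩, fun v => ?_, fun v => ?_⟩, ?_⟩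
  · have h := v.2
    rw [← T_Ti v.1] at h
    exact verts_T.1 h
  · exact Subtype.ext (Ti_T _)
  · exact Subtype.ext (T_Ti _)
  · intro v w
    simp only [Equiv.coe_fn_mk, SimpleGraph.comap_adj, Function.Embedding.subtype_apply,
      SimpleGraph.fromEdgeSet_adj]
    rw [← TE_mk]
    refine and_congr ?_ T_inj.ne_iff
    exact wired_T (A := A) (k := k) (p := p)

theorem weight_T (q : ℝ) (A : Finset (Sym2 (ℤ × ℤ))) :
    Final.weight q (fun i => T (p i)) k (fS S) (TA A) = Final.weight q p k S A := by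
  unfold Final.weight
  rw [clusters_T]
  have h1 : (TA A).card = A.card := Finset.card_image_of_injective _ TE_inj
  have h2 : (Final.edges (fS S)).card = (Final.edges S).card := by
    have h3 : (edges (fS S)).card = (edges S).card := by
      rw [edges_T, Finset.card_image_of_injective _ TE_inj]
    exact h3
  rw [h1, h2]

theorem powerset_T : (edges (fS S)).powerset = (edges S).powerset.image TA := by
  ext B
  rw [Finset.mem_powerset, edges_T, Finset.mem_image]
  constructor
  · intro h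
    classical
    refine ⟨(edges S).filter (fun e => TE e ∈ B), ?_, ?_⟩
    · exact Finset.mem_powerset.2 (Finset.filter_subset _ _)
    · ext e
      unfold TA
      rw [Finset.mem_image]
      constructor
      · rintro ⟨g, hg, rfl⟩
        exact (Finset.mem_filter.1 hg).2
      · intro he
        obtain ⟨g, hg, rfl⟩ := Finset.mem_image.1 (h he)
        exact ⟨g, Finset.mem_filter.2 ⟨hg, he⟩, rfl⟩
  · rintro ⟨A, hA, rfl⟩
    exact Finset.image_subset_image (Finset.mem_powerset.1 hA)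

theorem mean_T (q : ℝ) (F : Finset (Sym2 (ℤ × ℤ)) → ℝ) :
    QE.meanW (fS S) (QE.wq q _ (fun i => T (p i)) k (fS S)) F =
      QE.meanW S (QE.wq q _ p k S) fun A => F (TA A) := by
  unfold QE.meanW
  rw [powerset_T, Finset.sum_image fun _ _ _ _ h => TA_inj h,
    Finset.sum_image fun _ _ _ _ h => TA_inj h]
  unfold QE.wq
  simp only [weight_T]

end Vale.Agent.P167.H469.R4
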