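import Vale.Agent.P167.H469.Rot1

/-!
# P167, general `q`: rotation of the lattice by a right angle, convergence for `StairU`
-/

set_option autoImplicit false

namespace Vale.Agent.P167.H469.R4

open MeasureTheory ProbabilityTheory Filter Topology Set
open Vale.Agent.P167.E6 Vale.Agent.P167.E2
open Vale.Agent.P153.R2.Final (dom circ toC IsUniformizer)
open Vale.Agent.P164 (IsSLE)

/-- Rotation of the plane. -/
def rho : (ℝ × ℝ) ≃ₜ (ℝ × ℝ) where
  toFun z := (-z.2, z.1)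
  invFun z := (z.2, -z.1)
  left_inv z := by simp
  right_inv z := by simp
  continuous_toFun := by fun_prop
  continuous_invFun := by fun_prop

theorem toC_rho (z : ℝ × ℝ) : toC (rho z) = Complex.I * toC z := by
  apply Complex.ext <;> simp [toC, rho]

variable {Φ : (ℝ × ℝ) ≃ₜ (ℝ × ℝ)} {ψ : ℂ → ℂ} {δ : ℕ → ℝ} {N k : ℕ → ℕ}
  {p : ∀ n, ZMod (N n) → ℤ × ℤ} {S : ℕ → Finset (ℤ × ℤ)}

theorem toC_trans (z : ℝ × ℝ) : toC ((Φ.trans rho) z) = Complex.I * toC (Φ z) := by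
  rw [← toC_rho]
  rfl

theorem approx_T (h : Approx Φ δ N k p S) :
    Approx (Φ.trans rho) δ N k (fun n i => T (p n i)) fun n => fS (S n) := by
  obtain ⟨h1, h2, h3⟩ := h
  refine ⟨fun n => ?_, h2, fun ε hε => ?_⟩
  · obtain ⟨g1, g2, g3, g4, g5⟩ := h1 n
    exact ⟨g1, g2, g3, isPolygon_T g4, encloses_T g5⟩
  · filter_upwards [h3 ε hε] with n hn
    obtain ⟨s, s1, s2, s3, s4, s5⟩ := hn
    refine ⟨s, s1, s2, s3, s4, fun i hi t ht => ?_⟩
    have h := s5 i hi t ht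
    rw [toC_trans, pt_T, mul_left_comm, dist_eq_norm, ← mul_sub, norm_mul, Complex.norm_I, one_mul,
      ← dist_eq_norm]
    exact h

theorem unif_T (h : IsUniformizer Φ ψ) :
    IsUniformizer (Φ.trans rho) fun z => Complex.I * ψ z := by
  obtain ⟨h1, h2, h3, h4, h5, h6⟩ := h
  refine ⟨h1.const_mul _, fun x hx y hy hxy => h2 hx hy ?_, ?_, continuousOn_const.mul h4, ?_, ?_⟩
  · exact mul_left_cancel₀ Complex.I_ne_zero hxy
  · have e1 : (fun z => Complex.I * ψ z) '' {z : ℂ | 0 < z.im} =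
        (fun z => Complex.I * z) '' (ψ '' {z : ℂ | 0 < z.im}) := (image_image _ _ _).symm
    have e2 : toC '' dom (Φ.trans rho) = (fun z => Complex.I * z) '' (toC '' dom Φ) := by
      unfold dom
      rw [image_image, image_image, image_image]
      exact image_congr fun z _ => toC_trans z
    rw [e1, e2, h3]
  · rw [toC_trans, ← h5]
  · rw [toC_trans]
    exact h6.const_mul _

theorem stair_T {d : Fin 4} (h : QE.Stair d Φ δ N k p S) :
    QE.Stair (d + 1) (Φ.trans rho) δ N k (fun n i => T (p n i)) fun n => fS (S n) := by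
  obtain ⟨r, hr, h⟩ := h
  refine ⟨r, hr, ?_⟩
  filter_upwards [h] with n hn m hm
  obtain ⟨h1, h2⟩ := hn m hm
  constructor
  · show T (p n (_ + 1)) = T (p n _) + _
    rw [h1, T_add]
    split_ifs
    · rw [T_dir]
    · rw [T_dir]
  · show T (p n _) = T (p n _) + _
    rw [h2, T_add]
    split_ifs
    · rw [T_dir]
    · rw [T_dir]

/-- Rotation back of the edges. -/
def TAi (A : Finset (Sym2 (ℤ × ℤ))) : Finset (Sym2 (ℤ × ℤ)) := A.image (Sym2.map Ti)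

theorem TAi_TA (A : Finset (Sym2 (ℤ × ℤ))) : TAi (TA A) = A := by
  unfold TAi TA
  rw [Finset.image_image]
  have h : (Sym2.map Ti) ∘ TE = id := by
    funext e
    induction e using Sym2.ind with
    | _ v w =>
      show s(Ti (T v), Ti (T w)) = s(v, w)
      rw [Ti_T, Ti_T]
  rw [h, Finset.image_id]

variable {Ω : Type} [MeasurableSpace Ω]

/-- Convergence to the curves `G` given by `ψ` and `γ`, for the class `K`. -/
def Cv (wt : QE.Wt) (P : Measure Ω) (γ : Ω → ℝ → ℂ) (K : QE.Cls) (Φ : (ℝ × ℝ) ≃ₜ (ℝ × ℝ))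
    (ψ : ℂ → ℂ) : Prop :=
  ∀ G : Ω → C(unitInterval, ℂ),
    (∀ᵐ ω ∂P, G ω 1 = toC (Φ (circ Real.pi)) ∧
      ∀ t : unitInterval, (t : ℝ) < 1 → G ω t = ψ (γ ω (t / (1 - t)))) →
    ∀ (δ : ℕ → ℝ) (N k : ℕ → ℕ) (p : ∀ n, ZMod (N n) → ℤ × ℤ)
      (S : ℕ → Finset (ℤ × ℤ)), Approx Φ δ N k p S → K Φ δ N k p S →
      ∀ c : ∀ n, Finset (Sym2 (ℤ × ℤ)) → C(unitInterval, ℂ),
        (∀ n, ∀ A ⊆ edges (S n), IsInterface (p n) (k n) (δ n) A (c n A)) →
        ∀ F : C(unitInterval, ℂ) → ℝ, Continuous F → (∃ M, ∀ x, |F x| ≤ M) →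
          (∀ (x : C(unitInterval, ℂ)) (σ : C(unitInterval, unitInterval)), StrictMono σ →
            Function.Surjective σ → F (x.comp σ) = F x) →
          Tendsto (fun n => QE.meanW (S n) (wt _ (p n) (k n) (S n)) fun A => F (c n A)) atTop
            (𝓝 (∫ ω, F (G ω) ∂P))

/-- **One rotation.** -/
theorem cv_step {q : ℝ} {P : Measure Ω} {γ : Ω → ℝ → ℂ} {d : Fin 4}
    (h : Cv (QE.wq q) P γ (QE.Stair (d + 1)) (Φ.trans rho) fun z => Complex.I * ψ z) :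
    Cv (QE.wq q) P γ (QE.Stair d) Φ ψ := by
  intro G hG δ N k p S hA hK c hc F hF hM hinv
  have hG' : ∀ᵐ ω ∂P, mI (G ω) 1 = toC ((Φ.trans rho) (circ Real.pi)) ∧
      ∀ t : unitInterval, (t : ℝ) < 1 → mI (G ω) t = Complex.I * ψ (γ ω (t / (1 - t))) := by
    filter_upwards [hG] with ω hω
    refine ⟨?_, fun t ht => ?_⟩
    · rw [toC_trans, ← hω.1]
      rfl
    · rw [← hω.2 t ht]
      rfl
  have hc' : ∀ n, ∀ B ⊆ edges (fS (S n)),
      IsInterface (fun i => T (p n i)) (k n) (δ n) B (mI (c n (TAi B))) := by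
    intro n B hB
    have hB' := Finset.mem_powerset.2 hB
    rw [powerset_T, Finset.mem_image] at hB'
    obtain ⟨A, hA', rfl⟩ := hB'
    rw [TAi_TA]
    exact isInterface_T (hc n A (Finset.mem_powerset.1 hA'))
  have h1 := h (fun ω => mI (G ω)) hG' δ N k (fun n i => T (p n i)) (fun n => fS (S n))
    (approx_T hA) (stair_T hK) (fun n B => mI (c n (TAi B))) hc' (fun x => F (mJ x))
    (hF.comp continuous_mJ) (by
      obtain ⟨M, hM⟩ := hM
      exact ⟨M, fun x => hM _⟩) (fun x σ h1 h2 => by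
      have e : mJ (x.comp σ) = (mJ x).comp σ := by
        ext t
        rfl
      rw [e]
      exact hinv _ σ h1 h2)
  simp only [mJ_mI] at h1
  refine h1.congr fun n => ?_
  rw [mean_T]
  simp only [TAi_TA]

/-- **Convergence for all staircases** from the convergence for the staircases in one direction. -/
theorem curveLimitOn_stairU {κ q : ℝ} (h : QE.CurveLimitOn (QE.Stair 3) κ (QE.wq q)) :
    QE.CurveLimitOn QT.StairU κ (QE.wq q) := by
  obtain ⟨Ω, _, P, _, γ, hsle, h⟩ := h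
  refine ⟨Ω, _, P, ‹_›, γ, hsle, fun Φ => ⟨(h Φ).1, fun ψ hψ => ?_⟩⟩
  have h3 : ∀ (Φ : (ℝ × ℝ) ≃ₜ (ℝ × ℝ)) (ψ : ℂ → ℂ), IsUniformizer Φ ψ →
      Cv (QE.wq q) P γ (QE.Stair 3) Φ ψ := by
    intro Φ ψ hψ G hG δ N k p S hA hK c hc F hF hM hinv
    obtain ⟨G', g1, -, g3⟩ := (h Φ).2 ψ hψ
    have h1 := (g3 δ N k p S hA).2 hK c hc F hF hM hinv
    have h2 : ∫ ω, F (G' ω) ∂P = ∫ ω, F (G ω) ∂P := by
      refine integral_congr_ae ?_
      filter_upwards [hG, g1] with ω a1 a2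
      have e : G' ω = G ω := by
        ext t
        rcases lt_or_eq_of_le t.2.2 with ht | ht
        · rw [a1.2 t ht, a2.2 t ht]
        · have ht' : t = 1 := Subtype.ext ht
          rw [ht', a1.1, a2.1]
      simp only [e]
    rwa [h2] at h1
  have h2 : ∀ (Φ : (ℝ × ℝ) ≃ₜ (ℝ × ℝ)) (ψ : ℂ → ℂ), IsUniformizer Φ ψ →
      Cv (QE.wq q) P γ (QE.Stair 2) Φ ψ := fun Φ ψ hψ => cv_step (h3 _ _ (unif_T hψ))
  have h1 : ∀ (Φ : (ℝ × ℝ) ≃ₜ (ℝ × ℝ)) (ψ : ℂ → ℂ), IsUniformizer Φ ψ →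
      Cv (QE.wq q) P γ (QE.Stair 1) Φ ψ := fun Φ ψ hψ => cv_step (h2 _ _ (unif_T hψ))
  have h0 : ∀ (Φ : (ℝ × ℝ) ≃ₜ (ℝ × ℝ)) (ψ : ℂ → ℂ), IsUniformizer Φ ψ →
      Cv (QE.wq q) P γ (QE.Stair 0) Φ ψ := fun Φ ψ hψ => cv_step (h1 _ _ (unif_T hψ))
  obtain ⟨G, g1, g2, g3⟩ := (h Φ).2 ψ hψ
  refine ⟨G, g1, g2, fun δ N k p S hA => ⟨(g3 δ N k p S hA).1, ?_⟩⟩
  rintro ⟨d, hd⟩ c hc F hF hM hinv
  have hd' : d = 0 ∨ d = 1 ∨ d = 2 ∨ d = 3 := by
    fin_cases d <;> simp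
  rcases hd' with rfl | rfl | rfl | rfl
  · exact h0 Φ ψ hψ G g1 δ N k p S hA hd c hc F hF hM hinv
  · exact h1 Φ ψ hψ G g1 δ N k p S hA hd c hc F hF hM hinv
  · exact h2 Φ ψ hψ G g1 δ N k p S hA hd c hc F hF hM hinv
  · exact h3 Φ ψ hψ G g1 δ N k p S hA hd c hc F hF hM hinv

end Vale.Agent.P167.H469.R4
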