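import Vale.Agent.P167.H469.Far
import Vale.Agent.P167.H208.SmAll
import Vale.Agent.P167.H199.QTchA

/-!
# P167, general `q`, block Q-SRSW: strong Russo-Seymour-Welsh from the parafermionic identity
-/

namespace Vale.Agent.P167.H469

open Finset Relation Vale.Agent.P167.FK Vale.Agent.P167.FKA Vale.Agent.P167.H947.Q
  Vale.Agent.P167.QM
open Vale.Agent.P167.H519 (Rat)

variable {Q : ℝ}

theorem regS_of {L : ℤ} (h : REG Q L) : H208.RegS Q L := by
  obtain ⟨c, n0, hc, h1⟩ := h
  exact ⟨c, max n0 1, hc, le_max_right _ _, fun n hn =>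
    h1 n ((le_max_left _ _).trans hn) ((le_max_right _ _).trans hn)⟩

/-- **Strong RSW at a flat free side**, from the parafermionic identity. -/
theorem srsw_of_pfi (hP : PFI) {μ : ℝ} (h0 : 0 < μ) (h1 : μ < Real.pi / 2)
    (hQ : 1 ≤ 2 * Real.cos μ) (hR : RSW (2 * Real.cos μ)) : H192.Q.SRSW (2 * Real.cos μ) :=
  H199.srsw_of_t hQ hR (H208.srswt_all hQ hR fun _ hL => regS_of (reg hP h0 h1 hQ hR hL))

end Vale.Agent.P167.H469
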